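import Vale.Agent.P153.RP.MR
import Vale.Agent.P153.Iso.B5

/-!
# P153, block B: the density of the spectral measure satisfies `Iso.DensHyp`
-/

open MeasureTheory ProbabilityTheory Filter Topology Set
open scoped ENNReal Real

namespace Vale.Agent.P153.RP

/-- The coordinates `(a, b) = (k_x, k_x / 2 + √3 / 2 k_y)`. -/
noncomputable def shearL : (ℝ × ℝ) ≃ₗ[ℝ] (ℝ × ℝ) where
  toFun p := (p.1, p.1 / 2 + √3 / 2 * p.2)
  invFun p := (p.1, (p.2 - p.1 / 2) * (2 / √3))
  map_add' p q := by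
    apply Prod.ext
    · rfl
    · simp only [Prod.fst_add, Prod.snd_add]; ring
  map_smul' c p := by
    apply Prod.ext
    · rfl
    · simp only [Prod.smul_fst, Prod.smul_snd, smul_eq_mul, RingHom.id_apply]; ring
  left_inv p := by
    have h3 : √(3:ℝ) ≠ 0 := by positivity
    apply Prod.ext
    · rfl
    · simp only; field_simp; ring
  right_inv p := by
    have h3 : √(3:ℝ) ≠ 0 := by positivity
    apply Prod.ext
    · rfl
    · simp only; field_simp; ring

/-- `ℂ → ℝ × ℝ`. -/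
noncomputable def LC : ℂ ≃L[ℝ] (ℝ × ℝ) := Complex.equivRealProdCLM.trans shearL.toContinuousLinearEquiv

theorem LC_apply (z : ℂ) : LC z = (z.re, z.re / 2 + √3 / 2 * z.im) := rfl

theorem qmp_LC : Measure.QuasiMeasurePreserving LC (volume : Measure ℂ) (volume : Measure (ℝ × ℝ)) := by
  refine ⟨LC.continuous.measurable, ?_⟩
  have h1 : Measure.IsAddHaarMeasure (Measure.map LC (volume : Measure ℂ)) :=
    LC.isAddHaarMeasure_map volume
  rw [Measure.isAddLeftInvariant_eq_smul (Measure.map LC (volume : Measure ℂ)) (volume : Measure (ℝ × ℝ))]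
  exact Measure.smul_absolutelyContinuous

/-- The torus point of a complex momentum. -/
noncomputable def PC (z : ℂ) : U × U := (pm z.re, pm (z.re / 2 + √3 / 2 * z.im))

theorem ae_PC {Q : U × U → Prop} (h : ∀ᵐ p, Q p) : ∀ᵐ z : ℂ, Q (PC z) := by
  have := qmp_LC.ae (ae_pm2 h)
  exact this

theorem PC_measurable : Measurable PC := by
  unfold PC
  apply Measurable.prodMk
  · exact pm_measurable.comp Complex.measurable_re
  · exact pm_measurable.comp ((Complex.measurable_re.div_const 2).add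
      (Complex.measurable_im.const_mul _))

theorem s3sq : √(3:ℝ) * √3 = 3 := Real.mul_self_sqrt (by norm_num)

theorem PC_om (z : ℂ) : rP (PC (Iso.om * z)) = PC z := by
  have h3 := s3sq
  unfold PC rP
  rw [Iso.om_mul_re, Iso.om_mul_im]
  have e1 : (z.re / 2 - √3 / 2 * z.im) / 2 + √3 / 2 * (√3 / 2 * z.re + z.im / 2) = z.re := by
    linear_combination (z.re / 4) * h3
  rw [e1]
  apply Prod.ext
  · rfl
  · simp only
    rw [← pm_sub]
    congr 1
    ring

theorem PC_conj (z : ℂ) : PC ((starRingEnd ℂ) z) = fP (PC z) := by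
  unfold PC fP
  rw [Complex.conj_re, Complex.conj_im]
  apply Prod.ext
  · rfl
  · simp only
    rw [← pm_sub]
    congr 1
    ring

theorem PC_1 (z : ℂ) : (PC z).2 + (PC z).2 - (PC z).1 = pm (√3 * z.im) := by
  unfold PC
  simp only
  rw [← pm_add, ← pm_sub]
  congr 1
  ring

theorem PC_2 (z : ℂ) : (PC z).2 - (PC z).1 - (PC z).1 = pm (√3 / 2 * z.im - 3 / 2 * z.re) := by
  unfold PC
  simp only
  rw [← pm_sub, ← pm_sub]
  congr 1
  ring

theorem PC_3 (z : ℂ) : (PC z).1 + (PC z).2 = pm (√3 / 2 * z.im + 3 / 2 * z.re) := by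
  unfold PC
  simp only
  rw [← pm_add]
  congr 1
  ring

theorem tP_PC (z : ℂ) : tP (PC z) = (pm z.re, pm (√3 * z.im)) := by
  have := PC_1 z
  unfold tP
  rw [this]
  rfl

theorem Xe_toReal (y : U) : (Xe y).toReal = Xu y := ENNReal.toReal_ofReal (Xu_nonneg y)

theorem Xu_hf (y : U) : Xu (y + hf) = 4 - Xu y := by
  unfold Xu
  rw [fourier_add_arg, fourier_one_hf]
  simp only [mul_neg, mul_one, Complex.neg_re]
  ring

/-- Lower bound for `X`. -/
theorem X_low {θ : ℝ} (h : |θ| ≤ 1) : θ ^ 2 / 2 ≤ Xu (pm θ) := by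
  rw [Xu_pm]
  have h1 := Iso.X_ge h
  have h2 : θ ^ 2 ≤ 1 := by
    rw [← sq_abs]; exact pow_le_one₀ (abs_nonneg _) h
  have h3 : 0 ≤ θ ^ 2 := by positivity
  nlinarith

theorem X_up (θ : ℝ) : Xu (pm θ) ≤ θ ^ 2 := by
  rw [Xu_pm]; exact Iso.X_le θ

variable {V : (Fin 2 → ℤ) → ℝ}

/-- The mass bound on the torus. -/
theorem bounds (h : RPH V) : ∀ᵐ p : U × U,
    (fD h p * Xe (p.2 + p.2 - p.1) ≤ ENNReal.ofReal (2048 * V E1)) ∧
    (fD h p * Xe (p.2 - p.1 - p.1) ≤ ENNReal.ofReal (2048 * V E1)) ∧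
    (fD h p * Xe (p.1 + p.2) ≤ ENNReal.ofReal (2048 * V E1)) := by
  have e : ENNReal.ofReal (2048 * V E1) = 8 * ENNReal.ofReal (256 * V E1) := by
    have : (8 : ℝ≥0∞) = ENNReal.ofReal 8 := by simp
    rw [this, ← ENNReal.ofReal_mul (by norm_num)]
    congr 1; ring
  have m1 : ∀ᵐ p : U × U, Ms h p.1 ≤ ENNReal.ofReal (256 * V E1) :=
    Measure.quasiMeasurePreserving_fst.ae (Ms_le h)
  have m2 : ∀ᵐ p : U × U, Ms h p.2 ≤ ENNReal.ofReal (256 * V E1) :=
    Measure.quasiMeasurePreserving_snd.ae (Ms_le h)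
  have m3 : ∀ᵐ p : U × U, Ms h (p.2 - p.1) ≤ ENNReal.ofReal (256 * V E1) :=
    rP_mp.quasiMeasurePreserving.ae m2
  filter_upwards [fD_le1 h, fD_le2 h, fD_le3 h, m1, m2, m3] with p h1 h2 h3 m1 m2 m3
  rw [e]
  exact ⟨h1.trans (mul_le_mul_right m1 _), h2.trans (mul_le_mul_right m2 _),
    h3.trans (mul_le_mul_right m3 _)⟩

theorem toReal_bound {a : ℝ≥0∞} {y : U} {B : ℝ} (hB : 0 ≤ B) (h : a * Xe y ≤ ENNReal.ofReal B) :
    a.toReal * Xu y ≤ B := by
  have := ENNReal.toReal_mono ENNReal.ofReal_ne_top h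
  rwa [ENNReal.toReal_mul, Xe_toReal, ENNReal.toReal_ofReal hB] at this

theorem ne_top_bound {a : ℝ≥0∞} {y : U} {B : ℝ} (hy : 0 < Xu y) (h : a * Xe y ≤ ENNReal.ofReal B) :
    a ≠ ⊤ := by
  rintro rfl
  have : Xe y ≠ 0 := by
    unfold Xe
    rw [Ne, ENNReal.ofReal_eq_zero, not_le]; exact hy
  rw [ENNReal.top_mul this] at h
  exact ENNReal.ofReal_ne_top (top_le_iff.1 h)

theorem VE1_nonneg (h : RPH V) : 0 ≤ V E1 := h.toVH.toVH0.nonneg _


theorem sum_X_low {z : ℂ} (hz : ‖z‖ < 1 / 4) :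
    9 / 4 * ‖z‖ ^ 2 ≤ Xu (pm (√3 * z.im)) + Xu (pm (√3 / 2 * z.im - 3 / 2 * z.re)) +
      Xu (pm (√3 / 2 * z.im + 3 / 2 * z.re)) := by
  have h3 := s3sq
  have hs := Iso.sqrt3_lt
  have hs0 : 0 < √(3:ℝ) := by positivity
  have hre := (Complex.abs_re_le_norm z)
  have him := (Complex.abs_im_le_norm z)
  have n : ‖z‖ ^ 2 = z.re ^ 2 + z.im ^ 2 := by
    rw [← Complex.normSq_eq_norm_sq, Complex.normSq_apply]; ring
  have r1 := abs_le.1 (hre.trans hz.le)
  have r2 := abs_le.1 (him.trans hz.le)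
  have a1 := X_low (θ := √3 * z.im) (by rw [abs_le]; constructor <;> nlinarith)
  have a2 := X_low (θ := √3 / 2 * z.im - 3 / 2 * z.re) (by rw [abs_le]; constructor <;> nlinarith)
  have a3 := X_low (θ := √3 / 2 * z.im + 3 / 2 * z.re) (by rw [abs_le]; constructor <;> nlinarith)
  have e : (√3 * z.im) ^ 2 / 2 + (√3 / 2 * z.im - 3 / 2 * z.re) ^ 2 / 2 +
      (√3 / 2 * z.im + 3 / 2 * z.re) ^ 2 / 2 = 9 / 4 * ‖z‖ ^ 2 := by
    rw [n]
    linear_combination (z.im ^ 2 * (3 / 4)) * h3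
  linarith

theorem psi_toReal (h : RPH V) (x y : ℝ) (hs : ∀ᵐ τ ∂(mR h x), 0 ≤ τ ∧ τ < 1) :
    (PsU h (pm x, pm (√3 * y))).toReal = Iso.Psi (fun x => mR h x) x y := by
  unfold Iso.Psi PsU
  rw [integral_eq_lintegral_of_nonneg_ae]
  · congr 1
    apply lintegral_congr
    intro τ
    simp only
    rw [dU_pm]
    rfl
  · filter_upwards [hs] with τ hτ
    exact one_div_nonneg.2 (Iso.den_pos' hτ.1 hτ.2).le
  · apply Measurable.aestronglyMeasurable
    unfold Iso.den
    fun_prop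

theorem densHyp (h : RPH V) : ∃ C ρ, Iso.DensHyp (phiR h) (fun x => mR h x) C ρ := by
  have hV := VE1_nonneg h
  have hfmeas : Measurable (phiR h) := ((fD_measurable h).comp PC_measurable).ennreal_toReal.div_const 2
  refine ⟨2048 * V E1, 1 / 4, ⟨by norm_num, hfmeas, ?_, ?_, ?_, ?_, ?_, ?_, ?_⟩⟩
  · intro z
    unfold phiR
    positivity
  · filter_upwards [ae_PC (bounds h)] with z hz hz1
    obtain ⟨b1, b2, b3⟩ := hz
    rw [PC_1] at b1
    rw [PC_2] at b2
    rw [PC_3] at b3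
    have c1 := toReal_bound (by positivity) b1
    have c2 := toReal_bound (by positivity) b2
    have c3 := toReal_bound (by positivity) b3
    have hx := sum_X_low hz1
    have hF : 0 ≤ (fD h (PC z)).toReal := ENNReal.toReal_nonneg
    have hφ : phiR h z = (fD h (PC z)).toReal / 2 := rfl
    rw [hφ]
    have := mul_le_mul_of_nonneg_left hx hF
    nlinarith
  · have h1 : ∀ᵐ z : ℂ, fD h (rP (PC z)) = fD h (PC z) := ae_PC (fD_rP h)
    have hc : Iso.om ∈ Submonoid.unitSphere ℂ := by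
      rw [Submonoid.unitSphere]
      simp [Iso.norm_om]
    set c : Circle := ⟨Iso.om, hc⟩ with hcdef
    have h2 : ∀ᵐ z : ℂ, fD h (rP (PC (Iso.om * z))) = fD h (PC (Iso.om * z)) :=
      (rotation c).measurePreserving.quasiMeasurePreserving.ae h1
    filter_upwards [h2] with z hz
    rw [PC_om] at hz
    show (fD h (PC (Iso.om * z))).toReal / 2 = (fD h (PC z)).toReal / 2
    rw [hz]
  · have h1 : ∀ᵐ z : ℂ, fD h (fP (PC z)) = fD h (PC z) := ae_PC (fD_fP h)
    filter_upwards [h1] with z hz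
    show (fD h (PC ((starRingEnd ℂ) z))).toReal / 2 = (fD h (PC z)).toReal / 2
    rw [PC_conj, hz]
  · exact ae_pm (mU_supp h)
  · filter_upwards [ae_pm (Ms_le h)] with x hx _
    exact ne_top_of_le_ne_top ENNReal.ofReal_ne_top hx
  · have hbQ : ∀ᵐ z : ℂ, fD h (PC z + Qp) * Xe ((PC z + Qp).2 - (PC z + Qp).1 - (PC z + Qp).1) ≤
        ENNReal.ofReal (2048 * V E1) := by
      have := mp_Qp.quasiMeasurePreserving.ae (bounds h)
      filter_upwards [ae_PC this] with z hz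
      exact hz.2.1
    have h0 : ∀ᵐ z : ℂ, z ≠ 0 := by
      have : (volume : Measure ℂ) {0} = 0 := measure_singleton 0
      exact measure_eq_zero_iff_ae_notMem.1 this
    filter_upwards [ae_PC (bounds h), ae_PC (fold_fD h), hbQ, h0, Iso.ae_re (ae_pm (mU_supp h))] with
      z hb hfold hq hz0 hs hz1
    obtain ⟨b1, b2, b3⟩ := hb
    rw [PC_1] at b1
    rw [PC_2] at b2
    rw [PC_3] at b3
    have hx := sum_X_low hz1
    have hn : 0 < ‖z‖ := norm_pos_iff.2 hz0
    have hpos : 0 < 9 / 4 * ‖z‖ ^ 2 := by positivity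
    have n1 := Xu_nonneg (pm (√3 * z.im))
    have n2 := Xu_nonneg (pm (√3 / 2 * z.im - 3 / 2 * z.re))
    have n3 := Xu_nonneg (pm (√3 / 2 * z.im + 3 / 2 * z.re))
    have htop : fD h (PC z) ≠ ⊤ := by
      rcases lt_or_ge 0 (Xu (pm (√3 * z.im))) with k1 | k1
      · exact ne_top_bound k1 b1
      · rcases lt_or_ge 0 (Xu (pm (√3 / 2 * z.im - 3 / 2 * z.re))) with k2 | k2
        · exact ne_top_bound k2 b2
        · exact ne_top_bound (by linarith) b3
    -- the point near `Q`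
    have eQ : (PC z + Qp).2 - (PC z + Qp).1 - (PC z + Qp).1 =
        pm (√3 / 2 * z.im - 3 / 2 * z.re) + hf := by
      rw [← PC_2]
      show (PC z).2 + hf - ((PC z).1 + 0) - ((PC z).1 + 0) = _
      rw [add_zero]
      abel
    rw [eQ] at hq
    have hs3 := Iso.sqrt3_lt
    have hs0 : 0 < √(3:ℝ) := by positivity
    have r1 := abs_le.1 ((Complex.abs_re_le_norm z).trans hz1.le)
    have r2 := abs_le.1 ((Complex.abs_im_le_norm z).trans hz1.le)
    have hXQ : 2 ≤ Xu (pm (√3 / 2 * z.im - 3 / 2 * z.re) + hf) := by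
      rw [Xu_hf]
      have u1 := X_up (√3 / 2 * z.im - 3 / 2 * z.re)
      have u2 : (√3 / 2 * z.im - 3 / 2 * z.re) ^ 2 ≤ 1 := by
        rw [← sq_abs]
        apply pow_le_one₀ (abs_nonneg _)
        rw [abs_le]; constructor <;> nlinarith
      linarith
    have htopQ : fD h (PC z + Qp) ≠ ⊤ := ne_top_bound (by linarith) hq
    have hqr := toReal_bound (by positivity) hq
    rw [tP_PC] at hfold
    have hre := congrArg ENNReal.toReal hfold
    rw [ENNReal.toReal_add htop htopQ, ENNReal.toReal_mul, psi_toReal h _ _ hs] at hre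
    have hφ : phiR h z = (fD h (PC z)).toReal / 2 := rfl
    have h2 : (2 : ℝ≥0∞).toReal = 2 := by simp
    rw [h2] at hre
    have hF : 0 ≤ (fD h (PC z + Qp)).toReal := ENNReal.toReal_nonneg
    have e : phiR h z - Iso.Psi (fun x => mR h x) z.re z.im = -((fD h (PC z + Qp)).toReal / 2) := by
      rw [hφ]; linarith
    rw [e, abs_neg, abs_of_nonneg (by positivity)]
    nlinarith

end Vale.Agent.P153.RP
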