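import Vale.Agent.P153.RP.Null

/-!
# Null lines from mixing of even functionals: the probabilistic side
-/

open MeasureTheory Filter Topology UnitAddTorus
open scoped NNReal ENNReal

namespace Vale.Agent.P153.RP

open Vale.Agent.P153.GFF (Plane var2 shift Adj)

/-- lattice point as a pair -/
def qq (x : Fin 2 → ℤ) : ℤ × ℤ := (x 0, x 1)

theorem qq_add (x y : Fin 2 → ℤ) : qq (x + y) = qq x + qq y := rfl

theorem qq_inj : Function.Injective qq := by
  intro x y h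
  funext i
  fin_cases i
  · exact congrArg Prod.fst h
  · exact congrArg Prod.snd h

/-- the variogram of a plane measure -/
noncomputable def VP (P : Measure (ℤ × ℤ → ℤ)) (x : Fin 2 → ℤ) : ℝ := var2 P (qq x)

/-- gradient -/
noncomputable def gr (e x : Fin 2 → ℤ) (φ : ℤ × ℤ → ℤ) : ℝ := (φ (qq (x + e)) : ℝ) - φ (qq x)

theorem meas_ev (x : ℤ × ℤ) : Measurable fun φ : ℤ × ℤ → ℤ => ((φ x : ℤ) : ℝ) :=
  (measurable_from_top (f := fun n : ℤ => (n : ℝ))).comp (measurable_pi_apply x)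

theorem gr_measurable (e x : Fin 2 → ℤ) : Measurable (gr e x) := (meas_ev _).sub (meas_ev _)

theorem shift_measurable (t : ℤ × ℤ) : Measurable (shift t) := by
  refine measurable_pi_iff.2 fun x => ?_
  exact (measurable_pi_apply (x + t)).sub (measurable_pi_apply t)

theorem gr_shift (e x t : Fin 2 → ℤ) (φ : ℤ × ℤ → ℤ) : gr e x (shift (qq t) φ) = gr e (x + t) φ := by
  unfold gr shift
  rw [← qq_add, ← qq_add]
  push_cast
  rw [show x + e + t = x + t + e by abel]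
  ring

theorem lip_step (φ : ℤ × ℤ → ℤ) (h : ∀ x y, Adj x y → |φ x - φ y| ≤ 1) (x : ℤ × ℤ) (d : ℤ × ℤ)
    (hd : ∀ x, Adj x (x + d)) (n : ℕ) : |φ (x + (n : ℤ) • d) - φ x| ≤ n := by
  induction n with
  | zero => simp
  | succ n ih =>
    have h1 := h (x + (n : ℤ) • d) (x + (n : ℤ) • d + d) (hd _)
    have e1 : x + ((n + 1 : ℕ) : ℤ) • d = x + (n : ℤ) • d + d := by
      push_cast
      rw [add_smul, one_smul, add_assoc]
    rw [e1]
    rw [abs_le] at h1 ih ⊢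
    push_cast
    constructor <;> linarith [h1.1, h1.2, ih.1, ih.2]

theorem lip_step' (φ : ℤ × ℤ → ℤ) (h : ∀ x y, Adj x y → |φ x - φ y| ≤ 1) (x : ℤ × ℤ) (d : ℤ × ℤ)
    (hd : ∀ x, Adj x (x + d)) (n : ℤ) : |φ (x + n • d) - φ x| ≤ |n| := by
  rcases Int.natAbs_eq n with hn | hn
  · have := lip_step φ h x d hd n.natAbs
    rw [← hn] at this
    exact this.trans (le_abs_self n)
  · have := lip_step φ h (x + n • d) d hd n.natAbs
    have e : x + n • d + ((n.natAbs : ℕ) : ℤ) • d = x := by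
      rw [add_assoc, ← add_smul]
      have : n + (n.natAbs : ℤ) = 0 := by omega
      rw [this, zero_smul, add_zero]
    rw [e, abs_sub_comm] at this
    exact this.trans (by rw [Int.natCast_natAbs])

theorem adj10 (x : ℤ × ℤ) : Adj x (x + (1, 0)) := by
  unfold Adj
  simp

theorem adj01 (x : ℤ × ℤ) : Adj x (x + (0, 1)) := by
  unfold Adj
  simp

/-- bound of the gradient in direction `e` -/
noncomputable def Kb (e : Fin 2 → ℤ) : ℝ := |(e 0 : ℝ)| + |(e 1 : ℝ)|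

theorem Kb_nonneg (e : Fin 2 → ℤ) : 0 ≤ Kb e := by unfold Kb; positivity

theorem gr_bdd (φ : ℤ × ℤ → ℤ) (h : ∀ x y, Adj x y → |φ x - φ y| ≤ 1) (e x : Fin 2 → ℤ) :
    |gr e x φ| ≤ Kb e := by
  have h1 := lip_step' φ h (qq x) (1, 0) adj10 (e 0)
  have h2 := lip_step' φ h (qq x + (e 0) • ((1, 0) : ℤ × ℤ)) (0, 1) adj01 (e 1)
  have e1 : qq x + (e 0) • ((1, 0) : ℤ × ℤ) + (e 1) • ((0, 1) : ℤ × ℤ) = qq (x + e) := by
    unfold qq
    ext <;> simp
  rw [e1] at h2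
  have h3 : |φ (qq (x + e)) - φ (qq x)| ≤ |e 0| + |e 1| := by
    have := abs_sub_le (φ (qq (x + e))) (φ (qq x + (e 0) • ((1, 0) : ℤ × ℤ))) (φ (qq x))
    linarith
  unfold gr Kb
  exact_mod_cast h3

variable {P : Measure (ℤ × ℤ → ℤ)}

theorem gr_bdd_ae (h : Plane P) : ∀ᵐ φ ∂P, ∀ e x, |gr e x φ| ≤ Kb e := by
  filter_upwards [h.lip] with φ hφ e x
  exact gr_bdd φ hφ e x

theorem gr_mul_int (h : Plane P) (e x e' x' : Fin 2 → ℤ) :
    Integrable (fun φ => gr e x φ * gr e' x' φ) P := by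
  have := h.prob
  refine Integrable.of_bound (C := Kb e * Kb e')
    ((gr_measurable e x).mul (gr_measurable e' x')).aestronglyMeasurable ?_
  filter_upwards [gr_bdd_ae h] with φ hφ
  rw [norm_mul, Real.norm_eq_abs, Real.norm_eq_abs]
  exact mul_le_mul (hφ e x) (hφ e' x') (abs_nonneg _) (Kb_nonneg e)

theorem gr_sq (h : Plane P) (e x : Fin 2 → ℤ) : ∫ φ, gr e x φ ^ 2 ∂P = VP P e := by
  have h1 : ∫ φ, gr e 0 φ ^ 2 ∂(P.map (shift (qq x))) = ∫ φ, gr e x φ ^ 2 ∂P := by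
    rw [integral_map (shift_measurable _).aemeasurable ((gr_measurable e 0).pow_const 2).aestronglyMeasurable]
    simp_rw [gr_shift, zero_add]
  rw [← h1, h.shift]
  unfold VP var2
  apply integral_congr_ae
  filter_upwards [h.zero] with φ hφ
  have e0 : φ (qq 0) = 0 := hφ
  unfold gr
  rw [e0, zero_add]
  push_cast
  rw [sub_zero]

theorem gr_cov (h : Plane P) (e x y : Fin 2 → ℤ) :
    ∫ φ, gr e x φ * gr e y φ ∂P = CV (VP P) e (x - y) := by
  have e1 : ∀ φ, gr e x φ * gr e y φ = (gr (x - y + e) y φ ^ 2 + gr (x - y - e) (y + e) φ ^ 2 -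
      gr (x - y) (y + e) φ ^ 2 - gr (x - y) y φ ^ 2) / 2 := by
    intro φ
    unfold gr
    rw [show y + (x - y + e) = x + e by abel, show y + e + (x - y - e) = x by abel,
      show y + e + (x - y) = x + e by abel, show y + (x - y) = x by abel]
    ring
  simp_rw [e1]
  have hi : ∀ e x, Integrable (fun φ => gr e x φ ^ 2) P := by
    intro e x
    have := gr_mul_int h e x e x
    simpa [sq] using this
  rw [integral_div, integral_sub, integral_sub, integral_add (hi _ _) (hi _ _), gr_sq h, gr_sq h,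
    gr_sq h, gr_sq h, CV]
  · ring
  · exact (hi _ _).add (hi _ _)
  · exact hi _ _
  · exact ((hi _ _).add (hi _ _)).sub (hi _ _)
  · exact hi _ _

/-- average of gradients -/
noncomputable def Xf (N : ℕ) (v e s : Fin 2 → ℤ) (φ : ℤ × ℤ → ℤ) : ℝ :=
  (N : ℝ)⁻¹ * ∑ a ∈ Finset.range N, gr e ((a : ℤ) • v + s) φ

theorem Xf_measurable (N : ℕ) (v e s : Fin 2 → ℤ) : Measurable (Xf N v e s) := by
  unfold Xf
  exact measurable_const.mul (Finset.measurable_sum _ fun a _ => gr_measurable _ _)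

theorem Xf_shift (N : ℕ) (v e s t : Fin 2 → ℤ) (φ : ℤ × ℤ → ℤ) :
    Xf N v e s (shift (qq t) φ) = Xf N v e (s + t) φ := by
  unfold Xf
  simp_rw [gr_shift, add_assoc]

theorem Xf_bdd (N : ℕ) (v e s : Fin 2 → ℤ) (φ : ℤ × ℤ → ℤ) (h : ∀ e x, |gr e x φ| ≤ Kb e) :
    |Xf N v e s φ| ≤ Kb e := by
  unfold Xf
  rw [abs_mul, abs_of_nonneg (by positivity : (0 : ℝ) ≤ (N : ℝ)⁻¹)]
  rcases Nat.eq_zero_or_pos N with rfl | hN
  · simp [Kb_nonneg]
  · have hN' : (0 : ℝ) < N := by exact_mod_cast hN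
    rw [inv_mul_le_iff₀ hN']
    refine (Finset.abs_sum_le_sum_abs _ _).trans ?_
    refine (Finset.sum_le_sum (g := fun _ => Kb e) fun a _ => h _ _).trans ?_
    simp

theorem Xf_neg (N : ℕ) (v e s : Fin 2 → ℤ) (φ : ℤ × ℤ → ℤ) : Xf N v e s (-φ) = -Xf N v e s φ := by
  unfold Xf
  rw [← mul_neg, ← Finset.sum_neg_distrib]
  congr 1
  apply Finset.sum_congr rfl
  intro a _
  unfold gr
  simp only [Pi.neg_apply]
  push_cast
  ring

/-- covariance of averages -/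
theorem Xf_cov (h : Plane P) (h0 : VH0 (VP P)) (N : ℕ) (v e s t : Fin 2 → ℤ) :
    ∫ φ, Xf N v e s φ * Xf N v e t φ ∂P = ∫ θ, FN N v θ * cs (s - t) θ ∂(PE h0 e) := by
  have e1 : ∀ φ, Xf N v e s φ * Xf N v e t φ = ((N : ℝ)⁻¹) ^ 2 * ∑ a ∈ Finset.range N,
      ∑ b ∈ Finset.range N, gr e ((a : ℤ) • v + s) φ * gr e ((b : ℤ) • v + t) φ := by
    intro φ
    unfold Xf
    rw [show ∀ A B : ℝ, (N : ℝ)⁻¹ * A * ((N : ℝ)⁻¹ * B) = ((N : ℝ)⁻¹) ^ 2 * (A * B) by intro A B; ring,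
      Finset.sum_mul_sum]
  simp_rw [e1, ← FN_sum]
  rw [integral_const_mul, integral_const_mul]
  congr 1
  rw [integral_finsetSum _ fun a _ => integrable_finsetSum _ fun b _ => gr_mul_int h _ _ _ _,
    integral_finsetSum _ fun a _ => integrable_finsetSum _ fun b _ => cs_integrable _ _]
  apply Finset.sum_congr rfl
  intro a _
  rw [integral_finsetSum _ fun b _ => gr_mul_int h _ _ _ _,
    integral_finsetSum _ fun b _ => cs_integrable _ _]
  apply Finset.sum_congr rfl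
  intro b _
  rw [gr_cov h, PE_cs]
  congr 1
  rw [sub_smul]
  abel

theorem Xf_mul_int (h : Plane P) (N : ℕ) (v e s v' e' s' : Fin 2 → ℤ) :
    Integrable (fun φ => Xf N v e s φ * Xf N v' e' s' φ) P := by
  have := h.prob
  refine Integrable.of_bound (C := Kb e * Kb e')
    ((Xf_measurable N v e s).mul (Xf_measurable N v' e' s')).aestronglyMeasurable ?_
  filter_upwards [gr_bdd_ae h] with φ hφ
  rw [norm_mul, Real.norm_eq_abs, Real.norm_eq_abs]
  exact mul_le_mul (Xf_bdd N v e s φ hφ) (Xf_bdd N v' e' s' φ hφ) (abs_nonneg _) (Kb_nonneg e)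

theorem Xf_diff (h : Plane P) (h0 : VH0 (VP P)) (N : ℕ) (v e s t : Fin 2 → ℤ) :
    ∫ φ, (Xf N v e s φ - Xf N v e t φ) ^ 2 ∂P = ∫ θ, FN N v θ * (2 - 2 * cs (s - t) θ) ∂(PE h0 e) := by
  have e1 : ∀ φ, (Xf N v e s φ - Xf N v e t φ) ^ 2 = Xf N v e s φ * Xf N v e s φ +
      Xf N v e t φ * Xf N v e t φ - 2 * (Xf N v e s φ * Xf N v e t φ) := by
    intro φ; ring
  have hi := Xf_mul_int h N
  have i1 : Integrable (fun φ => Xf N v e s φ * Xf N v e s φ + Xf N v e t φ * Xf N v e t φ) P :=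
    (hi _ _ _ _ _ _).add (hi _ _ _ _ _ _)
  simp_rw [e1]
  rw [integral_sub i1 ((hi _ _ _ _ _ _).const_mul 2), integral_add (hi _ _ _ _ _ _) (hi _ _ _ _ _ _),
    integral_const_mul, Xf_cov h h0, Xf_cov h h0, Xf_cov h h0]
  have j : ∀ u, Integrable (fun θ => FN N v θ * cs u θ) (PE h0 e) := fun u =>
    FN_int _ N v (cs_continuous u) (abs_cs_le u)
  have e2 : ∀ θ : UnitAddTorus (Fin 2), FN N v θ * (2 - 2 * cs (s - t) θ) =
      FN N v θ * cs (s - s) θ + FN N v θ * cs (t - t) θ - 2 * (FN N v θ * cs (s - t) θ) := by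
    intro θ
    rw [sub_self, sub_self, cs_zero]; ring
  simp_rw [e2]
  have j1 : Integrable (fun θ => FN N v θ * cs (s - s) θ + FN N v θ * cs (t - t) θ) (PE h0 e) :=
    (j _).add (j _)
  rw [integral_sub j1 ((j _).const_mul 2), integral_add (j _) (j _), integral_const_mul]

/-! ### clamping -/

/-- truncation -/
noncomputable def cl (K t : ℝ) : ℝ := max (-K) (min K t)

theorem cl_abs {K : ℝ} (hK : 0 ≤ K) (t : ℝ) : |cl K t| ≤ K := by
  unfold cl
  rw [abs_le]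
  exact ⟨le_max_left _ _, max_le (by linarith) (min_le_left _ _)⟩

theorem cl_of_le {K t : ℝ} (h : |t| ≤ K) : cl K t = t := by
  unfold cl
  rw [abs_le] at h
  rw [min_eq_right h.2, max_eq_right h.1]

theorem cl_neg {K : ℝ} (hK : 0 ≤ K) (t : ℝ) : cl K (-t) = -cl K t := by
  unfold cl
  rcases le_total t K with h1 | h1 <;> rcases le_total (-K) t with h2 | h2
  · rw [min_eq_right (by linarith : -t ≤ K), max_eq_right (by linarith : -K ≤ -t), min_eq_right h1,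
      max_eq_right h2]
  · rw [min_eq_left (by linarith : K ≤ -t), max_eq_right (by linarith : -K ≤ K), min_eq_right h1,
      max_eq_left h2, neg_neg]
  · rw [min_eq_right (by linarith : -t ≤ K), max_eq_left (by linarith : -t ≤ -K), min_eq_left h1,
      max_eq_right (by linarith : -K ≤ K)]
  · have : t = K ∧ K = 0 := by constructor <;> linarith
    rw [this.1, this.2]; simp

theorem cl_measurable (K : ℝ) : Measurable (cl K) := by
  unfold cl
  exact measurable_const.max (measurable_const.min measurable_id)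

/-- truncated average -/
noncomputable def Xc (K : ℝ) (N : ℕ) (v e s : Fin 2 → ℤ) (φ : ℤ × ℤ → ℤ) : ℝ := cl K (Xf N v e s φ)

theorem Xc_ae (h : Plane P) {K : ℝ} {e : Fin 2 → ℤ} (hK : Kb e ≤ K) (N : ℕ) (v : Fin 2 → ℤ) :
    ∀ᵐ φ ∂P, ∀ s, Xc K N v e s φ = Xf N v e s φ := by
  filter_upwards [gr_bdd_ae h] with φ hφ s
  exact cl_of_le ((Xf_bdd N v e s φ hφ).trans hK)

/-- the sites used by an average -/
def sites (N : ℕ) (v e s : Fin 2 → ℤ) : Finset (ℤ × ℤ) :=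
  (Finset.range N).image (fun a : ℕ => qq ((a : ℤ) • v + s + e)) ∪
    (Finset.range N).image (fun a : ℕ => qq ((a : ℤ) • v + s))

theorem Xc_loc (K : ℝ) (N : ℕ) (v e s : Fin 2 → ℤ) (φ ψ : ℤ × ℤ → ℤ)
    (h : ∀ x ∈ sites N v e s, φ x = ψ x) : Xc K N v e s φ = Xc K N v e s ψ := by
  unfold Xc Xf
  congr 2
  apply Finset.sum_congr rfl
  intro a ha
  unfold gr
  rw [h (qq ((a : ℤ) • v + s + e)), h (qq ((a : ℤ) • v + s))]
  · exact Finset.mem_union_right _ (Finset.mem_image_of_mem _ ha)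
  · exact Finset.mem_union_left _ (Finset.mem_image_of_mem _ ha)

theorem Xc_measurable (K : ℝ) (N : ℕ) (v e s : Fin 2 → ℤ) : Measurable (Xc K N v e s) :=
  (cl_measurable K).comp (Xf_measurable N v e s)

theorem Xc_mix (h : Plane P) {K : ℝ} (hK : 0 ≤ K) (N : ℕ) (v e s v' e' s' w : Fin 2 → ℤ) (hw : w ≠ 0) :
    Tendsto (fun n : ℕ => ∫ φ, (Xc K N v e s φ * Xc K N v' e' s' φ) *
      (Xc K N v e s (shift (qq ((n : ℤ) • w)) φ) * Xc K N v' e' s' (shift (qq ((n : ℤ) • w)) φ)) ∂P) atTop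
      (𝓝 ((∫ φ, Xc K N v e s φ * Xc K N v' e' s' φ ∂P) *
        ∫ φ, Xc K N v e s φ * Xc K N v' e' s' φ ∂P)) := by
  have hm : Measurable fun φ => Xc K N v e s φ * Xc K N v' e' s' φ :=
    (Xc_measurable K N v e s).mul (Xc_measurable K N v' e' s')
  have hb : ∃ M, ∀ φ, |Xc K N v e s φ * Xc K N v' e' s' φ| ≤ M := ⟨K * K, fun φ => by
    rw [abs_mul]
    exact mul_le_mul (cl_abs hK _) (cl_abs hK _) (abs_nonneg _) hK⟩
  have he : ∀ φ : ℤ × ℤ → ℤ, Xc K N v e s (-φ) * Xc K N v' e' s' (-φ) =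
      Xc K N v e s φ * Xc K N v' e' s' φ := by
    intro φ
    unfold Xc
    rw [Xf_neg, Xf_neg, cl_neg hK, cl_neg hK]
    ring
  have hl : ∀ φ ψ : ℤ × ℤ → ℤ, (∀ x ∈ sites N v e s ∪ sites N v' e' s', φ x = ψ x) →
      Xc K N v e s φ * Xc K N v' e' s' φ = Xc K N v e s ψ * Xc K N v' e' s' ψ := by
    intro φ ψ hφ
    rw [Xc_loc K N v e s φ ψ fun x hx => hφ x (Finset.mem_union_left _ hx),
      Xc_loc K N v' e' s' φ ψ fun x hx => hφ x (Finset.mem_union_right _ hx)]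
  have h1 := h.mix (sites N v e s ∪ sites N v' e' s') (fun φ => Xc K N v e s φ * Xc K N v' e' s' φ)
    (fun φ => Xc K N v e s φ * Xc K N v' e' s' φ) hm hm hb hb he he hl hl
  have h2 : Tendsto (fun n : ℕ => qq ((n : ℤ) • w)) atTop cofinite := by
    rw [← Nat.cofinite_eq_atTop]
    apply Function.Injective.tendsto_cofinite
    intro a b hab
    have h3 := qq_inj hab
    have : ∃ i, w i ≠ 0 := by
      by_contra hc
      push Not at hc
      exact hw (funext hc)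
    obtain ⟨i, hi⟩ := this
    have := congrFun h3 i
    simp only [Pi.smul_apply, smul_eq_mul] at this
    exact_mod_cast mul_right_cancel₀ hi this
  exact h1.comp h2

/-- **main inequality** -/
theorem main_ineq (h : Plane P) (h0 : VH0 (VP P)) (v e s v' e' s' w : Fin 2 → ℤ) (hw : w ≠ 0) {K : ℝ}
    (hK : Kb e ≤ K) (hK' : Kb e' ≤ K)
    (H1 : ∀ n : ℕ, ∀ᵐ θ ∂(PE h0 e), mFourier v θ = 1 → cs ((n : ℤ) • w) θ = 1)
    (H2 : ∀ n : ℕ, ∀ᵐ θ ∂(PE h0 e'), mFourier v' θ = 1 → cs ((n : ℤ) • w) θ = 1) (N : ℕ) :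
    (∫ φ, Xf N v e s φ * Xf N v e s φ ∂P) * (∫ φ, Xf N v' e' s' φ * Xf N v' e' s' φ ∂P) ≤
      (∫ φ, Xf N v e s φ * Xf N v' e' s' φ ∂P) ^ 2 +
        4 * K ^ 3 * √(4 * (eps h0 e v N + eps h0 e' v' N)) := by
  have := h.prob
  have hK0 : 0 ≤ K := (Kb_nonneg e).trans hK
  have a1 := Xc_ae h hK N v
  have a2 := Xc_ae h hK' N v'
  have hD : ∀ (v e s : Fin 2 → ℤ) (hK : Kb e ≤ K)
      (H : ∀ n : ℕ, ∀ᵐ θ ∂(PE h0 e), mFourier v θ = 1 → cs ((n : ℤ) • w) θ = 1) (n : ℕ),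
      ∫ φ, (Xc K N v e s (shift (qq ((n : ℤ) • w)) φ) - Xc K N v e s φ) ^ 2 ∂P ≤ 4 * eps h0 e v N := by
    intro v e s hK H n
    have h1 : ∫ φ, (Xc K N v e s (shift (qq ((n : ℤ) • w)) φ) - Xc K N v e s φ) ^ 2 ∂P =
        ∫ φ, (Xf N v e (s + (n : ℤ) • w) φ - Xf N v e s φ) ^ 2 ∂P := by
      apply integral_congr_ae
      filter_upwards [gr_bdd_ae h] with φ hφ
      unfold Xc
      rw [Xf_shift, cl_of_le ((Xf_bdd N v e _ φ hφ).trans hK), cl_of_le ((Xf_bdd N v e _ φ hφ).trans hK)]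
    rw [h1, Xf_diff h h0, add_sub_cancel_left]
    exact FN_diff_le h0 e v _ N (H n)
  have key := sq_ineq P (fun n : ℕ => shift (qq ((n : ℤ) • w))) (fun n => shift_measurable _)
    (Xc_measurable K N v e s) (Xc_measurable K N v' e' s') (M := K)
    (ε := 4 * (eps h0 e v N + eps h0 e' v' N)) hK0 (fun φ => cl_abs hK0 _) (fun φ => cl_abs hK0 _)
    (fun n => (hD v e s hK H1 n).trans (by have := eps_nonneg h0 e' v' N; linarith))
    (fun n => (hD v' e' s' hK' H2 n).trans (by have := eps_nonneg h0 e v N; linarith))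
    (Xc_mix h hK0 N v e s v' e' s' w hw) (Xc_mix h hK0 N v e s v e s w hw)
    (Xc_mix h hK0 N v' e' s' v' e' s' w hw)
  have c1 : ∫ φ, Xc K N v e s φ * Xc K N v e s φ ∂P = ∫ φ, Xf N v e s φ * Xf N v e s φ ∂P := by
    apply integral_congr_ae
    filter_upwards [a1] with φ hφ
    rw [hφ]
  have c2 : ∫ φ, Xc K N v' e' s' φ * Xc K N v' e' s' φ ∂P =
      ∫ φ, Xf N v' e' s' φ * Xf N v' e' s' φ ∂P := by
    apply integral_congr_ae
    filter_upwards [a2] with φ hφ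
    rw [hφ]
  have c3 : ∫ φ, Xc K N v e s φ * Xc K N v' e' s' φ ∂P =
      ∫ φ, Xf N v e s φ * Xf N v' e' s' φ ∂P := by
    apply integral_congr_ae
    filter_upwards [a1, a2] with φ hφ hφ'
    rw [hφ, hφ']
  rw [c1, c2, c3] at key
  exact key

/-! ### the two null lines -/

theorem Xf_cov_tendsto (h : Plane P) (h0 : VH0 (VP P)) (v e s t : Fin 2 → ℤ) :
    Tendsto (fun N => ∫ φ, Xf N v e s φ * Xf N v e t φ ∂P) atTop
      (𝓝 (∫ θ in {θ | mFourier v θ = 1}, cs (s - t) θ ∂(PE h0 e))) := by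
  simp_rw [Xf_cov h h0]
  exact FN_cs_tendsto h0 e v (s - t)

theorem line_mass (h0 : VH0 (VP P)) (v e s : Fin 2 → ℤ) :
    ∫ θ in {θ | mFourier v θ = 1}, cs (s - s) θ ∂(PE h0 e) = (PE h0 e).real {θ | mFourier v θ = 1} := by
  rw [sub_self]
  simp_rw [cs_zero]
  rw [setIntegral_const, smul_eq_mul, mul_one]

theorem err_tendsto (h0 : VH0 (VP P)) (v e v' e' : Fin 2 → ℤ) (K : ℝ) :
    Tendsto (fun N => 4 * K ^ 3 * √(4 * (eps h0 e v N + eps h0 e' v' N))) atTop (𝓝 0) := by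
  have h1 : Tendsto (fun N => 4 * (eps h0 e v N + eps h0 e' v' N)) atTop (𝓝 (4 * (0 + 0))) :=
    ((eps_tendsto h0 e v).add (eps_tendsto h0 e' v')).const_mul 4
  have h2 := (Real.continuous_sqrt.tendsto _).comp h1
  have h3 := h2.const_mul (4 * K ^ 3)
  simpa using h3

/-- telescoping -/
theorem Xf_tele (N : ℕ) (e : Fin 2 → ℤ) (φ : ℤ × ℤ → ℤ) :
    Xf N e e 0 φ = (N : ℝ)⁻¹ * gr ((N : ℤ) • e) 0 φ := by
  unfold Xf
  congr 1
  have h1 : ∀ a : ℕ, gr e ((a : ℤ) • e + 0) φ =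
      (φ (qq (((a + 1 : ℕ) : ℤ) • e)) : ℝ) - φ (qq ((a : ℤ) • e)) := by
    intro a
    unfold gr
    rw [add_zero]
    congr 4
    push_cast
    rw [add_smul, one_smul]
  simp_rw [h1]
  rw [Finset.sum_range_sub (fun a : ℕ => ((φ (qq ((a : ℤ) • e)) : ℤ) : ℝ))]
  unfold gr
  simp

theorem slope_null (h : Plane P) (h0 : VH0 (VP P))
    (hrot : ∀ x : Fin 2 → ℤ, VP P ![-x 1, x 0 + x 1] = VP P x) (e : Fin 2 → ℤ) :
    PE h0 e {θ | mFourier e θ = 1} = 0 := by
  have hprob := h.prob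
  set e' : Fin 2 → ℤ := ![-e 1, e 0 + e 1] with he'
  set K := Kb e + Kb e' with hK
  have hKe : Kb e ≤ K := by have := Kb_nonneg e'; linarith
  have hKe' : Kb e' ≤ K := by have := Kb_nonneg e; linarith
  have hsq : ∀ (N : ℕ) (e : Fin 2 → ℤ), ∫ φ, Xf N e e 0 φ * Xf N e e 0 φ ∂P =
      ((N : ℝ)⁻¹) ^ 2 * VP P ((N : ℤ) • e) := by
    intro N e
    simp_rw [Xf_tele]
    have : ∀ φ : ℤ × ℤ → ℤ, (N : ℝ)⁻¹ * gr ((N : ℤ) • e) 0 φ * ((N : ℝ)⁻¹ * gr ((N : ℤ) • e) 0 φ) =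
        ((N : ℝ)⁻¹) ^ 2 * gr ((N : ℤ) • e) 0 φ ^ 2 := by intro φ; ring
    simp_rw [this]
    rw [integral_const_mul, gr_sq h]
  have hrotN : ∀ N : ℕ, VP P ((N : ℤ) • e') = VP P ((N : ℤ) • e) := by
    intro N
    rw [← hrot ((N : ℤ) • e)]
    congr 1
    funext i
    fin_cases i
    · simp [he']
    · simp [he']; ring
  have hdiffN : ∀ N : ℕ, VP P ((N : ℤ) • e - (N : ℤ) • e') = VP P ((N : ℤ) • e) := by
    intro N
    have h1 : (N : ℤ) • e - (N : ℤ) • e' =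
        -(![-(![-((N : ℤ) • e) 1, ((N : ℤ) • e) 0 + ((N : ℤ) • e) 1] : Fin 2 → ℤ) 1,
          (![-((N : ℤ) • e) 1, ((N : ℤ) • e) 0 + ((N : ℤ) • e) 1] : Fin 2 → ℤ) 0 +
          (![-((N : ℤ) • e) 1, ((N : ℤ) • e) 0 + ((N : ℤ) • e) 1] : Fin 2 → ℤ) 1] : Fin 2 → ℤ) := by
      funext i
      fin_cases i
      · simp [he']
      · simp [he']; ring
    rw [h1, h0.even, hrot, hrot]
  have hcross : ∀ N : ℕ, ∫ φ, Xf N e e 0 φ * Xf N e' e' 0 φ ∂P =
      (∫ φ, Xf N e e 0 φ * Xf N e e 0 φ ∂P) / 2 := by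
    intro N
    have e1 : ∀ φ : ℤ × ℤ → ℤ, Xf N e e 0 φ * Xf N e' e' 0 φ = (Xf N e e 0 φ * Xf N e e 0 φ +
        Xf N e' e' 0 φ * Xf N e' e' 0 φ - ((N : ℝ)⁻¹) ^ 2 *
          gr ((N : ℤ) • e - (N : ℤ) • e') ((N : ℤ) • e') φ ^ 2) / 2 := by
      intro φ
      rw [Xf_tele, Xf_tele]
      unfold gr
      rw [zero_add, zero_add, show (N : ℤ) • e' + ((N : ℤ) • e - (N : ℤ) • e') = (N : ℤ) • e by abel]
      ring
    have hi := Xf_mul_int h N
    have hgi : Integrable (fun φ => gr ((N : ℤ) • e - (N : ℤ) • e') ((N : ℤ) • e') φ ^ 2) P := by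
      have := gr_mul_int h ((N : ℤ) • e - (N : ℤ) • e') ((N : ℤ) • e') ((N : ℤ) • e - (N : ℤ) • e')
        ((N : ℤ) • e')
      simpa [sq] using this
    have i1 : Integrable (fun φ => Xf N e e 0 φ * Xf N e e 0 φ + Xf N e' e' 0 φ * Xf N e' e' 0 φ) P :=
      (hi _ _ _ _ _ _).add (hi _ _ _ _ _ _)
    simp_rw [e1]
    rw [integral_div, integral_sub i1 (hgi.const_mul _), integral_add (hi _ _ _ _ _ _) (hi _ _ _ _ _ _),
      integral_const_mul, gr_sq h, hdiffN, hsq, hsq, hrotN]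
    ring
  have hE1 : (E1 : Fin 2 → ℤ) ≠ 0 := E1_ne
  have key := fun N => main_ineq h h0 e e 0 e' e' 0 E1 hE1 hKe hKe'
    (fun n => PE_line_cs h0 e _) (fun n => PE_line_cs h0 e' _) N
  have hlim := Xf_cov_tendsto h h0 e e 0 0
  rw [line_mass] at hlim
  set l := (PE h0 e).real {θ | mFourier e θ = 1} with hl
  have h2 : ∀ N, (∫ φ, Xf N e e 0 φ * Xf N e e 0 φ ∂P) * (∫ φ, Xf N e e 0 φ * Xf N e e 0 φ ∂P) ≤
      ((∫ φ, Xf N e e 0 φ * Xf N e e 0 φ ∂P) / 2) ^ 2 +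
        4 * K ^ 3 * √(4 * (eps h0 e e N + eps h0 e' e' N)) := by
    intro N
    have h3 := key N
    rw [hcross N] at h3
    have h4 : ∫ φ, Xf N e' e' 0 φ * Xf N e' e' 0 φ ∂P = ∫ φ, Xf N e e 0 φ * Xf N e e 0 φ ∂P := by
      rw [hsq, hsq, hrotN]
    rw [h4] at h3
    exact h3
  have h3 : l * l ≤ (l / 2) ^ 2 + 0 :=
    le_of_tendsto_of_tendsto' (hlim.mul hlim) (((hlim.div_const 2).pow 2).add (err_tendsto h0 e e e' e' K)) h2
  have h4 : l = 0 := by
    have : l ^ 2 ≤ 0 := by nlinarith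
    exact pow_eq_zero_iff (two_ne_zero) |>.1 (le_antisymm this (sq_nonneg l))
  rw [hl, Measure.real, ENNReal.toReal_eq_zero_iff] at h4
  rcases h4 with h4 | h4
  · exact h4
  · exact absurd h4 (measure_ne_top _ _)

theorem row_null (h : Plane P) (h0 : VH0 (VP P))
    (hrot : ∀ x : Fin 2 → ℤ, VP P ![-x 1, x 0 + x 1] = VP P x) :
    PE h0 E1 {θ | mFourier ![-1, 2] θ = 1} = 0 := by
  have hprob := h.prob
  set v : Fin 2 → ℤ := ![-1, 2] with hv
  set L : Set (UnitAddTorus (Fin 2)) := {θ | mFourier v θ = 1} with hL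
  have hLm : MeasurableSet L := meas_line v
  have hv0 : v ≠ 0 := by
    intro hc
    have := congrFun hc 1
    simp [hv] at this
  have hcsn : ∀ n : ℕ, ∀ θ : UnitAddTorus (Fin 2), mFourier v θ = 1 → cs ((n : ℤ) • v) θ = 1 := by
    intro n θ hθ
    have : mFourier ((n : ℤ) • v) θ = 1 := by
      induction n with
      | zero => simp [mFourier_zero]
      | succ n ih =>
        push_cast
        rw [add_smul, one_smul, mFourier_add, ih, hθ, one_mul]
    rw [cs, this]; rfl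
  have key := fun N => main_ineq h h0 v E1 0 v E1 E2 v hv0 (le_refl (Kb E1)) (le_refl (Kb E1))
    (fun n => Eventually.of_forall (hcsn n)) (fun n => Eventually.of_forall (hcsn n)) N
  have l1 := Xf_cov_tendsto h h0 v E1 0 0
  have l2 := Xf_cov_tendsto h h0 v E1 E2 E2
  have l3 := Xf_cov_tendsto h h0 v E1 0 E2
  rw [line_mass] at l1 l2
  set l := (PE h0 E1).real L with hl
  set r := ∫ θ in L, cs (0 - E2) θ ∂(PE h0 E1) with hr
  have h1 : l * l ≤ r ^ 2 + 0 :=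
    le_of_tendsto_of_tendsto' (l1.mul l2) ((l3.pow 2).add (err_tendsto h0 v E1 v E1 (Kb E1))) key
  -- `|cs E2| = 1` on the line
  have hci : Integrable (fun θ => |cs (0 - E2) θ|) ((PE h0 E1).restrict L) := (cs_integrable _ _).abs
  have h2 : |r| ≤ ∫ θ in L, |cs (0 - E2) θ| ∂(PE h0 E1) := abs_integral_le_integral_abs
  have h3 : ∫ θ in L, (1 - |cs (0 - E2) θ|) ∂(PE h0 E1) ≤ 0 := by
    rw [integral_sub (integrable_const _) hci, setIntegral_const, smul_eq_mul, mul_one, ← hl]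
    have hl0 : 0 ≤ l := measureReal_nonneg
    have : l ≤ |r| := by
      rw [← abs_of_nonneg hl0]
      apply sq_le_sq.1
      nlinarith
    linarith
  have h4 : ∀ θ : UnitAddTorus (Fin 2), 0 ≤ 1 - |cs (0 - E2) θ| := fun θ => by
    have := abs_cs_le (0 - E2) θ
    linarith
  have h5 : ∫ θ in L, (1 - |cs (0 - E2) θ|) ∂(PE h0 E1) = 0 :=
    le_antisymm h3 (integral_nonneg h4)
  rw [integral_eq_zero_iff_of_nonneg h4 ((integrable_const _).sub hci), EventuallyEq,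
    ae_restrict_iff' hLm] at h5
  have h6 := slope_null h h0 hrot E1
  have h7 : PE h0 E1 {θ | ¬ (θ ∈ L → 1 - |cs (0 - E2) θ| = (0 : UnitAddTorus (Fin 2) → ℝ) θ)} = 0 := h5
  refine measure_mono_null (fun θ hθ => ?_) (measure_union_null h6 h7)
  by_cases hc : 1 - |cs (0 - E2) θ| = 0
  · left
    -- then `mFourier E2 θ = ± 1`
    have h8 : |(mFourier E2 θ).re| = 1 := by
      have : cs (0 - E2) θ = (mFourier E2 θ).re := by rw [zero_sub, cs_neg, cs]
      rw [this] at hc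
      linarith
    have h9 : (mFourier E2 θ).re ^ 2 = 1 := by rw [← sq_abs, h8, one_pow]
    have h10 : (mFourier E2 θ).re ^ 2 + (mFourier E2 θ).im ^ 2 ≤ 1 := by
      have := Complex.sq_norm (mFourier E2 θ)
      rw [Complex.normSq_apply] at this
      nlinarith [norm_nonneg (mFourier E2 θ), norm_mF E2 θ]
    have h11 : (mFourier E2 θ).im = 0 := by nlinarith
    have h12 : mFourier E2 θ * mFourier E2 θ = 1 := by
      apply Complex.ext
      · rw [Complex.mul_re, h11, Complex.one_re]; nlinarith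
      · rw [Complex.mul_im, h11, Complex.one_im]; ring
    have h13 : mFourier v θ = 1 := hθ
    have h14 : v + E1 = E2 + E2 := by
      funext i
      fin_cases i
      · simp [hv, E1, E2]
      · simp [hv, E1, E2]
    have h15 : mFourier (v + E1) θ = mFourier (E2 + E2) θ := by rw [h14]
    rw [mFourier_add, mFourier_add, h13, h12, one_mul] at h15
    exact h15
  · right
    intro hc2
    exact hc (hc2 hθ)

end Vale.Agent.P153.RP
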