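import Vale.Agent.P153.RP.Bound

/-!
# The row kernel in real momenta
-/

open MeasureTheory ProbabilityTheory

namespace Vale.Agent.P153.RP

variable {V : (Fin 2 → ℤ) → ℝ}

/-- The row kernel `m_k(dτ)`, `k` a real momentum. -/
noncomputable def mR (h : RPH V) : Kernel ℝ ℝ := (mU h).comap pm pm_measurable

instance (h : RPH V) : IsSFiniteKernel (mR h) := by unfold mR; infer_instance

theorem mR_apply (h : RPH V) (k : ℝ) : mR h k = mU h (pm k) := rfl

/-- The density of the spectral measure in physical momenta `z = k_x + i k_y`. -/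
noncomputable def phiR (h : RPH V) (z : ℂ) : ℝ :=
  (fD h (pm z.re, pm (z.re / 2 + √3 / 2 * z.im))).toReal / 2

/-- Variogram of the even rows. -/
def Vr (V : (Fin 2 → ℤ) → ℝ) (j z : ℤ) : ℝ := V ![z - j, 2 * j]

end Vale.Agent.P153.RP
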