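import Vale.Agent.P153.RP.Bound
import Vale.Agent.P153.RP.MR

/-!
# The row spectral data of the variogram
-/

open MeasureTheory Filter Topology Set UnitAddTorus ProbabilityTheory
open scoped NNReal ENNReal Real unitInterval

namespace Vale.Agent.P153.RP

variable {V : (Fin 2 → ℤ) → ℝ}

theorem mR_supp (h : RPH V) : ∀ᵐ k : ℝ, ∀ᵐ τ ∂(mR h k), 0 ≤ τ ∧ τ < 1 := ae_pm (mU_supp h)

theorem mR_mass (h : RPH V) : ∀ᵐ k : ℝ, mR h k univ ≤ ENNReal.ofReal (256 * V E1) := ae_pm (Ms_le h)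

theorem one_sub_cos_eq (k : ℝ) : ENNReal.ofReal (1 - Real.cos k) ≤ Xe (pm k) := by
  unfold Xe
  rw [Xu_pm]
  apply ENNReal.ofReal_le_ofReal
  have := Real.cos_le_one k
  linarith

theorem mR_fin (h : RPH V) : ∫⁻ k in Icc (-π) π, ENNReal.ofReal (1 - Real.cos k) *
    ∫⁻ τ, ENNReal.ofReal (1 / (1 - τ ^ 2)) ∂(mR h k) ≠ ⊤ := by
  have hg : Measurable fun τ : ℝ => ENNReal.ofReal (1 / (1 - τ ^ 2)) :=
    (measurable_const.div (measurable_const.sub (measurable_id.pow_const 2))).ennreal_ofReal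
  have hgm : Measurable fun y : U => ∫⁻ τ, ENNReal.ofReal (1 / (1 - τ ^ 2)) ∂(mU h y) :=
    Measurable.lintegral_kernel_prod_right' (hg.comp measurable_snd)
  have hF : Measurable fun p : U × ℝ => Xe p.1 * ENNReal.ofReal (1 / (1 - p.2 ^ 2)) :=
    (Xe_measurable.comp measurable_fst).mul (hg.comp measurable_snd)
  have h1 : ∫⁻ y : U, Xe y * ∫⁻ τ, ENNReal.ofReal (1 / (1 - τ ^ 2)) ∂(mU h y) ≤ nu h univ := by
    have h2 := mU_lint h _ hF
    have h3 : ∫⁻ y : U, Xe y * ∫⁻ τ, ENNReal.ofReal (1 / (1 - τ ^ 2)) ∂(mU h y) =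
        ∫⁻ y : U, ∫⁻ τ, Xe y * ENNReal.ofReal (1 / (1 - τ ^ 2)) ∂(mU h y) := by
      apply lintegral_congr
      intro y
      rw [lintegral_const_mul _ hg]
    rw [h3]
    refine (le_of_eq h2).trans ?_
    refine (lintegral_mono_ae (g := fun _ => 1) ?_).trans (le_of_eq ?_)
    · filter_upwards [nu_ae h] with p hp
      have h4 := one_sub_sq_pos hp.1 hp.2
      calc Xe p.1 * ENNReal.ofReal (1 / (1 - p.2 ^ 2)) * ((Xe p.1)⁻¹ * ENNReal.ofReal (1 - p.2 ^ 2)) =
          (Xe p.1 * (Xe p.1)⁻¹) * (ENNReal.ofReal (1 / (1 - p.2 ^ 2)) * ENNReal.ofReal (1 - p.2 ^ 2)) := by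
            ring
        _ ≤ 1 * 1 := by
          refine mul_le_mul' (ENNReal.mul_inv_le_one _) ?_
          rw [← ENNReal.ofReal_mul (one_div_pos.2 h4).le, one_div_mul_cancel h4.ne', ENNReal.ofReal_one]
        _ = 1 := one_mul 1
    · simp
  have h5 : ∫⁻ k in Icc (-π) π, ENNReal.ofReal (1 - Real.cos k) *
      ∫⁻ τ, ENNReal.ofReal (1 / (1 - τ ^ 2)) ∂(mR h k) ≤ ENNReal.ofReal (2 * π) * nu h univ := by
    have h6 := lintegral_U (fun y => Xe y * ∫⁻ τ, ENNReal.ofReal (1 / (1 - τ ^ 2)) ∂(mU h y))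
      (Xe_measurable.mul hgm)
    refine le_trans ?_ (mul_le_mul_right h1 _)
    rw [← h6]
    apply lintegral_mono
    intro k
    exact mul_le_mul_left (one_sub_cos_eq k) _
  refine ne_of_lt (lt_of_le_of_lt h5 ?_)
  exact ENNReal.mul_lt_top ENNReal.ofReal_lt_top (measure_lt_top _ _)

/-! ### the Poisson representation of the variogram -/

theorem integral_cu_dU {τ : ℝ} (h0 : 0 ≤ τ) (h1 : τ < 1) (n m : ℤ) (y : U) :
    ∫ ϑ : U, (2 - 2 * cu n m (y, ϑ)) * (1 / dU τ ϑ) =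
      2 * ((1 - (fourier n y : ℂ).re * τ ^ m.natAbs) / (1 - τ ^ 2)) := by
  have hi1 : Integrable (fun ϑ : U => 1 / dU τ ϑ) volume :=
    integrable_U (continuous_const.div (dU_continuous τ) fun ϑ => (dU_pos h0 h1 ϑ).ne')
  have hc : Continuous fun ϑ : U => (fourier n y : ℂ) * (fourier m ϑ / (dU τ ϑ : ℂ)) :=
    continuous_const.mul (cont_dU_inv h0 h1 (fourier m))
  have hi2 := integrable_U hc
  have h2 := integral_re (𝕜 := ℂ) hi2
  rw [integral_const_mul, poisson_U h0 h1] at h2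
  have e1 : ∀ ϑ : U, (2 - 2 * cu n m (y, ϑ)) * (1 / dU τ ϑ) =
      2 * (1 / dU τ ϑ) - 2 * RCLike.re ((fourier n y : ℂ) * (fourier m ϑ / (dU τ ϑ : ℂ))) := by
    intro ϑ
    have e2 : RCLike.re ((fourier n y : ℂ) * (fourier m ϑ / (dU τ ϑ : ℂ))) = cu n m (y, ϑ) * (1 / dU τ ϑ) := by
      show ((fourier n y : ℂ) * (fourier m ϑ / (dU τ ϑ : ℂ))).re = _
      rw [← mul_div_assoc, Complex.div_ofReal_re, mul_one_div]
      rfl
    rw [e2]; ring
  simp_rw [e1]
  rw [integral_sub (hi1.const_mul 2) (hi2.re.const_mul 2), integral_const_mul, integral_const_mul,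
    integral_inv_dU h0 h1, h2]
  have e3 : RCLike.re ((fourier n y : ℂ) * ((τ ^ m.natAbs / (1 - τ ^ 2) : ℝ) : ℂ)) =
      (fourier n y : ℂ).re * (τ ^ m.natAbs / (1 - τ ^ 2)) := by
    show ((fourier n y : ℂ) * ((τ ^ m.natAbs / (1 - τ ^ 2) : ℝ) : ℂ)).re = _
    rw [Complex.re_mul_ofReal]
  rw [e3]
  ring

theorem lintegral_cu_dU {τ : ℝ} (h0 : 0 ≤ τ) (h1 : τ < 1) (n m : ℤ) (y : U) :
    ∫⁻ ϑ : U, ENNReal.ofReal (2 - 2 * cu n m (y, ϑ)) * ENNReal.ofReal (1 / dU τ ϑ) =
      ENNReal.ofReal (2 * ((1 - (fourier n y : ℂ).re * τ ^ m.natAbs) / (1 - τ ^ 2))) := by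
  rw [← integral_cu_dU h0 h1, ofReal_integral_eq_lintegral_ofReal]
  · apply lintegral_congr
    intro ϑ
    rw [ENNReal.ofReal_mul]
    have := (abs_le.1 (abs_cu_le n m (y, ϑ))).2
    linarith
  · apply integrable_U
    refine Continuous.mul ?_ ?_
    · exact continuous_const.sub (continuous_const.mul ((cu_continuous n m).comp (by fun_prop)))
    · exact continuous_const.div (dU_continuous τ) fun ϑ => (dU_pos h0 h1 ϑ).ne'
  · refine Eventually.of_forall fun ϑ => ?_
    have := (abs_le.1 (abs_cu_le n m (y, ϑ))).2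
    exact mul_nonneg (by linarith) (one_div_pos.2 (dU_pos h0 h1 ϑ)).le

theorem V_lint (h : RPH V) (j z : ℤ) : ENNReal.ofReal (Vr V j z) =
    ∫⁻ y : U, ∫⁻ τ, ENNReal.ofReal (2 * ((1 - (fourier z y : ℂ).re * τ ^ j.natAbs) / (1 - τ ^ 2)))
      ∂(mU h y) := by
  set G : U × U → ℝ≥0∞ := fun q => ENNReal.ofReal (2 - 2 * cu z j q) with hG
  have hGm : Measurable G :=
    (continuous_const.sub (continuous_const.mul (cu_continuous z j))).measurable.ennreal_ofReal
  have h1 : ENNReal.ofReal (Vr V j z) = ∫⁻ p, G (tP p) ∂(PhiP h.toVH) := by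
    have hGt : Measurable fun p : U × U => G (tP p) := hGm.comp tP_continuous.measurable
    unfold Vr PhiP
    rw [← lintegral_xe_Phi h.toVH, lintegral_map hGt toP_measurable]
    apply lintegral_congr
    intro θ
    rw [xe_toP]
    simp only [hG, Matrix.cons_val_zero, Matrix.cons_val_one]
    rw [cu_tP]
  rw [h1, ← lintegral_map hGm tP_continuous.measurable, tP_PhiP h,
    lintegral_withDensity_eq_lintegral_mul _ (PsU_measurable h) hGm, Measure.volume_eq_prod,
    lintegral_prod _ ((PsU_measurable h).mul hGm).aemeasurable]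
  apply lintegral_congr_ae
  filter_upwards [mU_supp h] with y hy
  have h2 := swap_aux h G hGm y
  refine h2.symm.trans ?_
  apply lintegral_congr_ae
  filter_upwards [hy] with τ hτ
  exact lintegral_cu_dU hτ.1 hτ.2 z j y

theorem fourier_pm_re (z : ℤ) (k : ℝ) : (fourier z (pm k) : ℂ).re = Real.cos (k * z) := by
  rw [fourier_pm, mul_comm Complex.I, Complex.exp_ofReal_mul_I_re]

theorem kern_nonneg {τ : ℝ} (h0 : 0 ≤ τ) (h1 : τ < 1) (c : ℝ) (hc : c ≤ 1) (n : ℕ) :
    0 ≤ (1 - c * τ ^ n) / (1 - τ ^ 2) := by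
  apply div_nonneg _ (one_sub_sq_pos h0 h1).le
  have h2 : τ ^ n ≤ 1 := pow_le_one₀ h0 h1.le
  have h3 : 0 ≤ τ ^ n := pow_nonneg h0 n
  nlinarith

theorem V_rep (h : RPH V) (j z : ℤ) : Vr V j z = (1 / π) * ∫ k in Icc (-π) π, ∫ τ,
    (1 - Real.cos (k * z) * τ ^ j.natAbs) / (1 - τ ^ 2) ∂(mR h k) := by
  have hpi := Real.pi_pos
  have hV0 : 0 ≤ Vr V j z := h.toVH.nonneg _
  -- the inner function on the circle
  have hm2 : Measurable fun p : U × ℝ => (1 - (fourier z p.1 : ℂ).re * p.2 ^ j.natAbs) / (1 - p.2 ^ 2) := by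
    refine Measurable.div ?_ ?_
    · refine measurable_const.sub (Measurable.mul ?_ (measurable_snd.pow_const _))
      exact Complex.measurable_re.comp ((fourier z).continuous.measurable.comp measurable_fst)
    · exact measurable_const.sub (measurable_snd.pow_const 2)
  set J : U → ℝ≥0∞ := fun y => ∫⁻ τ, ENNReal.ofReal ((1 - (fourier z y : ℂ).re * τ ^ j.natAbs) / (1 - τ ^ 2))
    ∂(mU h y) with hJ
  have hJm : Measurable J := Measurable.lintegral_kernel_prod_right' hm2.ennreal_ofReal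
  have h1 : ENNReal.ofReal (Vr V j z) = 2 * ∫⁻ y : U, J y := by
    rw [V_lint h, ← lintegral_const_mul _ hJm]
    apply lintegral_congr
    intro y
    simp only [hJ]
    rw [← lintegral_const_mul]
    · apply lintegral_congr
      intro τ
      rw [ENNReal.ofReal_mul (by norm_num)]
      simp
    · exact (hm2.comp measurable_prodMk_left).ennreal_ofReal
  have h2 := lintegral_U J hJm
  have h3 : ∫⁻ s in Icc (-π) π, J (pm s) = ENNReal.ofReal (π * Vr V j z) := by
    rw [h2, ENNReal.ofReal_mul hpi.le, h1, ENNReal.ofReal_mul (by norm_num)]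
    have : ENNReal.ofReal 2 = 2 := by simp
    rw [this]
    ring
  have hJpm : Measurable fun s : ℝ => J (pm s) := hJm.comp pm_measurable
  have hfin : ∀ᵐ s ∂(volume.restrict (Icc (-π) π)), J (pm s) < ⊤ := by
    apply ae_lt_top hJpm
    rw [h3]; exact ENNReal.ofReal_ne_top
  have h4 : ∫ k in Icc (-π) π, ∫ τ, (1 - Real.cos (k * z) * τ ^ j.natAbs) / (1 - τ ^ 2) ∂(mR h k) =
      ∫ k in Icc (-π) π, (J (pm k)).toReal := by
    apply integral_congr_ae
    filter_upwards [ae_restrict_of_ae (mR_supp h)] with k hk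
    rw [integral_eq_lintegral_of_nonneg_ae]
    · simp only [hJ]
      congr 1
      rw [mR_apply]
      apply lintegral_congr
      intro τ
      rw [fourier_pm_re]
    · filter_upwards [hk] with τ hτ
      exact kern_nonneg hτ.1 hτ.2 _ (Real.cos_le_one _) _
    · apply Measurable.aestronglyMeasurable
      refine Measurable.div ?_ ?_
      · exact measurable_const.sub (measurable_const.mul (measurable_id.pow_const _))
      · exact measurable_const.sub (measurable_id.pow_const 2)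
  rw [h4, integral_toReal hJpm.aemeasurable hfin, h3, ENNReal.toReal_ofReal (by positivity)]
  field_simp

/-! ### the bound of `∫ 1/(1-τ)²` -/

theorem hf_eq : hf = pm π := by
  unfold hf pm
  congr 1
  have := Real.pi_ne_zero
  field_simp

theorem pt_bound (h : RPH V) : ∀ᵐ k : ℝ, ∀ᵐ s : ℝ,
    ENNReal.ofReal (2 - 2 * Real.cos (s - 2 * k)) ≠ 0 → ENNReal.ofReal (2 + 2 * Real.cos (s - 2 * k)) ≠ 0 →
    2 * PsU h (pm k, pm (2 * s - k)) ≤ 8 * ENNReal.ofReal (256 * V E1) /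
        ENNReal.ofReal (2 - 2 * Real.cos (s - 2 * k)) +
      8 * ENNReal.ofReal (256 * V E1) / ENNReal.ofReal (2 + 2 * Real.cos (s - 2 * k)) := by
  have hM : ∀ᵐ p : U × U, Ms h p.2 ≤ ENNReal.ofReal (256 * V E1) :=
    Measure.quasiMeasurePreserving_snd.ae (Ms_le h)
  have h0 : ∀ᵐ p : U × U, (fD h p + fD h (p + Qp) = 2 * PsU h (tP p)) ∧
      (fD h p * Xe (p.2 - p.1 - p.1) ≤ 8 * ENNReal.ofReal (256 * V E1)) ∧
      (fD h (p + Qp) * Xe ((p + Qp).2 - (p + Qp).1 - (p + Qp).1) ≤ 8 * ENNReal.ofReal (256 * V E1)) := by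
    filter_upwards [fold_fD h, fD_le2 h, mp_Qp.quasiMeasurePreserving.ae (fD_le2 h), hM,
      mp_Qp.quasiMeasurePreserving.ae hM] with p h1 h2 h3 h4 h5
    exact ⟨h1, h2.trans (mul_le_mul_right h4 _), h3.trans (mul_le_mul_right h5 _)⟩
  have h1 := ae_pm2 h0
  have h2 : ∀ᵐ k : ℝ, ∀ᵐ s : ℝ, _ := Measure.ae_ae_of_ae_prod h1
  filter_upwards [h2] with k hk
  filter_upwards [hk] with s hs hne1 hne2
  obtain ⟨e1, e2, e3⟩ := hs
  have t1 : tP (pm k, pm s) = (pm k, pm (2 * s - k)) := by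
    show (pm k, pm s + pm s - pm k) = _
    rw [← pm_add, ← pm_sub, two_mul]
  have x1 : Xe (pm s - pm k - pm k) = ENNReal.ofReal (2 - 2 * Real.cos (s - 2 * k)) := by
    unfold Xe
    rw [← pm_sub, ← pm_sub, Xu_pm]
    congr 4
    ring
  have x2 : Xe (((pm k, pm s) + Qp).2 - ((pm k, pm s) + Qp).1 - ((pm k, pm s) + Qp).1) =
      ENNReal.ofReal (2 + 2 * Real.cos (s - 2 * k)) := by
    have : ((pm k, pm s) + Qp).2 - ((pm k, pm s) + Qp).1 - ((pm k, pm s) + Qp).1 =
        pm (s - 2 * k + π) := by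
      show pm s + hf - (pm k + 0) - (pm k + 0) = _
      rw [add_zero, hf_eq, ← pm_add, ← pm_sub, ← pm_sub]
      congr 1
      ring
    rw [this]
    unfold Xe
    rw [Xu_pm, Real.cos_add_pi]
    congr 1
    ring
  rw [t1] at e1
  rw [← e1]
  refine add_le_add ?_ ?_
  · rw [ENNReal.le_div_iff_mul_le (Or.inl hne1) (Or.inl ENNReal.ofReal_ne_top), ← x1]
    exact e2
  · rw [ENNReal.le_div_iff_mul_le (Or.inl hne2) (Or.inl ENNReal.ofReal_ne_top), ← x2]
    exact e3

theorem cos_low {k s : ℝ} (hk : |k| < 1 / 10) (hs : |s - k / 2| ≤ |k| / 4) :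
    k ^ 2 / 4 ≤ 2 - 2 * Real.cos (s - 2 * k) ∧ 1 ≤ 2 + 2 * Real.cos (s - 2 * k) := by
  set x := s - 2 * k with hx
  have h1 : |x| ≤ 2 * |k| := by
    have : x = (s - k / 2) + (-(3 / 2)) * k := by rw [hx]; ring
    rw [this]
    refine (abs_add_le _ _).trans ?_
    rw [abs_mul, abs_neg]
    have : |(3 / 2 : ℝ)| = 3 / 2 := abs_of_pos (by norm_num)
    rw [this]
    have := abs_nonneg k
    linarith
  have h2 : |k| ≤ |x| := by
    have : (3 / 2) * k = (s - k / 2) - x := by rw [hx]; ring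
    have h3 : |(3 / 2) * k| ≤ |s - k / 2| + |x| := by
      rw [this]; exact abs_sub _ _
    rw [abs_mul] at h3
    have h4 : |(3 / 2 : ℝ)| = 3 / 2 := abs_of_pos (by norm_num)
    rw [h4] at h3
    have := abs_nonneg k
    linarith
  have hpi := Real.pi_gt_three
  have hpi2 := Real.pi_lt_four
  constructor
  · have h5 := Real.cos_le_one_sub_mul_cos_sq (x := x) (by linarith [abs_nonneg k])
    have h6 : k ^ 2 ≤ x ^ 2 := by
      rw [← sq_abs k, ← sq_abs x]
      exact pow_le_pow_left₀ (abs_nonneg _) h2 2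
    have h7 : 1 / 8 ≤ 2 / π ^ 2 := by
      rw [div_le_div_iff₀ (by norm_num) (by positivity)]
      nlinarith
    nlinarith [sq_nonneg x, mul_le_mul_of_nonneg_right h7 (sq_nonneg x)]
  · have h5 := Real.one_sub_sq_div_two_le_cos (x := x)
    have h6 : x ^ 2 ≤ 1 := by
      rw [← sq_abs x]
      have : |x| ≤ 1 := by linarith
      exact pow_le_one₀ (abs_nonneg _) this
    linarith

theorem exists_seq (k : ℝ) (hk : k ≠ 0) {P : ℝ → Prop} (hP : ∀ᵐ s : ℝ, P s) :
    ∃ s : ℕ → ℝ, (∀ n, P (s n)) ∧ (∀ n, |s n - k / 2| ≤ |k| / 4) ∧ Tendsto s atTop (𝓝 (k / 2)) := by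
  have hk' : 0 < |k| := abs_pos.2 hk
  have h1 : ∀ n : ℕ, ∃ s, P s ∧ s ∈ Ioo (k / 2) (k / 2 + |k| / 4 / (n + 1)) := by
    intro n
    have hpos : 0 < |k| / 4 / ((n : ℝ) + 1) := by positivity
    by_contra hc
    push Not at hc
    have h2 : volume (Ioo (k / 2) (k / 2 + |k| / 4 / ((n : ℝ) + 1))) = 0 := by
      refine measure_mono_null ?_ (ae_iff.1 hP)
      intro s hs hPs
      exact hc s hPs hs
    rw [Real.volume_Ioo, ENNReal.ofReal_eq_zero] at h2
    linarith
  choose s hs1 hs2 using h1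
  refine ⟨s, hs1, ?_, ?_⟩
  · intro n
    have h2 := hs2 n
    rw [abs_of_pos (by linarith [h2.1])]
    have h3 : |k| / 4 / ((n : ℝ) + 1) ≤ |k| / 4 := by
      apply div_le_self (by positivity)
      have : (0 : ℝ) ≤ n := Nat.cast_nonneg n
      linarith
    linarith [h2.2]
  · refine tendsto_of_tendsto_of_tendsto_of_le_of_le (g := fun _ => k / 2)
      (h := fun n : ℕ => k / 2 + |k| / 4 / ((n : ℝ) + 1)) tendsto_const_nhds ?_
      (fun n => (hs2 n).1.le) (fun n => (hs2 n).2.le)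
    have h3 : Tendsto (fun n : ℕ => |k| / 4 * (1 / ((n : ℝ) + 1))) atTop (𝓝 (|k| / 4 * 0)) :=
      tendsto_one_div_add_atTop_nhds_zero_nat.const_mul _
    have h4 := h3.const_add (k / 2)
    rw [mul_zero, add_zero] at h4
    refine h4.congr fun n => ?_
    rw [mul_one_div]

theorem mR_inv (h : RPH V) : ∀ᵐ k : ℝ, |k| < 1 / 10 → k ≠ 0 →
    ∫⁻ τ, ENNReal.ofReal (1 / (1 - τ) ^ 2) ∂(mR h k) ≤
      ENNReal.ofReal (20 * (256 * V E1) / k ^ 2) := by
  have hA : 0 ≤ 256 * V E1 := mul_nonneg (by norm_num) (h.toVH.nonneg _)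
  set A : ℝ := 256 * V E1 with hAd
  filter_upwards [pt_bound h, mR_supp h] with k hk hsupp hk0 hkne
  obtain ⟨s, hs1, hs2, hs3⟩ := exists_seq k hkne hk
  have hk2 : 0 < k ^ 2 := by positivity
  have hb : ∀ n, PsU h (pm k, pm (2 * s n - k)) ≤ ENNReal.ofReal (20 * A / k ^ 2) := by
    intro n
    obtain ⟨c1, c2⟩ := cos_low hk0 (hs2 n)
    have p1 : 0 < 2 - 2 * Real.cos (s n - 2 * k) := by linarith [show 0 < k ^ 2 / 4 by positivity]
    have p2 : 0 < 2 + 2 * Real.cos (s n - 2 * k) := by linarith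
    have h1 := hs1 n (by simpa using p1) (by simpa using p2)
    have e8 : (8 : ℝ≥0∞) = ENNReal.ofReal 8 := by simp
    rw [e8, ← ENNReal.ofReal_mul (by norm_num), ← ENNReal.ofReal_div_of_pos p1,
      ← ENNReal.ofReal_div_of_pos p2, ← ENNReal.ofReal_add (by positivity) (by positivity)] at h1
    have h2 : 8 * A / (2 - 2 * Real.cos (s n - 2 * k)) + 8 * A / (2 + 2 * Real.cos (s n - 2 * k)) ≤
        2 * (20 * A / k ^ 2) := by
      have i1 : 8 * A / (2 - 2 * Real.cos (s n - 2 * k)) ≤ 8 * A / (k ^ 2 / 4) :=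
        div_le_div_of_nonneg_left (by positivity) (by positivity) c1
      have i2 : 8 * A / (2 + 2 * Real.cos (s n - 2 * k)) ≤ 8 * A / 1 :=
        div_le_div_of_nonneg_left (by positivity) (by positivity) c2
      have i3 : 8 * A / 1 ≤ 8 * A / k ^ 2 := by
        apply div_le_div_of_nonneg_left (by positivity) hk2
        rw [← sq_abs]
        exact pow_le_one₀ (abs_nonneg _) (by linarith)
      have i4 : 8 * A / (k ^ 2 / 4) = 32 * A / k ^ 2 := by field_simp; ring
      have i5 : 2 * (20 * A / k ^ 2) = 32 * A / k ^ 2 + 8 * A / k ^ 2 := by ring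
      linarith
    have h3 : 2 * PsU h (pm k, pm (2 * s n - k)) ≤ 2 * ENNReal.ofReal (20 * A / k ^ 2) := by
      refine h1.trans ((ENNReal.ofReal_le_ofReal h2).trans (le_of_eq ?_))
      rw [ENNReal.ofReal_mul (by norm_num)]
      simp
    exact (ENNReal.mul_le_mul_iff_right (by norm_num) (by norm_num)).1 h3
  -- Fatou
  have hmeas : ∀ n, Measurable fun τ : ℝ => ENNReal.ofReal (1 / dU τ (pm (2 * s n - k))) :=
    fun n => idU_measurable' _
  have hF := lintegral_liminf_le (u := atTop) (μ := mR h k) (fun n => hmeas n)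
  have h4 : ∫⁻ τ, ENNReal.ofReal (1 / (1 - τ) ^ 2) ∂(mR h k) =
      ∫⁻ τ, liminf (fun n => ENNReal.ofReal (1 / dU τ (pm (2 * s n - k)))) atTop ∂(mR h k) := by
    apply lintegral_congr_ae
    filter_upwards [hsupp] with τ hτ
    have h5 : Tendsto (fun n => ENNReal.ofReal (1 / dU τ (pm (2 * s n - k)))) atTop
        (𝓝 (ENNReal.ofReal (1 / (1 - τ) ^ 2))) := by
      apply ENNReal.tendsto_ofReal
      have h6 : Tendsto (fun n => dU τ (pm (2 * s n - k))) atTop (𝓝 ((1 - τ) ^ 2)) := by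
        simp_rw [dU_pm]
        have h7 : Tendsto (fun n => 2 * s n - k) atTop (𝓝 0) := by
          have := (hs3.const_mul 2).sub_const k
          have e : 2 * (k / 2) - k = 0 := by ring
          rwa [e] at this
        have h8 : Continuous (TwoPt.den τ) := by
          unfold TwoPt.den
          exact continuous_const.add (continuous_const.mul (continuous_const.sub
            (continuous_const.mul Real.continuous_cos)))
        have h9 := (h8.tendsto 0).comp h7
        have e : TwoPt.den τ 0 = (1 - τ) ^ 2 := by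
          unfold TwoPt.den; simp
        rw [e] at h9
        exact h9
      have h10 : (1 - τ) ^ 2 ≠ 0 := by
        have : 0 < 1 - τ := by linarith [hτ.2]
        positivity
      exact (tendsto_const_nhds (x := (1 : ℝ))).div h6 h10
    exact h5.liminf_eq.symm
  rw [h4]
  refine hF.trans ?_
  refine liminf_le_of_le (by isBoundedDefault) ?_
  intro b hb'
  obtain ⟨n, hn⟩ := hb'.exists
  exact hn.trans (hb n)

/-- **row spectral data of the variogram**, everything but the limit -/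
theorem spec_of_lim (h : RPH V) {κ : ℝ} (hκ : 0 ≤ κ)
    (hlim : ∀ ε > 0, ∃ η > 0, ∀ᵐ k : ℝ, |k| < η → k ≠ 0 → ∀ θ : ℝ, |θ| < η →
      |(√3 ^ 2 * k ^ 2 + θ ^ 2) * (∫ τ, 1 / TwoPt.den τ θ ∂(mR h k)) - κ| ≤ ε) :
    TwoPt.Spec (Vr V) (mR h) (√3) κ (20 * (256 * V E1) + 1) (1 / 10) where
  sfin := inferInstance
  c_pos := by positivity
  κ_nonneg := hκ
  C_pos := by
    have : 0 ≤ V E1 := h.toVH.nonneg _
    positivity
  k0_pos := by norm_num
  k0_le := by norm_num
  supp := mR_supp h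
  mass := by
    filter_upwards [mR_mass h] with k hk _
    refine hk.trans (ENNReal.ofReal_le_ofReal ?_)
    have : 0 ≤ V E1 := h.toVH.nonneg _
    linarith
  inv := by
    filter_upwards [mR_inv h] with k hk h1 h2
    refine (hk h1 h2).trans (ENNReal.ofReal_le_ofReal ?_)
    apply div_le_div_of_nonneg_right _ (sq_nonneg k)
    linarith
  fin := mR_fin h
  rep := V_rep h
  lim := hlim

end Vale.Agent.P153.RP
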