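import Vale.Agent.P153.RP.OfPlane
import Vale.Agent.P153.RP.Null2
import Vale.Agent.P153.RP.DensH
import Vale.Agent.P153.RP.SpecH
import Vale.Agent.P153.Iso.B5

/-!
# Block B: the spectral data of a plane measure
-/

open MeasureTheory ProbabilityTheory Filter Topology UnitAddTorus
open scoped NNReal ENNReal

namespace Vale.Agent.P153.RP

open Vale.Agent.P153.GFF (Plane var2 SpecOut Vrow ev)

variable {P : Measure (ℤ × ℤ → ℤ)}

/-- the basic hypotheses on the variogram -/
theorem vh0_plane (hP : Plane P) : VH0 (VP P) where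
  zero := Vf_zero hP
  even := Vf_even hP
  cnd := Vf_cnd hP

theorem vh_plane (hP : Plane P) : VH (VP P) where
  toVH0 := vh0_plane hP
  null := slope_null hP (vh0_plane hP) (Vf_rot hP)

/-- all hypotheses of block B hold for the variogram of a plane measure -/
theorem rph_plane (hP : Plane P) : RPH (VP P) where
  toVH := vh_plane hP
  rot := Vf_rot hP
  refl := Vf_refl hP
  rp0 := Vf_rp0 hP
  rp1 := Vf_rp1 hP
  line := row_null hP (vh0_plane hP) (Vf_rot hP)

/-- **Output of blocks B, C.** -/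
theorem specOut (hP : Plane P) : ∃ κ, 0 ≤ κ ∧ SpecOut P κ := by
  obtain ⟨C, ρ, hD⟩ := densHyp (rph_plane hP)
  obtain ⟨κ, hκ, -, hlim⟩ := Iso.b5 _ _ C ρ hD
  have h := spec_of_lim (rph_plane hP) (κ := 3 * κ) (by positivity) (by
    intro ε hε
    obtain ⟨η, hη, h1⟩ := hlim ε hε
    refine ⟨η, hη, ?_⟩
    filter_upwards [h1] with k hk hk1 hk0 θ hθ
    have h2 := hk hk1 hk0 θ hθ
    rw [Real.sq_sqrt (by norm_num : (0 : ℝ) ≤ 3)]
    exact h2)
  exact ⟨3 * κ, by positivity, mR (rph_plane hP), _, _, h⟩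

end Vale.Agent.P153.RP
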