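import Vale.Agent.P153.RP.Dens2

/-!
# Harnack inequality and bounds of the spectral density
-/

open MeasureTheory Filter Topology Set UnitAddTorus ProbabilityTheory
open scoped NNReal ENNReal Real unitInterval

namespace Vale.Agent.P153.RP

variable {V : (Fin 2 → ℤ) → ℝ}

theorem mU_supp (h : RPH V) : ∀ᵐ y : U, ∀ᵐ τ ∂(mU h y), 0 ≤ τ ∧ τ < 1 := by
  have hB : MeasurableSet {p : U × ℝ | ¬(0 ≤ p.2 ∧ p.2 < 1)} := by
    apply MeasurableSet.compl
    exact measurable_snd (measurableSet_Ico (a := (0 : ℝ)) (b := 1))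
  have h1 := mU_lint h ({p : U × ℝ | ¬(0 ≤ p.2 ∧ p.2 < 1)}.indicator 1) (measurable_one.indicator hB)
  have h2 : ∫⁻ p, ({p : U × ℝ | ¬(0 ≤ p.2 ∧ p.2 < 1)}.indicator (1 : U × ℝ → ℝ≥0∞)) p *
      ((Xe p.1)⁻¹ * ENNReal.ofReal (1 - p.2 ^ 2)) ∂(nu h) = 0 := by
    rw [lintegral_eq_zero_iff']
    · filter_upwards [nu_ae h] with p hp
      rw [indicator_of_notMem (show p ∉ {p : U × ℝ | ¬(0 ≤ p.2 ∧ p.2 < 1)} from fun hc => hc hp),
        zero_mul]
      rfl
    · apply Measurable.aemeasurable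
      refine (measurable_one.indicator hB).mul (Measurable.mul ?_ ?_)
      · exact (Xe_measurable.comp measurable_fst).inv
      · exact (measurable_const.sub (measurable_snd.pow_const 2)).ennreal_ofReal
  rw [h2] at h1
  have hm : Measurable fun y : U => ∫⁻ τ, ({p : U × ℝ | ¬(0 ≤ p.2 ∧ p.2 < 1)}.indicator 1) (y, τ)
      ∂(mU h y) := Measurable.lintegral_kernel_prod_right' (measurable_one.indicator hB)
  rw [lintegral_eq_zero_iff hm] at h1
  filter_upwards [h1] with y hy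
  rw [ae_iff]
  have h3 : ∫⁻ τ, ({p : U × ℝ | ¬(0 ≤ p.2 ∧ p.2 < 1)}.indicator 1) (y, τ) ∂(mU h y) =
      mU h y {τ | ¬(0 ≤ τ ∧ τ < 1)} := by
    have hB' : MeasurableSet {τ : ℝ | ¬(0 ≤ τ ∧ τ < 1)} :=
      (measurableSet_Ico (a := (0 : ℝ)) (b := 1)).compl
    rw [← lintegral_indicator_one hB']
    rfl
  rw [h3] at hy
  exact hy

/-- total mass of the row kernel -/
noncomputable def Ms (h : RPH V) (y : U) : ℝ≥0∞ := mU h y univ

theorem Ms_measurable (h : RPH V) : Measurable (Ms h) :=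
  (mU h).measurable_coe MeasurableSet.univ

theorem idU_measurable' (ϑ : U) : Measurable fun τ : ℝ => ENNReal.ofReal (1 / dU τ ϑ) :=
  (measurable_const.div (dU_measurable.comp (measurable_id.prodMk measurable_const))).ennreal_ofReal

theorem harnack_low (μ : Measure ℝ) (hμ : ∀ᵐ τ ∂μ, 0 ≤ τ ∧ τ < 1) (ϑ : U) :
    μ univ ≤ 4 * ∫⁻ τ, ENNReal.ofReal (1 / dU τ ϑ) ∂μ := by
  rw [← lintegral_const_mul _ (idU_measurable' ϑ), ← lintegral_one]
  apply lintegral_mono_ae
  filter_upwards [hμ] with τ hτ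
  have h1 : (4 : ℝ≥0∞) = ENNReal.ofReal 4 := by simp
  rw [h1, ← ENNReal.ofReal_mul (by norm_num), ← ENNReal.ofReal_one]
  apply ENNReal.ofReal_le_ofReal
  rw [mul_one_div, one_le_div (dU_pos hτ.1 hτ.2 ϑ)]
  exact dU_le hτ.1 hτ.2.le ϑ

theorem harnack_up (μ : Measure ℝ) (hμ : ∀ᵐ τ ∂μ, 0 ≤ τ ∧ τ < 1) (ϑ : U) :
    (∫⁻ τ, ENNReal.ofReal (1 / dU τ ϑ) ∂μ) * Xe ϑ ≤ 4 * μ univ := by
  rw [← lintegral_mul_const _ (idU_measurable' ϑ), ← lintegral_one, ← lintegral_const_mul _ measurable_const]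
  apply lintegral_mono_ae
  filter_upwards [hμ] with τ hτ
  have h1 : (4 : ℝ≥0∞) = ENNReal.ofReal 4 := by simp
  have hd := dU_pos hτ.1 hτ.2 ϑ
  unfold Xe
  rw [h1, mul_one, ← ENNReal.ofReal_mul (one_div_pos.2 hd).le]
  apply ENNReal.ofReal_le_ofReal
  rw [one_div_mul_eq_div, div_le_iff₀ hd]
  have := le_dU hτ.1 hτ.2.le ϑ
  linarith

/-- Harnack inequality, lower part -/
theorem Ms_le_PsU (h : RPH V) : ∀ᵐ y : U, ∀ ϑ, Ms h y ≤ 4 * PsU h (y, ϑ) := by
  filter_upwards [mU_supp h] with y hy ϑ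
  exact harnack_low (mU h y) hy ϑ

/-- Harnack inequality, upper part -/
theorem PsU_Xe_le (h : RPH V) : ∀ᵐ y : U, ∀ ϑ, PsU h (y, ϑ) * Xe ϑ ≤ 4 * Ms h y := by
  filter_upwards [mU_supp h] with y hy ϑ
  exact harnack_up (mU h y) hy ϑ

/-- direction 1 -/
theorem fD_le1 (h : RPH V) : ∀ᵐ p : U × U, fD h p * Xe (p.2 + p.2 - p.1) ≤ 8 * Ms h p.1 := by
  have h1 : ∀ᵐ p : U × U, ∀ ϑ, PsU h (p.1, ϑ) * Xe ϑ ≤ 4 * Ms h p.1 :=
    Measure.quasiMeasurePreserving_fst.ae (PsU_Xe_le h)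
  filter_upwards [fold_fD h, h1] with p hp1 hp2
  have h3 : fD h p ≤ 2 * PsU h (tP p) := by rw [← hp1]; exact le_self_add
  calc fD h p * Xe (p.2 + p.2 - p.1) ≤ 2 * PsU h (tP p) * Xe (p.2 + p.2 - p.1) :=
        mul_le_mul_left h3 _
    _ = 2 * (PsU h (p.1, p.2 + p.2 - p.1) * Xe (p.2 + p.2 - p.1)) := by
        rw [mul_assoc]; rfl
    _ ≤ 2 * (4 * Ms h p.1) := mul_le_mul_right (hp2 _) _
    _ = 8 * Ms h p.1 := by rw [← mul_assoc]; norm_num

/-- direction 2 -/
theorem fD_le2 (h : RPH V) : ∀ᵐ p : U × U, fD h p * Xe (p.2 - p.1 - p.1) ≤ 8 * Ms h p.2 := by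
  filter_upwards [fD_rP h, rP_mp.quasiMeasurePreserving.ae (fD_le1 h)] with p hp1 hp2
  rw [hp1] at hp2
  have : (rP p).2 + (rP p).2 - (rP p).1 = p.2 - p.1 - p.1 := by
    show p.2 - p.1 + (p.2 - p.1) - p.2 = _
    abel
  rw [this] at hp2
  exact hp2

/-- direction 3 -/
theorem fD_le3 (h : RPH V) : ∀ᵐ p : U × U, fD h p * Xe (p.1 + p.2) ≤ 8 * Ms h (p.2 - p.1) := by
  filter_upwards [fD_rP h, rP_mp.quasiMeasurePreserving.ae (fD_le2 h)] with p hp1 hp2
  rw [hp1] at hp2
  have h2 : (rP p).2 - (rP p).1 - (rP p).1 = -(p.1 + p.2) := by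
    show p.2 - p.1 - p.2 - p.2 = _
    abel
  rw [h2] at hp2
  have h3 : Xe (-(p.1 + p.2)) = Xe (p.1 + p.2) := by unfold Xe; rw [Xu_neg]
  rw [h3] at hp2
  exact hp2

theorem mass_pt (h : RPH V) : ∀ᵐ p : U × U, Ms h p.1 * (Xe p.2 * Xe (p.2 + hf) * Xe (p.2 - p.1 - p.1) *
    Xe (p.2 + hf - p.1 - p.1)) ≤ 256 * (Ms h p.2 * Xe p.2 + Ms h (p.2 + hf) * Xe (p.2 + hf)) := by
  have h1 : ∀ᵐ p : U × U, ∀ ϑ, Ms h p.1 ≤ 4 * PsU h (p.1, ϑ) :=
    Measure.quasiMeasurePreserving_fst.ae (Ms_le_PsU h)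
  filter_upwards [h1, fold_fD h, fD_le2 h, mp_Qp.quasiMeasurePreserving.ae (fD_le2 h)] with p hp1 hp2 hp3 hp4
  have h2 : Ms h p.1 ≤ 2 * (fD h p + fD h (p + Qp)) := by
    refine (hp1 (tP p).2).trans ?_
    have : (p.1, (tP p).2) = tP p := rfl
    rw [this, hp2, ← mul_assoc]
    norm_num
  have e1 : (p + Qp).2 = p.2 + hf := rfl
  have e2 : (p + Qp).1 = p.1 := add_zero _
  rw [e1, e2] at hp4
  set A := Xe p.2
  set B := Xe (p.2 + hf)
  set C := Xe (p.2 - p.1 - p.1)
  set D := Xe (p.2 + hf - p.1 - p.1)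
  have hA : A ≤ 4 := Xe_le _
  have hB : B ≤ 4 := Xe_le _
  have hC : C ≤ 4 := Xe_le _
  have hD : D ≤ 4 := Xe_le _
  calc Ms h p.1 * (A * B * C * D) ≤ 2 * (fD h p + fD h (p + Qp)) * (A * B * C * D) :=
        mul_le_mul_left h2 _
    _ = 2 * ((fD h p * C) * (A * (B * D)) + (fD h (p + Qp) * D) * (B * (A * C))) := by ring
    _ ≤ 2 * ((8 * Ms h p.2) * (A * (4 * 4)) + (8 * Ms h (p.2 + hf)) * (B * (4 * 4))) := by
        gcongr
    _ = 256 * (Ms h p.2 * A + Ms h (p.2 + hf) * B) := by ring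

theorem integral_fourier_ne {n : ℤ} (hn : n ≠ 0) : ∫ ϑ : U, (fourier n ϑ : ℂ) = 0 := by
  have h := poisson_U (le_refl (0 : ℝ)) one_pos n
  have h1 : ∀ ϑ : U, (fourier n ϑ : ℂ) / (dU 0 ϑ : ℂ) = fourier n ϑ := by
    intro ϑ
    have : dU 0 ϑ = 1 := by unfold dU; ring
    rw [this]; simp
  simp_rw [h1] at h
  rw [h, zero_pow (Int.natAbs_ne_zero.2 hn)]
  simp

theorem fourier_re_sq (n : ℤ) (t : U) : (fourier n t : ℂ).re ^ 2 + (fourier n t : ℂ).im ^ 2 = 1 := by
  have h2 : ‖fourier n t‖ = 1 := by rw [fourier_apply]; exact Circle.norm_coe _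
  have := Complex.sq_norm (fourier n t)
  rw [h2, Complex.normSq_apply] at this
  linarith

theorem fourier_one_hf : (fourier 1 hf : ℂ) = -1 := by
  have h1 : hf = pm π := by
    unfold hf pm
    congr 1
    have := Real.pi_ne_zero
    field_simp
  rw [h1, fourier_pm, mul_comm Complex.I]
  push_cast
  rw [mul_one, Complex.exp_pi_mul_I]

theorem Xu_mul_hf (t : U) : Xu t * Xu (t + hf) = 2 - 2 * (fourier 2 t : ℂ).re := by
  unfold Xu
  rw [fourier_add_arg, fourier_one_hf, show (2 : ℤ) = 1 + 1 by norm_num, fourier_add_idx]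
  have := fourier_re_sq 1 t
  simp only [Complex.mul_re, Complex.neg_re, Complex.one_re, Complex.neg_im, Complex.one_im]
  linear_combination (-2) * this

theorem w_integral (s : U) : 2 ≤ ∫ t : U, (2 - 2 * (fourier 2 t : ℂ).re) * (2 - 2 * (fourier 2 (t - s) : ℂ).re) := by
  have hre : ∀ n : ℤ, n ≠ 0 → ∀ a : ℂ, ∫ t : U, ((fourier n t : ℂ) * a).re = 0 := by
    intro n hn a
    have hi : Integrable (fun t : U => (fourier n t : ℂ) * a) volume :=
      integrable_U ((fourier n).continuous.mul continuous_const)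
    have h1 := integral_re (𝕜 := ℂ) hi
    have h2 : ∫ t : U, (fourier n t : ℂ) * a = 0 := by
      rw [integral_mul_const, integral_fourier_ne hn, zero_mul]
    rw [h2] at h1
    exact h1
  have hci : ∀ (n : ℤ) (a : ℂ), Integrable (fun t : U => ((fourier n t : ℂ) * a).re) volume :=
    fun n a => integrable_U (Complex.continuous_re.comp ((fourier n).continuous.mul continuous_const))
  have e : ∀ t : U, (2 - 2 * (fourier 2 t : ℂ).re) * (2 - 2 * (fourier 2 (t - s) : ℂ).re) =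
      (4 + 2 * (fourier 2 s : ℂ).re) + (-4 * ((fourier 2 t : ℂ) * 1).re) +
        (-4 * ((fourier 2 t : ℂ) * (starRingEnd ℂ) (fourier 2 s)).re) +
        2 * ((fourier 4 t : ℂ) * (starRingEnd ℂ) (fourier 2 s)).re := by
    intro t
    have h1 : (fourier 2 (t - s) : ℂ) = fourier 2 t * (starRingEnd ℂ) (fourier 2 s) := by
      rw [sub_eq_add_neg, fourier_add_arg, fourier_neg_arg]
    have h2 : (fourier 4 t : ℂ) = fourier 2 t * fourier 2 t := by
      rw [show (4 : ℤ) = 2 + 2 by norm_num, fourier_add_idx]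
    rw [h1, h2]
    have h3 := fourier_re_sq 2 t
    rw [mul_one]
    simp only [Complex.mul_re, Complex.mul_im, Complex.conj_re, Complex.conj_im]
    linear_combination (2 * (fourier 2 s : ℂ).re) * h3
  simp_rw [e]
  rw [integral_add, integral_add, integral_add, integral_const_mul, integral_const_mul,
    integral_const_mul, hre 2 (by norm_num), hre 2 (by norm_num), hre 4 (by norm_num),
    integral_const]
  · have := neg_le_fourier_re 2 s
    have h1 : (volume : Measure U).real univ = 1 := by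
      rw [Measure.real, UnitAddCircle.measure_univ, ENNReal.toReal_one]
    rw [h1, one_smul]
    linarith
  · exact integrable_const _
  · exact (hci _ _).const_mul _
  · exact (integrable_const _).add ((hci _ _).const_mul _)
  · exact (hci _ _).const_mul _
  · exact ((integrable_const _).add ((hci _ _).const_mul _)).add ((hci _ _).const_mul _)
  · exact (hci _ _).const_mul _

theorem w_lint (y : U) : 2 ≤ ∫⁻ t : U, Xe t * Xe (t + hf) * Xe (t - y - y) * Xe (t + hf - y - y) := by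
  have e : ∀ t : U, Xe t * Xe (t + hf) * Xe (t - y - y) * Xe (t + hf - y - y) =
      ENNReal.ofReal ((2 - 2 * (fourier 2 t : ℂ).re) * (2 - 2 * (fourier 2 (t - (y + y)) : ℂ).re)) := by
    intro t
    rw [← Xu_mul_hf, ← Xu_mul_hf]
    unfold Xe
    rw [← ENNReal.ofReal_mul (Xu_nonneg _), ← ENNReal.ofReal_mul (mul_nonneg (Xu_nonneg _) (Xu_nonneg _)),
      ← ENNReal.ofReal_mul (mul_nonneg (mul_nonneg (Xu_nonneg _) (Xu_nonneg _)) (Xu_nonneg _))]
    congr 1
    rw [show t - (y + y) = t - y - y by abel, show t - y - y + hf = t + hf - y - y by abel]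
    ring
  simp_rw [e]
  have hc : Continuous fun t : U => (2 - 2 * (fourier 2 t : ℂ).re) * (2 - 2 * (fourier 2 (t - (y + y)) : ℂ).re) := by
    refine Continuous.mul ?_ ?_
    · exact continuous_const.sub (continuous_const.mul (Complex.continuous_re.comp (fourier 2).continuous))
    · exact continuous_const.sub (continuous_const.mul (Complex.continuous_re.comp
        ((fourier 2).continuous.comp (continuous_id.sub continuous_const))))
  rw [← ofReal_integral_eq_lintegral_ofReal (integrable_U hc)]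
  · have := w_integral (y + y)
    have h2 : (2 : ℝ≥0∞) = ENNReal.ofReal 2 := by simp
    rw [h2]
    exact ENNReal.ofReal_le_ofReal this
  · refine Eventually.of_forall fun t => ?_
    have h1 := fourier_re_le 2 t
    have h2 := fourier_re_le 2 (t - (y + y))
    show 0 ≤ _
    apply mul_nonneg <;> linarith

theorem Ms_Xe_int (h : RPH V) : ∫⁻ t : U, Ms h t * Xe t ≤ ENNReal.ofReal (V E1) := by
  have h1 := mU_lint h (fun p => Xe p.1) (Xe_measurable.comp measurable_fst)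
  have h2 : ∫⁻ t : U, Ms h t * Xe t = ∫⁻ y : U, ∫⁻ τ, Xe y ∂(mU h y) := by
    apply lintegral_congr
    intro t
    rw [lintegral_const, mul_comm]
    rfl
  rw [h2]
  refine (le_of_eq h1).trans ?_
  rw [← nu_univ h]
  refine (lintegral_mono_ae (g := fun _ => 1) ?_).trans (le_of_eq ?_)
  · filter_upwards [nu_ae h] with p hp
    calc Xe p.1 * ((Xe p.1)⁻¹ * ENNReal.ofReal (1 - p.2 ^ 2)) =
        (Xe p.1 * (Xe p.1)⁻¹) * ENNReal.ofReal (1 - p.2 ^ 2) := by ring
      _ ≤ 1 * 1 := by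
        refine mul_le_mul' (ENNReal.mul_inv_le_one _) ?_
        rw [← ENNReal.ofReal_one]
        apply ENNReal.ofReal_le_ofReal
        nlinarith [sq_nonneg p.2]
      _ = 1 := one_mul 1
  · simp

/-- **uniform bound of the mass** -/
theorem Ms_le (h : RPH V) : ∀ᵐ y : U, Ms h y ≤ ENNReal.ofReal (256 * V E1) := by
  have h1 : ∀ᵐ y : U, ∀ᵐ t : U, Ms h y * (Xe t * Xe (t + hf) * Xe (t - y - y) *
    Xe (t + hf - y - y)) ≤ 256 * (Ms h t * Xe t + Ms h (t + hf) * Xe (t + hf)) :=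
    Measure.ae_ae_of_ae_prod (mass_pt h)
  have hmX : Measurable fun t : U => Ms h t * Xe t := (Ms_measurable h).mul Xe_measurable
  have hmX2 : Measurable fun t : U => Ms h (t + hf) * Xe (t + hf) := hmX.comp (measurable_add_const hf)
  have hmX3 : Measurable fun t : U => Ms h t * Xe t + Ms h (t + hf) * Xe (t + hf) := hmX.add hmX2
  filter_upwards [h1] with y hy
  have hw1 : Measurable fun t : U => Xe (t + hf) := Xe_measurable.comp (measurable_id.add_const _)
  have hw2 : Measurable fun t : U => Xe (t - y - y) :=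
    Xe_measurable.comp ((measurable_id.sub_const _).sub_const _)
  have hw3 : Measurable fun t : U => Xe (t + hf - y - y) :=
    Xe_measurable.comp (((measurable_id.add_const _).sub_const _).sub_const _)
  have hmw : Measurable fun t : U => Xe t * Xe (t + hf) * Xe (t - y - y) * Xe (t + hf - y - y) :=
    ((Xe_measurable.mul hw1).mul hw2).mul hw3
  have h2 := lintegral_mono_ae hy
  rw [lintegral_const_mul _ hmw, lintegral_const_mul _ hmX3, lintegral_add_left hmX] at h2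
  have h3 : ∫⁻ t : U, Ms h (t + hf) * Xe (t + hf) = ∫⁻ t : U, Ms h t * Xe t :=
    (measurePreserving_add_right (volume : Measure U) hf).lintegral_comp hmX
  rw [h3] at h2
  have h4 := Ms_Xe_int h
  have h5 : Ms h y * 2 ≤ 256 * (ENNReal.ofReal (V E1) + ENNReal.ofReal (V E1)) :=
    (mul_le_mul_right (w_lint y) _).trans (h2.trans (mul_le_mul_right (add_le_add h4 h4) _))
  have h6 : 256 * (ENNReal.ofReal (V E1) + ENNReal.ofReal (V E1)) = ENNReal.ofReal (256 * V E1) * 2 := by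
    rw [ENNReal.ofReal_mul (by norm_num)]
    have : ENNReal.ofReal 256 = 256 := by simp
    rw [this]
    ring
  rw [h6] at h5
  exact (ENNReal.mul_le_mul_iff_left (by norm_num) (by norm_num)).1 h5

end Vale.Agent.P153.RP
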