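import Vale.Agent.P153.RP.Phi
import Vale.Agent.P153.TwoPt.Poisson

/-!
# Facts on the circle
-/

open MeasureTheory Filter Topology Set
open scoped NNReal ENNReal Real

namespace Vale.Agent.P153.RP

/-- the circle `ℝ/ℤ` -/
abbrev U := UnitAddCircle

theorem mp_dbl : MeasurePreserving (fun x : U => x + x) volume volume := by
  have h := Measure.measurePreserving_zsmul (volume : Measure U) (n := 2) (by norm_num)
  have : (fun x : U => x + x) = fun x => (2 : ℤ) • x := by
    funext x; rw [two_zsmul]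
  rw [this]; exact h

/-- a section of the doubling map -/
noncomputable def half (x : U) : U := ((((AddCircle.equivIoc 1 0 x : Ioc (0 : ℝ) (0 + 1)) : ℝ) / 2 : ℝ) : U)

theorem half_measurable : Measurable half := by
  have h1 : Measurable fun x : U => ((AddCircle.equivIoc 1 0 x : Ioc (0 : ℝ) (0 + 1)) : ℝ) :=
    measurable_subtype_coe.comp (AddCircle.measurableEquivIoc 1 0).measurable
  exact AddCircle.measurable_mk'.comp (h1.div_const 2)

theorem coe_equivIoc (x : U) : ((((AddCircle.equivIoc 1 0 x : Ioc (0 : ℝ) (0 + 1)) : ℝ)) : U) = x :=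
  (AddCircle.equivIoc (1 : ℝ) 0).symm_apply_apply x

theorem half_add_half (x : U) : half x + half x = x := by
  conv_rhs => rw [← coe_equivIoc x]
  unfold half
  rw [← AddCircle.coe_add]
  congr 1
  ring

/-- the element of order two -/
noncomputable def hf : U := ((1 / 2 : ℝ) : U)

theorem hf_add_hf : hf + hf = 0 := by
  unfold hf
  rw [← AddCircle.coe_add]
  have : (1 / 2 : ℝ) + 1 / 2 = 1 := by norm_num
  rw [this]
  exact AddCircle.coe_period 1

theorem dbl_eq_zero {x : U} (h : x + x = 0) : x = 0 ∨ x = hf := by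
  obtain ⟨r, rfl⟩ := QuotientAddGroup.mk_surjective x
  have h1 : ((r + r : ℝ) : U) = 0 := h
  rw [AddCircle.coe_eq_zero_iff] at h1
  obtain ⟨n, hn⟩ := h1
  rw [zsmul_eq_mul, mul_one] at hn
  obtain ⟨m, hm⟩ := Int.even_or_odd' n
  rcases hm with hm | hm
  · left
    show ((r : ℝ) : U) = 0
    rw [AddCircle.coe_eq_zero_iff]
    refine ⟨m, ?_⟩
    rw [zsmul_eq_mul, mul_one]
    have : (n : ℝ) = 2 * m := by rw [hm]; push_cast; ring
    linarith
  · right
    show ((r : ℝ) : U) = hf
    unfold hf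
    rw [← sub_eq_zero, ← AddCircle.coe_sub, AddCircle.coe_eq_zero_iff]
    refine ⟨m, ?_⟩
    rw [zsmul_eq_mul, mul_one]
    have : (n : ℝ) = 2 * m + 1 := by rw [hm]; push_cast; ring
    linarith

theorem half_dbl (x : U) : half (x + x) = x ∨ half (x + x) = x + hf := by
  have h : (half (x + x) - x) + (half (x + x) - x) = 0 := by
    have := half_add_half (x + x)
    have h2 : half (x + x) - x + (half (x + x) - x) = (half (x + x) + half (x + x)) - (x + x) := by abel
    rw [h2, this, sub_self]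
  rcases dbl_eq_zero h with h | h
  · left; exact sub_eq_zero.1 h
  · right; rw [← h]; abel

/-! ### real coordinates -/

/-- the point of the circle with momentum `s` -/
noncomputable def pm (s : ℝ) : U := ((s / (2 * π) : ℝ) : U)

theorem pm_measurable : Measurable pm := AddCircle.measurable_mk'.comp (measurable_id.div_const _)

theorem pm_add (s t : ℝ) : pm (s + t) = pm s + pm t := by
  unfold pm; rw [add_div, AddCircle.coe_add]

theorem pm_sub (s t : ℝ) : pm (s - t) = pm s - pm t := by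
  unfold pm; rw [sub_div, AddCircle.coe_sub]

theorem pm_neg (s : ℝ) : pm (-s) = -pm s := by
  unfold pm; rw [neg_div, AddCircle.coe_neg]

theorem fourier_pm (n : ℤ) (s : ℝ) : fourier n (pm s) = Complex.exp (Complex.I * ((s * n : ℝ) : ℂ)) := by
  unfold pm
  rw [fourier_coe_apply]
  congr 1
  have hpi : (π : ℂ) ≠ 0 := by exact_mod_cast Real.pi_ne_zero
  push_cast
  field_simp

theorem map_pm : (volume.restrict (Ioc (-π) π)).map pm = ENNReal.ofReal (2 * π) • (volume : Measure U) := by
  have hpi := Real.pi_pos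
  have h1 := (UnitAddCircle.measurePreserving_mk (-(1 / 2))).map_eq
  rw [← h1]
  have h2 : (volume.restrict (Ioc (-π) π)).map (fun s : ℝ => (2 * π)⁻¹ * s) =
      ENNReal.ofReal (2 * π) • volume.restrict (Ioc (-(1 / 2) : ℝ) (-(1 / 2) + 1)) := by
    have hc : (2 * π)⁻¹ ≠ 0 := by positivity
    have h3 : Ioc (-π) π = (fun s : ℝ => (2 * π)⁻¹ * s) ⁻¹' (Ioc (-(1 / 2) : ℝ) (-(1 / 2) + 1)) := by
      ext s
      simp only [mem_Ioc, mem_preimage]
      rw [inv_mul_eq_div, lt_div_iff₀ (by positivity), div_le_iff₀ (by positivity)]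
      constructor
      · rintro ⟨h1, h2⟩; constructor <;> linarith
      · rintro ⟨h1, h2⟩; constructor <;> linarith
    rw [h3, ← Measure.restrict_map (measurable_const_mul _) measurableSet_Ioc,
      Real.map_volume_mul_left hc, Measure.restrict_smul]
    congr 2
    rw [inv_inv, abs_of_pos (by positivity)]
  have h3 : pm = (fun r : ℝ => (r : U)) ∘ fun s : ℝ => (2 * π)⁻¹ * s := by
    funext s
    show ((s / (2 * π) : ℝ) : U) = _
    rw [div_eq_inv_mul]
    rfl
  rw [h3, ← Measure.map_map AddCircle.measurable_mk' (measurable_const_mul _), h2, Measure.map_smul]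

theorem lintegral_U (f : U → ℝ≥0∞) (hf : Measurable f) :
    ∫⁻ s in Icc (-π) π, f (pm s) = ENNReal.ofReal (2 * π) * ∫⁻ x, f x := by
  have h : ∫⁻ x, f x ∂((volume.restrict (Ioc (-π) π)).map pm) =
      ∫⁻ x, f x ∂(ENNReal.ofReal (2 * π) • (volume : Measure U)) := by rw [map_pm]
  rw [lintegral_map hf pm_measurable, lintegral_smul_measure, smul_eq_mul] at h
  rw [restrict_Ioc_eq_restrict_Icc] at h
  exact h

theorem integral_U {E : Type*} [NormedAddCommGroup E] [NormedSpace ℝ E] (f : U → E)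
    (hf : AEStronglyMeasurable f volume) :
    ∫ s in Icc (-π) π, f (pm s) = (2 * π) • ∫ x, f x := by
  have h : ∫ x, f x ∂((volume.restrict (Ioc (-π) π)).map pm) =
      ∫ x, f x ∂(ENNReal.ofReal (2 * π) • (volume : Measure U)) := by rw [map_pm]
  have hpi := Real.pi_pos
  rw [integral_map pm_measurable.aemeasurable, integral_smul_measure,
    ENNReal.toReal_ofReal (by positivity), restrict_Ioc_eq_restrict_Icc] at h
  · exact h
  · rw [map_pm]
    exact hf.smul_measure _

theorem qmp_pm : Measure.QuasiMeasurePreserving pm (volume : Measure ℝ) (volume : Measure U) := by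
  have hpi := Real.pi_pos
  refine ⟨pm_measurable, ?_⟩
  intro s hs
  have hs' : volume (toMeasurable volume s) = 0 := by rwa [measure_toMeasurable]
  set t := toMeasurable (volume : Measure U) s
  have ht : MeasurableSet t := measurableSet_toMeasurable _ _
  have hst : s ⊆ t := subset_toMeasurable _ _
  refine measure_mono_null hst ?_
  rw [Measure.map_apply pm_measurable ht]
  · have key : ∀ n : ℤ, volume (pm ⁻¹' t ∩ Ioc (-π + n * (2 * π)) (π + n * (2 * π))) = 0 := by
      intro n
      have h1 : pm ⁻¹' t ∩ Ioc (-π + n * (2 * π)) (π + n * (2 * π)) =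
          (fun x => x + -(n * (2 * π))) ⁻¹' (pm ⁻¹' t ∩ Ioc (-π) π) := by
        ext x
        have hx : pm (x + -(n * (2 * π))) = pm x := by
          rw [pm_add]
          have : pm (-(n * (2 * π))) = 0 := by
            unfold pm
            rw [AddCircle.coe_eq_zero_iff]
            refine ⟨-n, ?_⟩
            rw [zsmul_eq_mul, mul_one]
            push_cast
            field_simp
          rw [this, add_zero]
        simp only [mem_inter_iff, mem_preimage, mem_Ioc, hx]
        constructor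
        · rintro ⟨h1, h2, h3⟩; exact ⟨h1, by linarith, by linarith⟩
        · rintro ⟨h1, h2, h3⟩; exact ⟨h1, by linarith, by linarith⟩
      rw [h1, measure_preimage_add_right]
      have h2 := congrArg (fun μ : Measure U => μ t) map_pm
      simp only [Measure.smul_apply, hs', smul_zero] at h2
      rw [Measure.map_apply pm_measurable ht, Measure.restrict_apply (pm_measurable ht)] at h2
      exact h2
    have hcov : pm ⁻¹' t ⊆ ⋃ n : ℤ, pm ⁻¹' t ∩ Ioc (-π + n * (2 * π)) (π + n * (2 * π)) := by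
      intro x hx
      rw [mem_iUnion]
      refine ⟨⌈(x - π) / (2 * π)⌉, hx, ?_, ?_⟩
      · have := Int.ceil_lt_add_one ((x - π) / (2 * π))
        have h2 : (⌈(x - π) / (2 * π)⌉ : ℝ) * (2 * π) < ((x - π) / (2 * π) + 1) * (2 * π) :=
          mul_lt_mul_of_pos_right this (by positivity)
        have h3 : ((x - π) / (2 * π) + 1) * (2 * π) = x + π := by field_simp; ring
        linarith
      · have := Int.le_ceil ((x - π) / (2 * π))
        have h2 : (x - π) / (2 * π) * (2 * π) ≤ (⌈(x - π) / (2 * π)⌉ : ℝ) * (2 * π) :=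
          mul_le_mul_of_nonneg_right this (by positivity)
        have h3 : (x - π) / (2 * π) * (2 * π) = x - π := by field_simp
        linarith
    exact measure_mono_null hcov (measure_iUnion_null key)

theorem ae_pm {P : U → Prop} (h : ∀ᵐ y, P y) : ∀ᵐ s : ℝ, P (pm s) := qmp_pm.ae h

theorem ae_pm2 {P : U × U → Prop} (h : ∀ᵐ y, P y) : ∀ᵐ s : ℝ × ℝ, P (pm s.1, pm s.2) :=
  (MeasureTheory.QuasiMeasurePreserving.prodMap qmp_pm qmp_pm).ae h

/-! ### the Poisson kernel -/

/-- `2 - 2 cos 2πϑ` -/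
noncomputable def Xu (ϑ : U) : ℝ := 2 - 2 * (fourier 1 ϑ).re

theorem Xu_continuous : Continuous Xu :=
  continuous_const.sub (continuous_const.mul (Complex.continuous_re.comp (fourier 1).continuous))

theorem fourier_re_le (n : ℤ) (ϑ : U) : (fourier n ϑ).re ≤ 1 := by
  refine (Complex.re_le_norm _).trans ?_
  rw [fourier_apply]
  exact le_of_eq (Circle.norm_coe _)

theorem neg_le_fourier_re (n : ℤ) (ϑ : U) : -1 ≤ (fourier n ϑ).re := by
  have h1 := Complex.abs_re_le_norm (fourier n ϑ)
  have h2 : ‖fourier n ϑ‖ = 1 := by rw [fourier_apply]; exact Circle.norm_coe _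
  rw [h2] at h1
  exact (abs_le.1 h1).1

theorem Xu_nonneg (ϑ : U) : 0 ≤ Xu ϑ := by
  have := fourier_re_le 1 ϑ
  unfold Xu; linarith

theorem Xu_le (ϑ : U) : Xu ϑ ≤ 4 := by
  have := neg_le_fourier_re 1 ϑ
  unfold Xu; linarith

theorem Xu_pm (s : ℝ) : Xu (pm s) = 2 - 2 * Real.cos s := by
  unfold Xu
  rw [fourier_pm, mul_comm Complex.I, Complex.exp_ofReal_mul_I_re]
  push_cast
  rw [mul_one]

theorem Xu_neg (ϑ : U) : Xu (-ϑ) = Xu ϑ := by
  unfold Xu
  rw [fourier_apply, fourier_apply, smul_neg, AddCircle.toCircle_neg, Circle.coe_inv_eq_conj,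
    Complex.conj_re]

/-- `(1-τ)² + τ X(ϑ)` -/
noncomputable def dU (τ : ℝ) (ϑ : U) : ℝ := (1 - τ) ^ 2 + τ * Xu ϑ

theorem dU_pm (τ s : ℝ) : dU τ (pm s) = TwoPt.den τ s := by
  unfold dU TwoPt.den; rw [Xu_pm]

theorem dU_le {τ : ℝ} (h0 : 0 ≤ τ) (h1 : τ ≤ 1) (ϑ : U) : dU τ ϑ ≤ 4 := by
  have := Xu_le ϑ
  unfold dU
  nlinarith

theorem le_dU {τ : ℝ} (h0 : 0 ≤ τ) (_h1 : τ ≤ 1) (ϑ : U) : Xu ϑ / 4 ≤ dU τ ϑ := by
  have h2 := Xu_le ϑ
  have h3 := Xu_nonneg ϑ
  unfold dU
  rcases le_total (Xu ϑ) 3 with h | h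
  · nlinarith [sq_nonneg (1 - τ - Xu ϑ / 2), mul_nonneg h3 (sub_nonneg.2 h)]
  · nlinarith [mul_nonneg h0 (show 0 ≤ Xu ϑ - 1 - (1 - τ) by linarith)]

theorem dU_pos {τ : ℝ} (h0 : 0 ≤ τ) (h1 : τ < 1) (ϑ : U) : 0 < dU τ ϑ := by
  have h3 := Xu_nonneg ϑ
  unfold dU
  have : 0 < (1 - τ) ^ 2 := by have : 0 < 1 - τ := by linarith
                               positivity
  nlinarith

theorem dU_measurable : Measurable fun p : ℝ × U => dU p.1 p.2 := by
  unfold dU
  exact ((measurable_const.sub measurable_fst).pow_const 2).add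
    (measurable_fst.mul (Xu_continuous.measurable.comp measurable_snd))

theorem dU_continuous (τ : ℝ) : Continuous (dU τ) := by
  unfold dU
  exact continuous_const.add (continuous_const.mul Xu_continuous)

theorem poisson_U {τ : ℝ} (h0 : 0 ≤ τ) (h1 : τ < 1) (n : ℤ) :
    ∫ ϑ : U, fourier n ϑ / (dU τ ϑ : ℂ) = ((τ ^ n.natAbs / (1 - τ ^ 2) : ℝ) : ℂ) := by
  have h := TwoPt.poisson h0 h1 n
  have hpi := Real.pi_pos
  have hc : Continuous fun ϑ : U => fourier n ϑ / (dU τ ϑ : ℂ) := by
    refine (fourier n).continuous.div ?_ ?_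
    · exact Complex.continuous_ofReal.comp (dU_continuous τ)
    · intro ϑ
      have := dU_pos h0 h1 ϑ
      exact_mod_cast this.ne'
  have h2 := integral_U (fun ϑ : U => fourier n ϑ / (dU τ ϑ : ℂ)) hc.aestronglyMeasurable
  simp_rw [fourier_pm, dU_pm] at h2
  rw [h2] at h
  have h3 : ((2 * π : ℝ) : ℂ) ≠ 0 := by
    have : (2 * π) ≠ 0 := by positivity
    exact_mod_cast this
  rw [Complex.real_smul] at h
  have h4 : ((2 * π * (τ ^ n.natAbs / (1 - τ ^ 2)) : ℝ) : ℂ) =
      ((2 * π : ℝ) : ℂ) * ((τ ^ n.natAbs / (1 - τ ^ 2) : ℝ) : ℂ) := by push_cast; ring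
  rw [h4] at h
  exact mul_left_cancel₀ h3 h

end Vale.Agent.P153.RP
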