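import Vale.Agent.P153.RP.Fold

/-!
# The density of the spectral measure
-/

open MeasureTheory Filter Topology Set UnitAddTorus ProbabilityTheory
open scoped NNReal ENNReal Real unitInterval

namespace Vale.Agent.P153.RP

variable {V : (Fin 2 → ℤ) → ℝ}

/-! ### basic facts -/

theorem xe_toP (e : Fin 2 → ℤ) (θ : UnitAddTorus (Fin 2)) :
    xe e θ = ENNReal.ofReal (2 - 2 * cu (e 0) (e 1) (toP θ)) := by
  unfold xe XX; rw [cs_eq_cu]

theorem cu_10 (p : U × U) : 2 - 2 * cu 1 0 p = Xu p.1 := by
  unfold cu Xu; simp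

theorem cu_01 (p : U × U) : 2 - 2 * cu 0 1 p = Xu p.2 := by
  unfold cu Xu; simp

/-- `X` as an extended nonnegative function -/
noncomputable def Xe (y : U) : ℝ≥0∞ := ENNReal.ofReal (Xu y)

theorem Xe_measurable : Measurable Xe := Xu_continuous.measurable.ennreal_ofReal

theorem Xe_ne_top (y : U) : Xe y ≠ ⊤ := ENNReal.ofReal_ne_top

theorem Xe_le (y : U) : Xe y ≤ 4 := by
  unfold Xe
  refine (ENNReal.ofReal_le_ofReal (Xu_le y)).trans ?_
  simp

theorem xe_E1 (θ : UnitAddTorus (Fin 2)) : xe E1 θ = Xe (toP θ).1 := by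
  rw [xe_toP]
  show ENNReal.ofReal (2 - 2 * cu 1 0 (toP θ)) = _
  rw [cu_10]; rfl

theorem Xu_zero {y : U} (h : Xu y = 0) : y = 0 := by
  obtain ⟨r, rfl⟩ := QuotientAddGroup.mk_surjective y
  have h1 : Xu (pm (2 * π * r)) = 0 := by
    have : pm (2 * π * r) = (r : U) := by
      unfold pm
      congr 1
      field_simp
    rw [this]; exact h
  rw [Xu_pm] at h1
  have h2 : Real.cos (2 * π * r) = 1 := by linarith
  rw [Real.cos_eq_one_iff] at h2
  obtain ⟨n, hn⟩ := h2
  show ((r : ℝ) : U) = 0
  rw [AddCircle.coe_eq_zero_iff]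
  refine ⟨n, ?_⟩
  rw [zsmul_eq_mul, mul_one]
  have hpi : (2 * π) ≠ 0 := by positivity
  have : (2 * π) * n = (2 * π) * r := by linarith
  exact mul_left_cancel₀ hpi this

theorem Xe_zero {y : U} (h : Xe y = 0) : y = 0 := by
  unfold Xe at h
  rw [ENNReal.ofReal_eq_zero] at h
  exact Xu_zero (le_antisymm h (Xu_nonneg y))

theorem fourier_zero_arg (n : ℤ) : (fourier n (0 : U) : ℂ) = 1 := by
  rw [fourier_apply]; simp

theorem Xe1_measurable : Measurable fun p : U × U => Xe p.1 := Xe_measurable.comp measurable_fst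

theorem GP_eq (h : VH V) : GP h.toVH0 E1 = (PhiP h).withDensity (fun p => Xe p.1) := by
  unfold GP PhiP
  rw [← xe_Phi h E1]
  ext s hs
  rw [Measure.map_apply toP_measurable hs, withDensity_apply _ (toP_measurable hs),
    withDensity_apply _ hs]
  rw [setLIntegral_map hs Xe1_measurable toP_measurable]
  apply lintegral_congr
  intro θ
  exact xe_E1 θ

/-! ### symmetries -/

theorem mFourier_rP (n : Fin 2 → ℤ) (θ : UnitAddTorus (Fin 2)) :
    mFourier n (ofP (rP (toP θ))) = mFourier ![-n 1, n 0 + n 1] θ := by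
  rw [mFourier_ofP, mFourier_eq]
  simp only [rP, toP, Matrix.cons_val_zero, Matrix.cons_val_one]
  rw [sub_eq_add_neg, fourier_add_arg, fourier_neg_arg, fourier_neg_idx, fourier_add_idx]
  ring

theorem mFourier_fP (n : Fin 2 → ℤ) (θ : UnitAddTorus (Fin 2)) :
    mFourier n (ofP (fP (toP θ))) = mFourier ![n 0 + n 1, -n 1] θ := by
  rw [mFourier_ofP, mFourier_eq]
  simp only [fP, toP, Matrix.cons_val_zero, Matrix.cons_val_one]
  rw [sub_eq_add_neg, fourier_add_arg, fourier_neg_arg, fourier_neg_idx, fourier_add_idx]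
  ring

theorem sym_aux (h : VH V) (T : UnitAddTorus (Fin 2) → UnitAddTorus (Fin 2)) (hT : Measurable T)
    (hneg : ∀ θ, T (-θ) = -T θ) (A : (Fin 2 → ℤ) → (Fin 2 → ℤ))
    (hA : ∀ n θ, mFourier n (T θ) = mFourier (A n) θ) (hA1 : ∀ e, ∃ a, A a = e)
    (hV : ∀ x, V (A x) = V x) :
    (Phi h).map T = Phi h := by
  apply Phi_unique h
  · unfold EvenM
    rw [Measure.map_map measurable_negT hT]
    have : (fun x : UnitAddTorus (Fin 2) => -x) ∘ T = T ∘ (fun x => -x) := by
      funext θ
      exact (hneg θ).symm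
    rw [this, ← Measure.map_map hT measurable_negT, Phi_even h]
  · rw [ae_map_iff hT.aemeasurable]
    · filter_upwards [Phi_xs_zero h] with θ hθ hc
      apply hθ
      have h1 : ∀ e, mFourier e θ = 1 := by
        intro e
        obtain ⟨a, rfl⟩ := hA1 e
        rw [← hA]
        exact xs_zero' hc a
      have h2 : ∀ e, xe e θ = 0 := by
        intro e
        rw [xe, XX, cs, h1]
        simp
      rw [xs, h2, h2, add_zero]
    · exact (measurableSet_eq_fun xs_measurable measurable_const).compl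
  · intro e
    rw [lintegral_map (xe_measurable e) hT]
    have : ∀ θ, xe e (T θ) = xe (A e) θ := by
      intro θ
      unfold xe XX cs
      rw [hA]
    simp_rw [this]
    rw [lintegral_xe_Phi, hV]

theorem PhiP_rP (h : RPH V) : (PhiP h.toVH).map rP = PhiP h.toVH := by
  have hr := rP_continuous.measurable
  have hT : Measurable (fun θ : UnitAddTorus (Fin 2) => ofP (rP (toP θ))) :=
    ofP_measurable.comp (hr.comp toP_measurable)
  have key := sym_aux h.toVH (fun θ => ofP (rP (toP θ))) hT (fun θ => by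
      funext i
      fin_cases i
      · rfl
      · show -θ 1 - -θ 0 = -(θ 1 - θ 0)
        abel) (fun n => ![-n 1, n 0 + n 1]) mFourier_rP (fun e => ⟨![e 0 + e 1, -e 0], by
      funext i
      fin_cases i <;> simp⟩) h.rot
  unfold PhiP
  conv_rhs => rw [← key]
  rw [Measure.map_map hr toP_measurable, Measure.map_map toP_measurable hT]
  congr 1

theorem PhiP_fP (h : RPH V) : (PhiP h.toVH).map fP = PhiP h.toVH := by
  have hr := fP_continuous.measurable
  have hT : Measurable (fun θ : UnitAddTorus (Fin 2) => ofP (fP (toP θ))) :=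
    ofP_measurable.comp (hr.comp toP_measurable)
  have key := sym_aux h.toVH (fun θ => ofP (fP (toP θ))) hT (fun θ => by
      funext i
      fin_cases i
      · rfl
      · show -θ 0 - -θ 1 = -(θ 0 - θ 1)
        abel) (fun n => ![n 0 + n 1, -n 1]) mFourier_fP (fun e => ⟨![e 0 + e 1, -e 1], by
      funext i
      fin_cases i <;> simp⟩) h.refl
  unfold PhiP
  conv_rhs => rw [← key]
  rw [Measure.map_map hr toP_measurable, Measure.map_map toP_measurable hT]
  congr 1

/-! ### absolute continuity of the marginal -/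

theorem half_null {S : Set U} (hS : MeasurableSet S) (h0 : volume S = 0) :
    volume (half ⁻¹' S) = 0 := by
  have hm := half_measurable hS
  rw [← mp_dbl.measure_preimage hm.nullMeasurableSet]
  refine measure_mono_null (t := S ∪ (fun x => x + hf) ⁻¹' S) ?_ ?_
  · intro x hx
    have hx' : half (x + x) ∈ S := hx
    rcases half_dbl x with h | h
    · left; rwa [h] at hx'
    · right; rw [h] at hx'; exact hx'
  · rw [measure_union_null_iff]
    refine ⟨h0, ?_⟩
    rw [measure_preimage_add_right]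
    exact h0

theorem Wm_apply (h : RPH V) (F : U × U → ℝ≥0∞) (hF : Measurable F) :
    ∫⁻ p, F p ∂(Wm h) = ∫⁻ q, ∫⁻ ϑ, PK (q, ϑ) * F (q.1, ϑ) ∂(volume : Measure U) ∂(nu h) := by
  unfold Wm W0
  have h1 : Measurable fun q : (U × ℝ) × U => F (pw q) := hF.comp pw_meas
  rw [lintegral_map hF pw_meas, lintegral_withDensity_eq_lintegral_mul _ PK_measurable h1,
    lintegral_prod _ (PK_measurable.mul h1).aemeasurable]
  rfl

theorem nu_fst (h : RPH V) {S : Set U} (hS : MeasurableSet S) :
    nu h (Prod.fst ⁻¹' S) = GP h.toVH0 E1 (Prod.fst ⁻¹' S) := by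
  have hm := tP_continuous.measurable
  have h1 : GP h.toVH0 E1 (Prod.fst ⁻¹' S) = Wm h (Prod.fst ⁻¹' S) := by
    rw [← fold_GP, Measure.map_apply hm (measurable_fst hS)]
    rfl
  rw [h1, ← lintegral_indicator_one (measurable_fst hS), ← lintegral_indicator_one (measurable_fst hS),
    Wm_apply h _ (measurable_one.indicator (measurable_fst hS))]
  apply lintegral_congr_ae
  filter_upwards [nu_ae h] with q hq
  by_cases hqs : q.1 ∈ S
  · have h2 : ∀ ϑ : U, (Prod.fst ⁻¹' S : Set (U × U)).indicator (1 : U × U → ℝ≥0∞) (q.1, ϑ) = 1 :=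
      fun ϑ => indicator_of_mem (show (q.1, ϑ) ∈ (Prod.fst ⁻¹' S : Set (U × U)) from hqs) _
    simp_rw [h2, mul_one]
    rw [lintegral_PK hq.1 hq.2, indicator_of_mem (show q ∈ (Prod.fst ⁻¹' S : Set (U × ℝ)) from hqs)]
    rfl
  · have h2 : ∀ ϑ : U, (Prod.fst ⁻¹' S : Set (U × U)).indicator (1 : U × U → ℝ≥0∞) (q.1, ϑ) = 0 :=
      fun ϑ => indicator_of_notMem (show (q.1, ϑ) ∉ (Prod.fst ⁻¹' S : Set (U × U)) from hqs) _
    simp_rw [h2, mul_zero]
    rw [lintegral_zero, indicator_of_notMem (show q ∉ (Prod.fst ⁻¹' S : Set (U × ℝ)) from hqs)]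

theorem GP_snd_null (h : RPH V) {S : Set U} (hS : MeasurableSet S) (h0 : volume S = 0) :
    GP h.toVH0 E1 (Prod.snd ⁻¹' S) = 0 := by
  set S' : Set U := S ∪ (fun x => x + hf) ⁻¹' S with hS'
  have hmS' : MeasurableSet S' := hS.union ((measurable_add_const hf) hS)
  have h0' : volume S' = 0 := by
    rw [hS', measure_union_null_iff]
    refine ⟨h0, ?_⟩
    rw [measure_preimage_add_right]
    exact h0
  set D : Set (U × U) := {q | half (q.2 + q.1) ∈ S'} with hD
  have hmD : MeasurableSet D :=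
    (half_measurable.comp (measurable_snd.add measurable_fst)) hmS'
  have h1 : GP h.toVH0 E1 (Prod.snd ⁻¹' S) ≤ GP h.toVH0 E1 (tP ⁻¹' D) := by
    apply measure_mono
    intro p hp
    show half (p.2 + p.2 - p.1 + p.1) ∈ S'
    rw [sub_add_cancel]
    rcases half_dbl p.2 with h | h
    · rw [h]; left; exact hp
    · rw [h]; right
      show p.2 + hf + hf ∈ S
      rw [add_assoc, hf_add_hf, add_zero]
      exact hp
  have h2 : GP h.toVH0 E1 (tP ⁻¹' D) = 0 := by
    rw [← Measure.map_apply tP_continuous.measurable hmD, fold_GP h, ← lintegral_indicator_one hmD,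
      Wm_apply h _ (measurable_one.indicator hmD), lintegral_eq_zero_iff']
    · refine Eventually.of_forall fun q => ?_
      show ∫⁻ ϑ, PK (q, ϑ) * D.indicator 1 (q.1, ϑ) = 0
      have h3 : volume {ϑ : U | (q.1, ϑ) ∈ D} = 0 := by
        have h4 : {ϑ : U | (q.1, ϑ) ∈ D} = (fun ϑ => ϑ + q.1) ⁻¹' (half ⁻¹' S') := rfl
        rw [h4, measure_preimage_add_right]
        exact half_null hmS' h0'
      rw [lintegral_eq_zero_iff']
      · have h5 : ∀ᵐ ϑ : U, (q.1, ϑ) ∉ D := by
          rw [ae_iff]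
          simpa using h3
        filter_upwards [h5] with ϑ hϑ
        rw [indicator_of_notMem hϑ, mul_zero]
        rfl
      · apply Measurable.aemeasurable
        refine Measurable.mul ?_ ?_
        · exact PK_measurable.comp measurable_prodMk_left
        · exact (measurable_one.indicator hmD).comp measurable_prodMk_left
    · apply Measurable.aemeasurable
      refine Measurable.lintegral_prod_right' (f := fun z : (U × ℝ) × U => PK z * D.indicator 1 (z.1.1, z.2)) ?_
      refine PK_measurable.mul ?_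
      exact (measurable_one.indicator hmD).comp ((measurable_fst.comp measurable_fst).prodMk measurable_snd)
  exact le_antisymm (h1.trans_eq h2) (by simp)

theorem ae_ne_zero : ∀ᵐ y : U, y ≠ 0 := by
  rw [ae_iff]
  simp only [not_not]
  have hms : MeasurableSet {y : U | y = 0} := measurableSet_eq_fun measurable_id measurable_const
  have hpi := Real.pi_pos
  have h1 : ((volume.restrict (Ioc (-π) π)).map pm) {y : U | y = 0} = 0 := by
    rw [Measure.map_apply pm_measurable hms]
    refine Measure.absolutelyContinuous_of_le Measure.restrict_le_self ?_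
    refine measure_mono_null (t := Set.range (fun n : ℤ => (n : ℝ) * (2 * π))) ?_
      (Set.Countable.measure_zero (Set.countable_range _) _)
    intro s hs
    have hs' : ((s / (2 * π) : ℝ) : U) = 0 := hs
    rw [AddCircle.coe_eq_zero_iff] at hs'
    obtain ⟨n, hn⟩ := hs'
    rw [zsmul_eq_mul, mul_one] at hn
    refine ⟨n, ?_⟩
    show (n : ℝ) * (2 * π) = s
    rw [hn]
    field_simp
  rw [map_pm, Measure.smul_apply, smul_eq_mul, mul_eq_zero] at h1
  rcases h1 with h1 | h1
  · rw [ENNReal.ofReal_eq_zero] at h1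
    linarith
  · exact h1

theorem volume_zero : (volume : Measure U) {0} = 0 := by
  have := ae_ne_zero
  rw [ae_iff] at this
  simpa using this

theorem PhiP_zero (h : VH V) : PhiP h {p | p.1 = 0 ∧ p.2 = 0} = 0 := by
  have hm : MeasurableSet {p : U × U | p.1 = 0 ∧ p.2 = 0} :=
    (measurable_fst (measurableSet_singleton (0 : U))).inter
      (measurable_snd (measurableSet_singleton (0 : U)))
  unfold PhiP
  rw [Measure.map_apply toP_measurable hm]
  have h1 := Phi_xs_zero h
  rw [ae_iff] at h1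
  refine measure_mono_null (fun θ hθ => ?_) h1
  have h2 : θ 0 = 0 := hθ.1
  have h3 : θ 1 = 0 := hθ.2
  show ¬ (xs θ ≠ 0)
  rw [not_not, xs, xe, xe, XX, XX, cs, cs, mFourier_eq, mFourier_eq, h2, h3]
  simp

theorem PhiP_fst_ne (h : RPH V) : ∀ᵐ p ∂(PhiP h.toVH), Xe p.1 ≠ 0 := by
  have hS : MeasurableSet ({0} : Set U) := measurableSet_singleton 0
  have h1 : GP h.toVH0 E1 (Prod.snd ⁻¹' {0}) = 0 := GP_snd_null h hS volume_zero
  rw [GP_eq h.toVH, withDensity_apply _ (measurable_snd hS), lintegral_eq_zero_iff Xe1_measurable] at h1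
  have h2 : ∀ᵐ p ∂(PhiP h.toVH), p.2 = 0 → p.1 = 0 := by
    have h3 := (ae_restrict_iff' (measurable_snd hS)).1 h1
    filter_upwards [h3] with p hp hp2
    exact Xe_zero (hp hp2)
  have h4 : PhiP h.toVH {p | p.2 = 0} = 0 := by
    have h5 := PhiP_zero h.toVH
    rw [ae_iff] at h2
    refine measure_mono_null (t := {p | p.1 = 0 ∧ p.2 = 0} ∪ {p | ¬(p.2 = 0 → p.1 = 0)}) ?_
      (measure_union_null h5 h2)
    intro p hp
    by_cases hp1 : p.1 = 0
    · left; exact ⟨hp1, hp⟩
    · right
      intro hc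
      exact hp1 (hc hp)
  have h6 : PhiP h.toVH {p | p.1 = 0} = 0 := by
    have hm : MeasurableSet {p : U × U | p.1 = 0} := measurable_fst hS
    rw [← PhiP_rP h, Measure.map_apply rP_continuous.measurable hm]
    exact h4
  rw [ae_iff]
  refine measure_mono_null (fun p hp => ?_) h6
  simp only [not_not, mem_ofPred_eq] at hp
  exact Xe_zero hp

theorem PhiP_eq (h : RPH V) : PhiP h.toVH = (GP h.toVH0 E1).withDensity (fun p => (Xe p.1)⁻¹) := by
  have hinv : Measurable fun p : U × U => (Xe p.1)⁻¹ := Xe1_measurable.inv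
  rw [GP_eq, ← withDensity_mul _ Xe1_measurable hinv]
  rw [withDensity_congr_ae (g := 1), withDensity_one]
  filter_upwards [PhiP_fst_ne h] with p hp
  exact ENNReal.mul_inv_cancel hp (Xe_ne_top _)

theorem sfinite_PhiP (h : RPH V) : SFinite (PhiP h.toVH) := by
  rw [PhiP_eq h]; infer_instance

theorem lintegral_PhiP_tP (h : RPH V) (F : U × U → ℝ≥0∞) (hF : Measurable F) :
    ∫⁻ p, F (tP p) ∂(PhiP h.toVH) = ∫⁻ p, F p * (Xe p.1)⁻¹ ∂(Wm h) := by
  have hm := tP_continuous.measurable
  have h1 : Measurable fun p : U × U => (Xe p.1)⁻¹ := (Xe_measurable.comp measurable_fst).inv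
  have h2 : Measurable fun p : U × U => F p * (Xe p.1)⁻¹ := hF.mul h1
  have h3 : Measurable fun p : U × U => F (tP p) := hF.comp hm
  rw [← fold_GP, lintegral_map h2 hm, PhiP_eq h, lintegral_withDensity_eq_lintegral_mul _ h1 h3]
  apply lintegral_congr
  intro p
  simp only [Pi.mul_apply]
  rw [mul_comm]
  rfl

theorem PhiP_snd_null (h : RPH V) {S : Set U} (hS : MeasurableSet S) (h0 : volume S = 0) :
    PhiP h.toVH (Prod.snd ⁻¹' S) = 0 := by
  rw [PhiP_eq h]
  exact (withDensity_absolutelyContinuous _ _) (GP_snd_null h hS h0)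

theorem PhiP_fst_null (h : RPH V) {S : Set U} (hS : MeasurableSet S) (h0 : volume S = 0) :
    PhiP h.toVH (Prod.fst ⁻¹' S) = 0 := by
  rw [← PhiP_rP h, Measure.map_apply rP_continuous.measurable (measurable_fst hS)]
  exact PhiP_snd_null h hS h0

theorem nu_fst_ac (h : RPH V) : (nu h).fst ≪ (volume : Measure U) := by
  refine Measure.AbsolutelyContinuous.mk fun S hS h0 => ?_
  rw [Measure.fst_apply hS, nu_fst h hS, GP_eq h.toVH]
  exact (withDensity_absolutelyContinuous _ _) (PhiP_fst_null h hS h0)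

end Vale.Agent.P153.RP
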