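import Vale.Agent.P153.RP.Dens

/-!
# Disintegration and fold identity for densities
-/

open MeasureTheory Filter Topology Set UnitAddTorus ProbabilityTheory
open scoped NNReal ENNReal Real unitInterval

namespace Vale.Agent.P153.RP

variable {V : (Fin 2 → ℤ) → ℝ}

/-- density of the first marginal of `nu` -/
noncomputable def hh (h : RPH V) : U → ℝ≥0∞ := (nu h).fst.rnDeriv volume

theorem hh_measurable (h : RPH V) : Measurable (hh h) := Measure.measurable_rnDeriv _ _

theorem hh_lt_top (h : RPH V) : ∀ᵐ y, hh h y < ⊤ := Measure.rnDeriv_lt_top _ _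

theorem fst_eq (h : RPH V) : (nu h).fst = (volume : Measure U).withDensity (hh h) :=
  (Measure.withDensity_rnDeriv_eq _ _ (nu_fst_ac h)).symm

/-- density of the row kernel with respect to the conditional kernel of `nu` -/
noncomputable def wN (h : RPH V) (y : U) (τ : ℝ) : ℝ≥0 :=
  (hh h y).toNNReal * ((Xe y)⁻¹.toNNReal * Real.toNNReal (1 - τ ^ 2))

theorem wN_measurable (h : RPH V) : Measurable (Function.uncurry (wN h)) := by
  unfold wN Function.uncurry
  refine Measurable.mul ?_ (Measurable.mul ?_ ?_)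
  · exact ((hh_measurable h).comp measurable_fst).ennreal_toNNReal
  · exact (Xe_measurable.comp measurable_fst).inv.ennreal_toNNReal
  · exact (measurable_const.sub (measurable_snd.pow_const 2)).real_toNNReal

/-- the row kernel `m_y(dτ)` on the circle -/
noncomputable def mU (h : RPH V) : Kernel U ℝ :=
  Kernel.withDensity (nu h).condKernel (fun y τ => (wN h y τ : ℝ≥0∞))

instance (h : RPH V) : IsSFiniteKernel (mU h) := by unfold mU; infer_instance

theorem mU_lint (h : RPH V) (F : U × ℝ → ℝ≥0∞) (hF : Measurable F) :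
    ∫⁻ y, ∫⁻ τ, F (y, τ) ∂(mU h y) =
      ∫⁻ p, F p * ((Xe p.1)⁻¹ * ENNReal.ofReal (1 - p.2 ^ 2)) ∂(nu h) := by
  have hG : Measurable fun p : U × ℝ => F p * ((Xe p.1)⁻¹ * ENNReal.ofReal (1 - p.2 ^ 2)) := by
    refine hF.mul (Measurable.mul ?_ ?_)
    · exact (Xe_measurable.comp measurable_fst).inv
    · exact (measurable_const.sub (measurable_snd.pow_const 2)).ennreal_ofReal
  have h1 : ∫⁻ p, F p * ((Xe p.1)⁻¹ * ENNReal.ofReal (1 - p.2 ^ 2)) ∂(nu h) =
      ∫⁻ y, ∫⁻ τ, F (y, τ) * ((Xe y)⁻¹ * ENNReal.ofReal (1 - τ ^ 2)) ∂((nu h).condKernel y)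
        ∂((nu h).fst) := by
    exact (Measure.lintegral_condKernel (ρ := nu h) hG).symm
  have hG2 : Measurable fun y : U => ∫⁻ τ, F (y, τ) * ((Xe y)⁻¹ * ENNReal.ofReal (1 - τ ^ 2))
      ∂((nu h).condKernel y) := Measurable.lintegral_kernel_prod_right' hG
  rw [h1, fst_eq, lintegral_withDensity_eq_lintegral_mul _ (hh_measurable h) hG2]
  apply lintegral_congr_ae
  filter_upwards [hh_lt_top h, ae_ne_zero] with y hy hy0
  have hm1 : Measurable fun τ : ℝ => F (y, τ) := hF.comp measurable_prodMk_left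
  have hX : (Xe y)⁻¹ ≠ ⊤ := by
    rw [Ne, ENNReal.inv_eq_top]
    exact fun h0 => hy0 (Xe_zero h0)
  unfold mU
  rw [Kernel.lintegral_withDensity _ (wN_measurable h).coe_nnreal_ennreal _ hm1]
  simp only [Pi.mul_apply]
  rw [← lintegral_const_mul]
  · apply lintegral_congr
    intro τ
    unfold wN
    push_cast
    rw [ENNReal.coe_toNNReal hy.ne, ENNReal.coe_toNNReal hX]
    show _ * (_ * ENNReal.ofReal (1 - τ ^ 2)) * _ = _
    ring
  · exact hG.comp measurable_prodMk_left

/-- the folded density -/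
noncomputable def PsU (h : RPH V) (p : U × U) : ℝ≥0∞ :=
  ∫⁻ τ, ENNReal.ofReal (1 / dU τ p.2) ∂(mU h p.1)

theorem idU_measurable : Measurable fun q : (U × U) × ℝ => ENNReal.ofReal (1 / dU q.2 q.1.2) :=
  (measurable_const.div (dU_measurable.comp
    (measurable_snd.prodMk (measurable_snd.comp measurable_fst)))).ennreal_ofReal

theorem PsU_measurable (h : RPH V) : Measurable (PsU h) := by
  have := Measurable.lintegral_kernel_prod_right' (κ := (mU h).comap Prod.fst measurable_fst)
    idU_measurable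
  exact this

theorem swap_gen (μ : Measure ℝ) [SFinite μ] (F : U → ℝ≥0∞) (hF : Measurable F) :
    ∫⁻ τ, (∫⁻ ϑ : U, F ϑ * ENNReal.ofReal (1 / dU τ ϑ)) ∂μ =
      ∫⁻ ϑ : U, (∫⁻ τ, ENNReal.ofReal (1 / dU τ ϑ) ∂μ) * F ϑ := by
  have hm4 : Measurable (fun z : ℝ × U => F z.2 * ENNReal.ofReal (1 / dU z.1 z.2)) := by
    refine Measurable.mul ?_ ?_
    · exact hF.comp measurable_snd
    · exact (measurable_const.div dU_measurable).ennreal_ofReal
  rw [lintegral_lintegral_swap (f := fun (τ : ℝ) (ϑ : U) => F ϑ * ENNReal.ofReal (1 / dU τ ϑ))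
    hm4.aemeasurable]
  apply lintegral_congr
  intro ϑ
  have hm : Measurable fun τ : ℝ => ENNReal.ofReal (1 / dU τ ϑ) :=
    (measurable_const.div (dU_measurable.comp (measurable_id.prodMk measurable_const))).ennreal_ofReal
  rw [lintegral_const_mul _ hm, mul_comm]

theorem swap_aux (h : RPH V) (F : U × U → ℝ≥0∞) (hF : Measurable F) (y : U) :
    ∫⁻ τ, (∫⁻ ϑ : U, F (y, ϑ) * ENNReal.ofReal (1 / dU τ ϑ)) ∂(mU h y) =
      ∫⁻ ϑ : U, PsU h (y, ϑ) * F (y, ϑ) :=
  swap_gen (mU h y) (fun ϑ => F (y, ϑ)) (hF.comp measurable_prodMk_left)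

theorem tP_PhiP (h : RPH V) : (PhiP h.toVH).map tP = (volume : Measure (U × U)).withDensity (PsU h) := by
  have key : ∀ F : U × U → ℝ≥0∞, Measurable F → ∫⁻ p, F (tP p) ∂(PhiP h.toVH) =
      ∫⁻ p, PsU h p * F p := by
    intro F hF
    have hF1 : Measurable fun p : U × U => F p * (Xe p.1)⁻¹ := hF.mul Xe1_measurable.inv
    rw [lintegral_PhiP_tP h F hF, Wm_apply h _ hF1]
    have hG3 : Measurable fun z : (U × ℝ) × U => F (z.1.1, z.2) * ENNReal.ofReal (1 / dU z.1.2 z.2) := by
      refine Measurable.mul ?_ ?_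
      · exact hF.comp ((measurable_fst.comp measurable_fst).prodMk measurable_snd)
      · exact (measurable_const.div (dU_measurable.comp
          ((measurable_snd.comp measurable_fst).prodMk measurable_snd))).ennreal_ofReal
    have hG : Measurable fun q : U × ℝ => ∫⁻ ϑ : U, F (q.1, ϑ) * ENNReal.ofReal (1 / dU q.2 ϑ) :=
      Measurable.lintegral_prod_right' hG3
    have h1 : ∫⁻ q, ∫⁻ ϑ, PK (q, ϑ) * (F (q.1, ϑ) * (Xe (q.1, ϑ).1)⁻¹) ∂(volume : Measure U) ∂(nu h) =
        ∫⁻ q, (∫⁻ ϑ : U, F (q.1, ϑ) * ENNReal.ofReal (1 / dU q.2 ϑ)) *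
          ((Xe q.1)⁻¹ * ENNReal.ofReal (1 - q.2 ^ 2)) ∂(nu h) := by
      apply lintegral_congr_ae
      filter_upwards [nu_ae h] with q hq
      have hm : Measurable fun ϑ : U => F (q.1, ϑ) * ENNReal.ofReal (1 / dU q.2 ϑ) :=
        hG3.comp (measurable_prodMk_left (x := q))
      rw [← lintegral_mul_const _ hm]
      apply lintegral_congr
      intro ϑ
      have h2 : PK (q, ϑ) = ENNReal.ofReal (1 - q.2 ^ 2) * ENNReal.ofReal (1 / dU q.2 ϑ) := by
        rw [← ENNReal.ofReal_mul (one_sub_sq_pos hq.1 hq.2).le, mul_one_div]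
        rfl
      rw [h2]
      ring
    rw [h1, ← mU_lint h _ hG]
    have h2 : ∫⁻ p, PsU h p * F p = ∫⁻ y : U, ∫⁻ ϑ : U, PsU h (y, ϑ) * F (y, ϑ) := by
      have h3 : Measurable fun p : U × U => PsU h p * F p := (PsU_measurable h).mul hF
      rw [Measure.volume_eq_prod, lintegral_prod _ h3.aemeasurable]
    rw [h2]
    apply lintegral_congr
    intro y
    exact swap_aux h F hF y
  ext s hs
  rw [Measure.map_apply tP_continuous.measurable hs, withDensity_apply _ hs,
    ← lintegral_indicator_one (tP_continuous.measurable hs), ← lintegral_indicator hs]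
  have := key (s.indicator 1) (measurable_one.indicator hs)
  have e1 : ∀ p, (tP ⁻¹' s).indicator (1 : U × U → ℝ≥0∞) p = s.indicator 1 (tP p) := fun p => rfl
  simp_rw [e1]
  rw [this]
  apply lintegral_congr
  intro p
  by_cases hp : p ∈ s
  · simp [hp]
  · simp [hp]

/-- section of `tP` -/
noncomputable def sP (q : U × U) : U × U := (q.1, half (q.2 + q.1))

theorem sP_measurable : Measurable sP :=
  measurable_fst.prodMk (half_measurable.comp (measurable_snd.add measurable_fst))

/-- the fibre translation -/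
noncomputable def Qp : U × U := (0, hf)

theorem Qp_add : Qp + Qp = 0 := by
  unfold Qp
  rw [Prod.mk_add_mk, hf_add_hf, add_zero]
  rfl

theorem sP_tP (p : U × U) : sP (tP p) = p ∨ sP (tP p) = p + Qp := by
  unfold sP tP
  simp only [sub_add_cancel]
  rcases half_dbl p.2 with h | h
  · left; rw [h]
  · right; rw [h]
    show _ = (p.1 + 0, p.2 + hf)
    rw [add_zero]

theorem tP_add_Qp (p : U × U) : tP (p + Qp) = tP p := by
  show (p.1 + 0, p.2 + hf + (p.2 + hf) - (p.1 + 0)) = (p.1, p.2 + p.2 - p.1)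
  rw [add_zero]
  congr 1
  have : p.2 + hf + (p.2 + hf) = p.2 + p.2 + (hf + hf) := by abel
  rw [this, hf_add_hf, add_zero]

theorem mp_Qp : MeasurePreserving (fun p : U × U => p + Qp) (volume : Measure (U × U)) volume := by
  have h := (measurePreserving_add_right (volume : Measure U) 0).prod
    (measurePreserving_add_right (volume : Measure U) hf)
  exact h

theorem sP_null {S : Set (U × U)} (hS : MeasurableSet S) (h0 : volume S = 0) :
    volume (sP ⁻¹' S) = 0 := by
  rw [← tP_mp.measure_preimage (sP_measurable hS).nullMeasurableSet]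
  refine measure_mono_null (t := S ∪ (fun x => x + Qp) ⁻¹' S) ?_ ?_
  · intro x hx
    have hx' : sP (tP x) ∈ S := hx
    rcases sP_tP x with h | h
    · left; rwa [h] at hx'
    · right; rw [h] at hx'; exact hx'
  · rw [measure_union_null_iff]
    refine ⟨h0, ?_⟩
    rw [mp_Qp.measure_preimage hS.nullMeasurableSet]
    exact h0

theorem PhiP_ac (h : RPH V) : PhiP h.toVH ≪ (volume : Measure (U × U)) := by
  refine Measure.AbsolutelyContinuous.mk fun S hS h0 => ?_
  set S' : Set (U × U) := S ∪ (fun x => x + Qp) ⁻¹' S with hS'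
  have hmS' : MeasurableSet S' := hS.union ((measurable_add_const Qp) hS)
  have h0' : volume S' = 0 := by
    rw [hS', measure_union_null_iff]
    refine ⟨h0, ?_⟩
    rw [mp_Qp.measure_preimage hS.nullMeasurableSet]
    exact h0
  refine measure_mono_null (t := tP ⁻¹' (sP ⁻¹' S')) ?_ ?_
  · intro p hp
    show sP (tP p) ∈ S'
    rcases sP_tP p with h | h
    · rw [h]; left; exact hp
    · rw [h]; right
      show p + Qp + Qp ∈ S
      rw [add_assoc, Qp_add, add_zero]
      exact hp
  · rw [← Measure.map_apply tP_continuous.measurable (sP_measurable hmS'), tP_PhiP h]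
    exact (withDensity_absolutelyContinuous _ _) (sP_null hmS' h0')

/-- the density of the spectral measure -/
noncomputable def fD (h : RPH V) : U × U → ℝ≥0∞ := (PhiP h.toVH).rnDeriv volume

theorem fD_measurable (h : RPH V) : Measurable (fD h) := Measure.measurable_rnDeriv _ _

theorem PhiP_fD (h : RPH V) : PhiP h.toVH = (volume : Measure (U × U)).withDensity (fD h) := by
  have := sfinite_PhiP h
  exact (Measure.withDensity_rnDeriv_eq _ _ (PhiP_ac h)).symm

theorem fD_sym (h : RPH V) {T S : U × U → U × U} (hT : MeasurePreserving T (volume : Measure (U × U)) volume)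
    (hS : Measurable S) (hST : ∀ p, S (T p) = p)
    (hP : (PhiP h.toVH).map T = PhiP h.toVH) : ∀ᵐ p, fD h (T p) = fD h p := by
  have h1 : (volume : Measure (U × U)).withDensity (fun p => fD h (T p)) =
      (volume : Measure (U × U)).withDensity (fD h) := by
    ext s hs
    rw [← PhiP_fD]
    have hpre : T ⁻¹' (S ⁻¹' s) = s := by
      ext p
      show S (T p) ∈ s ↔ p ∈ s
      rw [hST]
    rw [withDensity_apply _ hs]
    conv_lhs => rw [← hpre]
    rw [hT.setLIntegral_comp_preimage (hS hs) (fD_measurable h), ← withDensity_apply _ (hS hs),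
      ← PhiP_fD]
    conv_lhs => rw [← hP]
    rw [Measure.map_apply hT.measurable (hS hs), hpre]
  have h2 := (withDensity_eq_iff_of_sigmaFinite ((fD_measurable h).comp hT.measurable).aemeasurable
    (fD_measurable h).aemeasurable).1 h1
  exact h2

theorem fD_rP (h : RPH V) : ∀ᵐ p, fD h (rP p) = fD h p := by
  refine fD_sym h rP_mp (S := fun q => (q.1 - q.2, q.1)) ?_ ?_ (PhiP_rP h)
  · exact (measurable_fst.sub measurable_snd).prodMk measurable_fst
  · intro p
    show (p.2 - (p.2 - p.1), p.2) = p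
    rw [sub_sub_cancel]

theorem fD_fP (h : RPH V) : ∀ᵐ p, fD h (fP p) = fD h p := by
  refine fD_sym h fP_mp (S := fun q => (q.1, q.1 - q.2)) ?_ ?_ (PhiP_fP h)
  · exact measurable_fst.prodMk (measurable_fst.sub measurable_snd)
  · intro p
    show (p.1, p.1 - (p.1 - p.2)) = p
    rw [sub_sub_cancel]

/-- **fold identity for densities** -/
theorem fold_fD (h : RPH V) : ∀ᵐ p, fD h p + fD h (p + Qp) = 2 * PsU h (tP p) := by
  set g : U × U → ℝ≥0∞ := fun q => fD h (sP q) + fD h (sP q + Qp) with hg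
  have hgt : ∀ p, g (tP p) = fD h p + fD h (p + Qp) := by
    intro p
    simp only [hg]
    rcases sP_tP p with h1 | h1
    · rw [h1]
    · rw [h1, add_assoc, Qp_add, add_zero, add_comm]
  have hgm : Measurable g :=
    ((fD_measurable h).comp sP_measurable).add ((fD_measurable h).comp (sP_measurable.add_const Qp))
  have h1 : (volume : Measure (U × U)).withDensity g =
      (volume : Measure (U × U)).withDensity (fun q => 2 * PsU h q) := by
    ext s hs
    have hts := tP_continuous.measurable hs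
    rw [withDensity_apply _ hs, ← tP_mp.setLIntegral_comp_preimage hs hgm]
    simp_rw [hgt]
    rw [lintegral_add_left (fD_measurable h)]
    have e1 : ∫⁻ p in tP ⁻¹' s, fD h (p + Qp) = ∫⁻ p in tP ⁻¹' s, fD h p := by
      have h3 := mp_Qp.setLIntegral_comp_preimage hts (fD_measurable h)
      rw [← h3]
      congr 2
      ext p
      show tP p ∈ s ↔ tP (p + Qp) ∈ s
      rw [tP_add_Qp]
    rw [e1, ← withDensity_apply _ hts, ← PhiP_fD, ← Measure.map_apply tP_continuous.measurable hs,
      tP_PhiP, withDensity_apply _ hs, withDensity_apply _ hs, lintegral_const_mul _ (PsU_measurable h)]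
    rw [two_mul]
  have h2 := (withDensity_eq_iff_of_sigmaFinite hgm.aemeasurable
    (measurable_const.mul (PsU_measurable h)).aemeasurable).1 h1
  have h3 := tP_mp.quasiMeasurePreserving.ae h2
  filter_upwards [h3] with p hp
  rw [← hgt, hp]
  rfl

end Vale.Agent.P153.RP
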