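import Vale.Agent.P153.RP.Phi

/-!
# The two-direction shift trick: bounded density away from `0`, infrared bound

Owner: helper167.
-/

open MeasureTheory Filter Topology UnitAddTorus
open scoped NNReal ENNReal unitInterval

namespace Vale.Agent.P153.RP

/-- half of the circle -/
noncomputable def hf : UnitAddCircle := ((1 / 2 : ℝ) : UnitAddCircle)

/-- the shift inequality: `∫ w f dΦ ≤ 4 ∫ (f(θ + u s) + f(θ + u (s + 1/2))) dΦ`. -/
def ShiftIneq (Φ : Measure (UnitAddTorus (Fin 2))) (w : UnitAddTorus (Fin 2) → ℝ≥0∞)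
    (u : UnitAddCircle → UnitAddTorus (Fin 2)) : Prop :=
  ∀ f : UnitAddTorus (Fin 2) → ℝ≥0∞, Measurable f → ∀ s : UnitAddCircle,
    ∫⁻ θ, w θ * f θ ∂Φ ≤ 4 * ∫⁻ θ, (f (θ + u s) + f (θ + u (s + hf))) ∂Φ

theorem lintegral_circle_shift (F : UnitAddCircle → ℝ≥0∞) (a : UnitAddCircle) :
    ∫⁻ s, F (s + a) = ∫⁻ s, F s :=
  lintegral_add_right_eq_self F a

/-- **The shift trick.** -/
theorem shift_trick {Φ : Measure (UnitAddTorus (Fin 2))} [SFinite Φ]
    {w w' : UnitAddTorus (Fin 2) → ℝ≥0∞} {u v : UnitAddCircle → UnitAddTorus (Fin 2)}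
    (hu : Measurable u) (hv : Measurable v)
    (h1 : ShiftIneq Φ w u) (h2 : ShiftIneq Φ w' v)
    {J : Set UnitAddCircle} (hJm : MeasurableSet J) (hJ : ∀ s ∈ J, s + hf ∈ J)
    {K R : Set (UnitAddTorus (Fin 2))} (hK : MeasurableSet K)
    (hKinv : ∀ θ t, θ + v t ∈ K → θ ∈ K) {c : ℝ≥0∞}
    (hsupp : ∀ θ, ∀ s ∈ J, θ + u s ∈ R → θ ∈ K ∧ c ≤ w' θ)
    (hvol : ∀ f : UnitAddTorus (Fin 2) → ℝ≥0∞, Measurable f → ∀ θ,
      ∫⁻ t, ∫⁻ s, f (θ + v t + u s) = ∫⁻ θ, f θ)
    {f : UnitAddTorus (Fin 2) → ℝ≥0∞} (hf' : Measurable f) (hfR : ∀ θ, θ ∉ R → f θ = 0) :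
    c * volume J * ∫⁻ θ, w θ * f θ ∂Φ ≤ 64 * Φ K * ∫⁻ θ, f θ := by
  set g : UnitAddTorus (Fin 2) → ℝ≥0∞ := fun θ => ∫⁻ s in J, (f (θ + u s) + f (θ + u (s + hf)))
    with hg
  have hm2 : Measurable (Function.uncurry fun (θ : UnitAddTorus (Fin 2)) (s : UnitAddCircle) =>
      (f (θ + u s) + f (θ + u (s + hf)))) := by
    apply Measurable.add
    · exact hf'.comp (measurable_fst.add (hu.comp measurable_snd))
    · exact hf'.comp (measurable_fst.add (hu.comp (measurable_snd.add_const _)))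
  have hgm : Measurable g := by
    have := Measurable.lintegral_prod_right (ν := volume.restrict J) hm2
    exact this
  -- step 1
  have s1 : volume J * ∫⁻ θ, w θ * f θ ∂Φ ≤ 4 * ∫⁻ θ, g θ ∂Φ := by
    calc volume J * ∫⁻ θ, w θ * f θ ∂Φ = ∫⁻ s in J, ∫⁻ θ, w θ * f θ ∂Φ := by
          rw [setLIntegral_const, mul_comm]
      _ ≤ ∫⁻ s in J, 4 * ∫⁻ θ, (f (θ + u s) + f (θ + u (s + hf))) ∂Φ := by
          apply lintegral_mono
          intro s
          exact h1 f hf' s
      _ = 4 * ∫⁻ s in J, ∫⁻ θ, (f (θ + u s) + f (θ + u (s + hf))) ∂Φ := by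
          apply lintegral_const_mul
          exact Measurable.lintegral_prod_left hm2
      _ = 4 * ∫⁻ θ, g θ ∂Φ := by
          congr 1
          exact (lintegral_lintegral_swap hm2.aemeasurable).symm
  -- pointwise
  have gz : ∀ θ, (¬ ∃ s ∈ J, θ + u s ∈ R) → g θ = 0 := by
    intro θ hθ
    push Not at hθ
    rw [hg]
    simp only
    rw [← lintegral_zero (μ := volume.restrict J)]
    apply setLIntegral_congr_fun hJm
    intro s hs
    simp only
    rw [hfR _ (hθ s hs), hfR _ (hθ _ (hJ s hs)), add_zero]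
  have s2 : ∀ θ, c * g θ ≤ w' θ * g θ := by
    intro θ
    by_cases h : ∃ s ∈ J, θ + u s ∈ R
    · obtain ⟨s, hs, hR⟩ := h
      exact mul_le_mul_left (hsupp θ s hs hR).2 _
    · rw [gz θ h, mul_zero, mul_zero]
  have gK : ∀ θ, θ ∉ K → g θ = 0 := by
    intro θ hθ
    apply gz
    rintro ⟨s, hs, hR⟩
    exact hθ (hsupp θ s hs hR).1
  have hgv : Measurable (Function.uncurry fun (θ : UnitAddTorus (Fin 2)) (t : UnitAddCircle) =>
      (g (θ + v t) + g (θ + v (t + hf)))) := by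
    apply Measurable.add
    · exact hgm.comp (measurable_fst.add (hv.comp measurable_snd))
    · exact hgm.comp (measurable_fst.add (hv.comp (measurable_snd.add_const _)))
  have s3 : c * ∫⁻ θ, g θ ∂Φ ≤
      4 * ∫⁻ θ, (∫⁻ t : UnitAddCircle, (g (θ + v t) + g (θ + v (t + hf)))) ∂Φ := by
    calc c * ∫⁻ θ, g θ ∂Φ = ∫⁻ θ, c * g θ ∂Φ := (lintegral_const_mul _ hgm).symm
      _ ≤ ∫⁻ θ, w' θ * g θ ∂Φ := lintegral_mono s2
      _ = ∫⁻ _t : UnitAddCircle, ∫⁻ θ, w' θ * g θ ∂Φ := by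
          rw [lintegral_const, UnitAddCircle.measure_univ, mul_one]
      _ ≤ ∫⁻ t : UnitAddCircle, 4 * ∫⁻ θ, (g (θ + v t) + g (θ + v (t + hf))) ∂Φ := by
          apply lintegral_mono
          intro t
          exact h2 g hgm t
      _ = 4 * ∫⁻ t : UnitAddCircle, ∫⁻ θ, (g (θ + v t) + g (θ + v (t + hf))) ∂Φ := by
          apply lintegral_const_mul
          exact Measurable.lintegral_prod_left hgv
      _ = _ := by
          congr 1
          exact (lintegral_lintegral_swap hgv.aemeasurable).symm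
  have s4 : ∀ θ, ∫⁻ t, (g (θ + v t) + g (θ + v (t + hf))) ≤
      K.indicator (fun _ => 4 * ∫⁻ θ, f θ) θ := by
    intro θ
    by_cases hθ : θ ∈ K
    · rw [Set.indicator_of_mem hθ]
      have m1 : Measurable fun t : UnitAddCircle => g (θ + v t) :=
        hgm.comp (measurable_const.add hv)
      rw [lintegral_add_left m1, lintegral_circle_shift (fun t => g (θ + v t)) hf, ← two_mul]
      have : ∫⁻ t, g (θ + v t) ≤ 2 * ∫⁻ θ, f θ := by
        calc ∫⁻ t, g (θ + v t) ≤ ∫⁻ t, ∫⁻ s, (f (θ + v t + u s) + f (θ + v t + u (s + hf))) := by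
              apply lintegral_mono
              intro t
              exact setLIntegral_le_lintegral _ _
          _ = ∫⁻ t, 2 * ∫⁻ s, f (θ + v t + u s) := by
              apply lintegral_congr
              intro t
              have m2 : Measurable fun s : UnitAddCircle => f (θ + v t + u s) :=
                hf'.comp (measurable_const.add hu)
              rw [lintegral_add_left m2, lintegral_circle_shift (fun s => f (θ + v t + u s)) hf,
                ← two_mul]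
          _ = 2 * ∫⁻ t, ∫⁻ s, f (θ + v t + u s) := by
              apply lintegral_const_mul
              have m3 : Measurable (Function.uncurry fun (t s : UnitAddCircle) =>
                  f (θ + v t + u s)) :=
                hf'.comp ((measurable_const.add (hv.comp measurable_fst)).add
                  (hu.comp measurable_snd))
              exact Measurable.lintegral_prod_right m3
          _ = 2 * ∫⁻ θ, f θ := by rw [hvol f hf' θ]
      calc 2 * ∫⁻ t, g (θ + v t) ≤ 2 * (2 * ∫⁻ θ, f θ) := mul_le_mul_right this _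
        _ = 4 * ∫⁻ θ, f θ := by rw [← mul_assoc]; norm_num
    · rw [Set.indicator_of_notMem hθ]
      have : ∀ t, g (θ + v t) = 0 := fun t => gK _ fun h => hθ (hKinv θ t h)
      simp [this]
  calc c * volume J * ∫⁻ θ, w θ * f θ ∂Φ = c * (volume J * ∫⁻ θ, w θ * f θ ∂Φ) := by ring
    _ ≤ c * (4 * ∫⁻ θ, g θ ∂Φ) := mul_le_mul_right s1 _
    _ = 4 * (c * ∫⁻ θ, g θ ∂Φ) := by ring
    _ ≤ 4 * (4 * ∫⁻ θ, K.indicator (fun _ => 4 * ∫⁻ θ, f θ) θ ∂Φ) := by
        refine mul_le_mul_right (s3.trans ?_) _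
        exact mul_le_mul_right (lintegral_mono s4) _
    _ = 64 * Φ K * ∫⁻ θ, f θ := by
        rw [lintegral_indicator hK, setLIntegral_const]
        ring

/-! ### the concrete directions -/

/-- shift of the second coordinate (direction 1) -/
noncomputable def u1 (s : UnitAddCircle) : UnitAddTorus (Fin 2) := ![0, s]
/-- shift of the first coordinate (direction 2) -/
noncomputable def u2 (s : UnitAddCircle) : UnitAddTorus (Fin 2) := ![s, 0]

theorem measurable_u1 : Measurable u1 := by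
  refine measurable_pi_iff.2 fun i => ?_
  fin_cases i
  · exact measurable_const
  · exact measurable_id

theorem measurable_u2 : Measurable u2 := by
  refine measurable_pi_iff.2 fun i => ?_
  fin_cases i
  · exact measurable_id
  · exact measurable_const

theorem hvol12 (f : UnitAddTorus (Fin 2) → ℝ≥0∞) (hf' : Measurable f) (θ : UnitAddTorus (Fin 2)) :
    ∫⁻ t, ∫⁻ s, f (θ + u2 t + u1 s) = ∫⁻ θ, f θ := by
  have h1 : ∫⁻ x : UnitAddTorus (Fin 2), f (θ + x) = ∫⁻ θ, f θ :=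
    lintegral_add_left_eq_self f θ
  rw [← h1]
  have hm : Measurable fun x : UnitAddTorus (Fin 2) => f (θ + x) :=
    hf'.comp (measurable_const.add measurable_id)
  have e := (volume_preserving_finTwoArrow UnitAddCircle).symm
  rw [← e.lintegral_comp hm]
  rw [Measure.volume_eq_prod, lintegral_prod _ (by
    exact (hm.comp e.measurable).aemeasurable)]
  apply lintegral_congr
  intro t
  apply lintegral_congr
  intro s
  congr 1
  rw [add_assoc]
  congr 1
  funext i
  fin_cases i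
  · simp [u1, u2]
  · simp [u1, u2]

theorem hvol21 (f : UnitAddTorus (Fin 2) → ℝ≥0∞) (hf' : Measurable f) (θ : UnitAddTorus (Fin 2)) :
    ∫⁻ t, ∫⁻ s, f (θ + u1 t + u2 s) = ∫⁻ θ, f θ := by
  rw [← hvol12 f hf' θ]
  have hm : Measurable (Function.uncurry fun (t s : UnitAddCircle) => f (θ + u2 t + u1 s)) :=
    hf'.comp ((measurable_const.add (measurable_u2.comp measurable_fst)).add
      (measurable_u1.comp measurable_snd))
  rw [lintegral_lintegral_swap hm.aemeasurable]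
  apply lintegral_congr
  intro s
  apply lintegral_congr
  intro t
  rw [add_right_comm]

/-- the arc -/
def JJ : Set UnitAddCircle := {s | (fourier 2 s : ℂ).re < 0}

/-- neighbourhood of the four points `0, Q₁, Q₂, Q₃` -/
def RR : Set (UnitAddTorus (Fin 2)) :=
  {θ | ‖mFourier ![2, 0] θ - 1‖ ≤ 1 / 8 ∧ ‖mFourier ![0, 2] θ - 1‖ ≤ 1 / 8}

/-- away from a line -/
def KK (e : Fin 2 → ℤ) : Set (UnitAddTorus (Fin 2)) := {θ | cs e θ ≤ 3 / 4}

theorem trig_aux {a b e : ℂ} (hb : ‖b‖ = 1) (he : ‖e‖ = 1) (h0 : ‖a ^ 2 - 1‖ ≤ 1 / 8)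
    (h1 : ‖(b * e) ^ 2 - 1‖ ≤ 1 / 8) (hJ : (e ^ 2).re < 0) :
    b.re ≤ 3 / 4 ∧ ((starRingEnd ℂ) a ^ 2 * b).re ≤ 7 / 8 := by
  have he2 : e ^ 2 * (starRingEnd ℂ) (e ^ 2) = 1 := by
    rw [Complex.mul_conj, Complex.normSq_eq_norm_sq, norm_pow, he]; norm_num
  have h2 : ‖b ^ 2 - (starRingEnd ℂ) (e ^ 2)‖ ≤ 1 / 8 := by
    have : b ^ 2 - (starRingEnd ℂ) (e ^ 2) = ((b * e) ^ 2 - 1) * (starRingEnd ℂ) (e ^ 2) := by
      linear_combination (- b ^ 2) * he2
    rw [this, norm_mul, RCLike.norm_conj, norm_pow, he, one_pow, mul_one]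
    exact h1
  have h3 : (b ^ 2).re < 1 / 8 := by
    have := (Complex.abs_re_le_norm (b ^ 2 - (starRingEnd ℂ) (e ^ 2))).trans h2
    rw [Complex.sub_re, Complex.conj_re] at this
    have := (abs_le.1 this).2
    linarith
  have h4 : b.re ^ 2 + b.im ^ 2 = 1 := by
    have := Complex.sq_norm b
    rw [hb, Complex.normSq_apply] at this
    nlinarith
  have h5 : b.re ≤ 3 / 4 := by
    have : (b ^ 2).re = b.re ^ 2 - b.im ^ 2 := by rw [pow_two, Complex.mul_re]; ring
    nlinarith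
  refine ⟨h5, ?_⟩
  have h6 : ((starRingEnd ℂ) a ^ 2 * b).re = b.re + (((starRingEnd ℂ) a ^ 2 - 1) * b).re := by
    rw [sub_mul, Complex.sub_re, one_mul]; ring
  have h7 : (((starRingEnd ℂ) a ^ 2 - 1) * b).re ≤ 1 / 8 := by
    refine (Complex.re_le_norm _).trans ?_
    rw [norm_mul, hb, mul_one]
    have : (starRingEnd ℂ) a ^ 2 - 1 = (starRingEnd ℂ) (a ^ 2 - 1) := by simp
    rw [this, RCLike.norm_conj]
    exact h0
  rw [h6]
  linarith

theorem fourier_add_arg (n : ℤ) (x y : UnitAddCircle) :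
    (fourier n (x + y) : ℂ) = fourier n x * fourier n y := by
  rw [fourier_apply, fourier_apply, fourier_apply, smul_add, AddCircle.toCircle_add]
  simp

theorem fourier_two (x : UnitAddCircle) : (fourier 2 x : ℂ) = fourier 1 x ^ 2 := by
  rw [pow_two, ← fourier_add]; norm_num

theorem fourier_neg_two (x : UnitAddCircle) :
    (fourier (-2) x : ℂ) = (starRingEnd ℂ) (fourier 1 x) ^ 2 := by
  rw [fourier_neg, fourier_two, map_pow]

theorem norm_fourier_one (x : UnitAddCircle) : ‖(fourier 1 x : ℂ)‖ = 1 := by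
  rw [fourier_apply]; exact Circle.norm_coe _

theorem mF2 (n m : ℤ) (θ : UnitAddTorus (Fin 2)) :
    mFourier ![n, m] θ = fourier n (θ 0) * fourier m (θ 1) := by
  simp [mFourier, Fin.prod_univ_two]

theorem hsupp1 (θ : UnitAddTorus (Fin 2)) (s : UnitAddCircle) (hs : s ∈ JJ)
    (hR : θ + u1 s ∈ RR) : θ ∈ KK E2 ∧ ENNReal.ofReal (1 / 4) ≤ xe ![-2, 1] θ := by
  obtain ⟨h0, h1⟩ := hR
  rw [mF2, fourier_zero, mul_one, fourier_two] at h0
  rw [mF2, fourier_zero, one_mul, fourier_two] at h1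
  have e0 : (θ + u1 s) 0 = θ 0 := by simp [u1]
  have e1 : (θ + u1 s) 1 = θ 1 + s := by simp [u1]
  rw [e0] at h0
  rw [e1, fourier_add_arg] at h1
  have hJ : ((fourier 1 s : ℂ) ^ 2).re < 0 := by rw [← fourier_two]; exact hs
  obtain ⟨ha, hb⟩ := trig_aux (norm_fourier_one _) (norm_fourier_one _) h0 h1 hJ
  constructor
  · show cs E2 θ ≤ 3 / 4
    unfold cs E2
    rw [mF2, fourier_zero, one_mul]
    exact ha
  · unfold xe XX cs
    rw [mF2, fourier_neg_two]
    apply ENNReal.ofReal_le_ofReal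
    linarith

theorem hsupp2 (θ : UnitAddTorus (Fin 2)) (s : UnitAddCircle) (hs : s ∈ JJ)
    (hR : θ + u2 s ∈ RR) : θ ∈ KK E1 ∧ ENNReal.ofReal (1 / 4) ≤ xe ![-1, 2] θ := by
  obtain ⟨h0, h1⟩ := hR
  rw [mF2, fourier_zero, mul_one, fourier_two] at h0
  rw [mF2, fourier_zero, one_mul, fourier_two] at h1
  have e0 : (θ + u2 s) 0 = θ 0 + s := by simp [u2]
  have e1 : (θ + u2 s) 1 = θ 1 := by simp [u2]
  rw [e0, fourier_add_arg] at h0
  rw [e1] at h1
  have hJ : ((fourier 1 s : ℂ) ^ 2).re < 0 := by rw [← fourier_two]; exact hs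
  obtain ⟨ha, hb⟩ := trig_aux (norm_fourier_one _) (norm_fourier_one _) h1 h0 hJ
  constructor
  · show cs E1 θ ≤ 3 / 4
    unfold cs E1
    rw [mF2, fourier_zero, mul_one]
    exact ha
  · have h8 : xe ![-1, 2] θ = ENNReal.ofReal (2 - 2 *
        ((starRingEnd ℂ) (fourier 1 (θ 1)) ^ 2 * fourier 1 (θ 0)).re) := by
      unfold xe XX
      congr 3
      rw [← cs_neg]
      unfold cs
      have : -(![-1, 2] : Fin 2 → ℤ) = ![1, -2] := by ext i; fin_cases i <;> rfl
      rw [this, mF2, fourier_neg_two, mul_comm]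
    rw [h8]
    apply ENNReal.ofReal_le_ofReal
    linarith

theorem JJ_open : IsOpen JJ :=
  isOpen_lt (Complex.continuous_re.comp (fourier 2).continuous) continuous_const

theorem JJ_pos : 0 < volume JJ := by
  refine JJ_open.measure_pos volume ⟨((1 / 4 : ℝ) : UnitAddCircle), ?_⟩
  show (fourier 2 ((1 / 4 : ℝ) : UnitAddCircle) : ℂ).re < 0
  rw [fourier_coe_apply]
  have : 2 * (Real.pi : ℂ) * Complex.I * ((2 : ℤ) : ℂ) * ((1 / 4 : ℝ) : ℂ) / ((1 : ℝ) : ℂ) =
      Real.pi * Complex.I := by push_cast; ring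
  rw [this, Complex.exp_pi_mul_I]
  norm_num

theorem JJ_shift (s : UnitAddCircle) (hs : s ∈ JJ) : s + hf ∈ JJ := by
  show (fourier 2 (s + hf) : ℂ).re < 0
  rw [fourier_add_arg]
  have : (fourier 2 hf : ℂ) = 1 := by
    rw [hf, fourier_coe_apply]
    have : 2 * (Real.pi : ℂ) * Complex.I * ((2 : ℤ) : ℂ) * ((1 / 2 : ℝ) : ℂ) / ((1 : ℝ) : ℂ) =
      2 * Real.pi * Complex.I := by push_cast; ring
    rw [this, Complex.exp_two_pi_mul_I]
  rw [this, mul_one]
  exact hs

theorem KK_closed (e : Fin 2 → ℤ) : IsClosed (KK e) :=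
  isClosed_le (cs_continuous e) continuous_const

/-- **Far density and infrared bound.** -/
theorem far (Φ : Measure (UnitAddTorus (Fin 2))) [SFinite Φ]
    (h1 : ShiftIneq Φ (xe ![-1, 2]) u1) (h2 : ShiftIneq Φ (xe ![-2, 1]) u2)
    (hK1 : Φ (KK E1) ≠ ⊤) (hK2 : Φ (KK E2) ≠ ⊤) :
    ∃ C : ℝ≥0∞, C ≠ ⊤ ∧ ∀ f : UnitAddTorus (Fin 2) → ℝ≥0∞, Measurable f →
      (∀ θ, θ ∉ RR → f θ = 0) →
      ∫⁻ θ, (xe ![-1, 2] θ + xe ![-2, 1] θ) * f θ ∂Φ ≤ C * ∫⁻ θ, f θ := by
  set c : ℝ≥0∞ := ENNReal.ofReal (1 / 4) * volume JJ with hc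
  have hc0 : c ≠ 0 := mul_ne_zero (by simp) JJ_pos.ne'
  have hct : c ≠ ⊤ := by
    apply ENNReal.mul_ne_top ENNReal.ofReal_ne_top
    exact measure_ne_top _ _
  refine ⟨c⁻¹ * (64 * Φ (KK E2)) + c⁻¹ * (64 * Φ (KK E1)), ?_, ?_⟩
  · apply ENNReal.add_ne_top.2
    constructor
    · exact ENNReal.mul_ne_top (ENNReal.inv_ne_top.2 hc0) (ENNReal.mul_ne_top (by simp) hK2)
    · exact ENNReal.mul_ne_top (ENNReal.inv_ne_top.2 hc0) (ENNReal.mul_ne_top (by simp) hK1)
  · intro f hf' hfR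
    have a1 := shift_trick (Φ := Φ) measurable_u1 measurable_u2 h1 h2 JJ_open.measurableSet
      JJ_shift (K := KK E2) (R := RR) (KK_closed E2).measurableSet (fun θ t h => by
        have e : cs E2 (θ + u2 t) = cs E2 θ := by
          unfold cs E2
          rw [mF2, mF2, fourier_zero, fourier_zero]
          simp [u2]
        show cs E2 θ ≤ 3 / 4
        rw [← e]; exact h) hsupp1 hvol12 hf' hfR
    have a2 := shift_trick (Φ := Φ) measurable_u2 measurable_u1 h2 h1 JJ_open.measurableSet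
      JJ_shift (K := KK E1) (R := RR) (KK_closed E1).measurableSet (fun θ t h => by
        have e : cs E1 (θ + u1 t) = cs E1 θ := by
          unfold cs E1
          rw [mF2, mF2, fourier_zero, fourier_zero]
          simp [u1]
        show cs E1 θ ≤ 3 / 4
        rw [← e]; exact h) hsupp2 hvol21 hf' hfR
    have key : ∀ x y : ℝ≥0∞, c * x ≤ y → x ≤ c⁻¹ * y := by
      intro x y hxy
      rw [← one_mul x, ← ENNReal.inv_mul_cancel hc0 hct, mul_assoc]
      exact mul_le_mul_right hxy _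
    have b1 := key _ _ a1
    have b2 := key _ _ a2
    simp_rw [add_mul]
    have hm : Measurable fun θ => xe ![-1, 2] θ * f θ := (xe_measurable _).mul hf'
    rw [lintegral_add_left hm]
    calc _ ≤ c⁻¹ * (64 * Φ (KK E2) * ∫⁻ θ, f θ) + c⁻¹ * (64 * Φ (KK E1) * ∫⁻ θ, f θ) :=
          add_le_add b1 b2
      _ = _ := by ring

end Vale.Agent.P153.RP
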