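import Vale.Agent.P153.RP.Circ

/-!
# The folded spectral measure and reflection positivity
-/

open MeasureTheory Filter Topology Set UnitAddTorus
open scoped NNReal ENNReal Real unitInterval

namespace Vale.Agent.P153.RP

/-! ### transport to `U × U` -/

/-- coordinates of the torus -/
def toP (θ : UnitAddTorus (Fin 2)) : U × U := (θ 0, θ 1)
/-- inverse of `toP` -/
def ofP (p : U × U) : UnitAddTorus (Fin 2) := ![p.1, p.2]

theorem toP_measurable : Measurable toP := (measurable_pi_apply 0).prodMk (measurable_pi_apply 1)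

theorem ofP_measurable : Measurable ofP := by
  refine measurable_pi_iff.2 fun i => ?_
  fin_cases i
  · exact measurable_fst
  · exact measurable_snd

theorem toP_ofP (p : U × U) : toP (ofP p) = p := rfl

theorem ofP_toP (θ : UnitAddTorus (Fin 2)) : ofP (toP θ) = θ := by
  funext i
  fin_cases i <;> rfl

/-- real character on `U × U` -/
noncomputable def cu (n m : ℤ) (p : U × U) : ℝ := (fourier n p.1 * fourier m p.2).re

theorem mFourier_ofP (n : Fin 2 → ℤ) (p : U × U) :
    mFourier n (ofP p) = fourier (n 0) p.1 * fourier (n 1) p.2 := by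
  simp [mFourier, ofP, Fin.prod_univ_two]

theorem mFourier_eq (n : Fin 2 → ℤ) (θ : UnitAddTorus (Fin 2)) :
    mFourier n θ = fourier (n 0) (θ 0) * fourier (n 1) (θ 1) := by
  simp [mFourier, Fin.prod_univ_two]

theorem cs_eq_cu (n : Fin 2 → ℤ) (θ : UnitAddTorus (Fin 2)) : cs n θ = cu (n 0) (n 1) (toP θ) := by
  rw [cs, mFourier_eq, cu]; rfl

theorem cu_continuous (n m : ℤ) : Continuous (cu n m) :=
  Complex.continuous_re.comp (((fourier n).continuous.comp continuous_fst).mul
    ((fourier m).continuous.comp continuous_snd))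

theorem abs_cu_le (n m : ℤ) (p : U × U) : |cu n m p| ≤ 1 := by
  have h := abs_cs_le ![n, m] (ofP p)
  rw [cs_eq_cu, toP_ofP] at h
  exact h

/-- evenness on `U × U` -/
def EvenP (μ : Measure (U × U)) : Prop := μ.map (fun p => -p) = μ

theorem ext_P {μ ν : Measure (U × U)} [IsFiniteMeasure μ] [IsFiniteMeasure ν]
    (hμ : EvenP μ) (hν : EvenP ν) (h : ∀ n m : ℤ, ∫ x, cu n m x ∂μ = ∫ x, cu n m x ∂ν) : μ = ν := by
  have hneg : Measurable (fun p : U × U => -p) := measurable_neg
  have hev : ∀ ρ : Measure (U × U), EvenP ρ → EvenM (ρ.map ofP) := by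
    intro ρ hρ
    unfold EvenM
    rw [Measure.map_map measurable_negT ofP_measurable]
    have : ((fun x : UnitAddTorus (Fin 2) => -x) ∘ ofP) = ofP ∘ (fun p : U × U => -p) := by
      funext p i
      fin_cases i <;> rfl
    rw [this, ← Measure.map_map ofP_measurable hneg, hρ]
  have hi : ∀ (ρ : Measure (U × U)) (n : Fin 2 → ℤ), ∫ x, cs n x ∂(ρ.map ofP) =
      ∫ p, cu (n 0) (n 1) p ∂ρ := by
    intro ρ n
    rw [integral_map ofP_measurable.aemeasurable (cs_continuous n).aestronglyMeasurable]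
    apply integral_congr_ae
    refine Eventually.of_forall fun p => ?_
    show cs n (ofP p) = _
    rw [cs_eq_cu, toP_ofP]
  have key : μ.map ofP = ν.map ofP := by
    apply ext_torus_even (hev μ hμ) (hev ν hν)
    intro n
    rw [hi, hi, h]
  have hc : ∀ ρ : Measure (U × U), (ρ.map ofP).map toP = ρ := by
    intro ρ
    rw [Measure.map_map toP_measurable ofP_measurable]
    have : toP ∘ ofP = id := rfl
    rw [this, Measure.map_id]
  rw [← hc μ, key, hc]

/-! ### hypotheses -/

/-- Hypotheses on the variogram of the triangular lattice: `(i,j) ↦ i (1,0) + j (1/2, √3/2)`;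
`rot` is the rotation by 60 degrees, `refl` the reflection across row `0`, `rp0`, `rp1` are
reflection positivity across row `0` for even and odd rows; `line`: no invariant functional for the
translation by two rows (`PE_line_of_mix`: true for mixing fields). -/
structure RPH (V : (Fin 2 → ℤ) → ℝ) : Prop extends VH V where
  rot : ∀ x : Fin 2 → ℤ, V ![-x 1, x 0 + x 1] = V x
  refl : ∀ x : Fin 2 → ℤ, V ![x 0 + x 1, -x 1] = V x
  rp0 : ∀ (n : ℕ) (x : Fin n → ℤ) (i : Fin n → ℕ) (a : Fin n → ℝ), ∑ k, a k = 0 →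
    ∑ k, ∑ l, a k * a l * V ![x k - x l - (i k + i l), 2 * (i k + i l)] ≤ 0
  rp1 : ∀ (n : ℕ) (x : Fin n → ℤ) (i : Fin n → ℕ) (a : Fin n → ℝ), ∑ k, a k = 0 →
    ∑ k, ∑ l, a k * a l * V ![x k - x l - (i k + i l + 1), 2 * (i k + i l + 1)] ≤ 0
  line : PE toVH0 E1 {θ | mFourier ![-1, 2] θ = 1} = 0

variable {V : (Fin 2 → ℤ) → ℝ}

theorem cf_E1 (x : Fin 2 → ℤ) : x + E1 = ![x 0 + 1, x 1] := by
  funext i; fin_cases i <;> simp [E1]

theorem cf_E1' (x : Fin 2 → ℤ) : x - E1 = ![x 0 - 1, x 1] := by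
  funext i; fin_cases i <;> simp [E1]

theorem CV_E1 (V : (Fin 2 → ℤ) → ℝ) (a b : ℤ) :
    CV V E1 ![a, b] = (V ![a + 1, b] + V ![a - 1, b] - 2 * V ![a, b]) / 2 := by
  unfold CV
  rw [cf_E1, cf_E1']
  rfl

theorem RPH.CV_refl (h : RPH V) (a b : ℤ) : CV V E1 ![a + b, -b] = CV V E1 ![a, b] := by
  rw [CV_E1, CV_E1]
  have h1 := h.refl ![a, b]
  have h2 := h.refl ![a + 1, b]
  have h3 := h.refl ![a - 1, b]
  simp only [Matrix.cons_val_zero, Matrix.cons_val_one] at h1 h2 h3
  rw [h1, ← h2, ← h3]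
  rw [show a + b + 1 = a + 1 + b by ring, show a + b - 1 = a - 1 + b by ring]

theorem VH0.CV_bdd (h : VH0 V) (x : Fin 2 → ℤ) : |CV V E1 x| ≤ V E1 := by
  rw [← PE_cs h]
  refine (abs_integral_le_integral_abs).trans ?_
  refine (integral_mono_of_nonneg (g := fun _ => (1 : ℝ)) (Eventually.of_forall fun θ => abs_nonneg _)
    (integrable_const _) (Eventually.of_forall fun θ => abs_cs_le _ _)).trans ?_
  rw [integral_const, smul_eq_mul, mul_one, Measure.real, PE_univ, ENNReal.toReal_ofReal (h.nonneg _)]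

/-- the folded correlation of gradients along rows -/
noncomputable def cf (V : (Fin 2 → ℤ) → ℝ) (x : Fin 1 → ℤ) (j : ℕ) : ℝ := CV V E1 ![x 0 - j, 2 * j]

theorem rp_fin (e : ℕ) (hrp : ∀ (n : ℕ) (x : Fin n → ℤ) (i : Fin n → ℕ) (a : Fin n → ℝ), ∑ k, a k = 0 →
    ∑ k, ∑ l, a k * a l * V ![x k - x l - (i k + i l + e), 2 * (i k + i l + e)] ≤ 0)
    (s : Finset ((Fin 1 → ℤ) × ℕ)) (a : (Fin 1 → ℤ) × ℕ → ℝ) :
    0 ≤ ∑ p ∈ s, ∑ q ∈ s, a p * a q * cf V (p.1 - q.1) (p.2 + q.2 + e) := by
  have hrp' : ∀ {κ : Type} [Fintype κ] (x : κ → ℤ) (i : κ → ℕ) (a : κ → ℝ), ∑ k, a k = 0 →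
      ∑ k, ∑ l, a k * a l * V ![x k - x l - (i k + i l + e), 2 * (i k + i l + e)] ≤ 0 := by
    intro κ _ x i a ha
    have E := (Fintype.equivFin κ).symm
    have := hrp (Fintype.card κ) (fun k => x (E k)) (fun k => i (E k)) (fun k => a (E k)) (by
      rw [Equiv.sum_comp E a]; exact ha)
    rw [← Equiv.sum_comp E (fun k => ∑ l, a k * a l *
      V ![x k - x l - (i k + i l + e), 2 * (i k + i l + e)])]
    refine le_trans (le_of_eq ?_) this
    apply Finset.sum_congr rfl
    intro k _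
    exact (Equiv.sum_comp E (fun l => a (E k) * a l *
      V ![x (E k) - x l - (i (E k) + i l + e), 2 * (i (E k) + i l + e)])).symm
  have key := hrp' (κ := s × Bool) (fun k => if k.2 then (k.1 : (Fin 1 → ℤ) × ℕ).1 0 + 1
      else (k.1 : (Fin 1 → ℤ) × ℕ).1 0) (fun k => (k.1 : (Fin 1 → ℤ) × ℕ).2)
    (fun k => if k.2 then a k.1 else -a k.1) (by
      rw [Fintype.sum_prod_type]
      apply Finset.sum_eq_zero
      intro p _
      simp)
  have e2 : ∑ p ∈ s, ∑ q ∈ s, a p * a q * cf V (p.1 - q.1) (p.2 + q.2 + e) =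
      ∑ p : s, ∑ q : s, a p * a q * cf V ((p : (Fin 1 → ℤ) × ℕ).1 - (q : (Fin 1 → ℤ) × ℕ).1)
        ((p : (Fin 1 → ℤ) × ℕ).2 + (q : (Fin 1 → ℤ) × ℕ).2 + e) := by
    rw [← Finset.sum_coe_sort]
    apply Finset.sum_congr rfl
    intro p _
    rw [← Finset.sum_coe_sort]
  rw [Fintype.sum_prod_type] at key
  simp_rw [Fintype.sum_prod_type, Fintype.sum_bool] at key
  have e1 : ∀ p q : s, a p * a q * cf V ((p : (Fin 1 → ℤ) × ℕ).1 - (q : (Fin 1 → ℤ) × ℕ).1)
        ((p : (Fin 1 → ℤ) × ℕ).2 + (q : (Fin 1 → ℤ) × ℕ).2 + e) = -(1 / 2) *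
      ((a p * a q * V ![((p : (Fin 1 → ℤ) × ℕ).1 0 + 1) - ((q : (Fin 1 → ℤ) × ℕ).1 0 + 1) -
          ((p : (Fin 1 → ℤ) × ℕ).2 + (q : (Fin 1 → ℤ) × ℕ).2 + e),
          2 * ((p : (Fin 1 → ℤ) × ℕ).2 + (q : (Fin 1 → ℤ) × ℕ).2 + e)] +
        a p * (-a q) * V ![((p : (Fin 1 → ℤ) × ℕ).1 0 + 1) - ((q : (Fin 1 → ℤ) × ℕ).1 0) -
          ((p : (Fin 1 → ℤ) × ℕ).2 + (q : (Fin 1 → ℤ) × ℕ).2 + e),
          2 * ((p : (Fin 1 → ℤ) × ℕ).2 + (q : (Fin 1 → ℤ) × ℕ).2 + e)]) +
       ((-a p) * a q * V ![((p : (Fin 1 → ℤ) × ℕ).1 0) - ((q : (Fin 1 → ℤ) × ℕ).1 0 + 1) -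
          ((p : (Fin 1 → ℤ) × ℕ).2 + (q : (Fin 1 → ℤ) × ℕ).2 + e),
          2 * ((p : (Fin 1 → ℤ) × ℕ).2 + (q : (Fin 1 → ℤ) × ℕ).2 + e)] +
        (-a p) * (-a q) * V ![((p : (Fin 1 → ℤ) × ℕ).1 0) - ((q : (Fin 1 → ℤ) × ℕ).1 0) -
          ((p : (Fin 1 → ℤ) × ℕ).2 + (q : (Fin 1 → ℤ) × ℕ).2 + e),
          2 * ((p : (Fin 1 → ℤ) × ℕ).2 + (q : (Fin 1 → ℤ) × ℕ).2 + e)])) := by
    intro p q
    unfold cf
    rw [CV_E1]
    push_cast
    rw [show ∀ A B C : ℤ, A + 1 - (B + 1) - C = A - B - C from fun A B C => by ring,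
      show ∀ A B C : ℤ, A + 1 - B - C = A - B - C + 1 from fun A B C => by ring,
      show ∀ A B C : ℤ, A - (B + 1) - C = A - B - C - 1 from fun A B C => by ring]
    simp only [Pi.sub_apply]
    ring
  rw [e2]
  simp_rw [e1]
  simp_rw [← Finset.mul_sum]
  have e3 : ∀ p : s, ∑ q : s,
      ((a p * a q * V ![((p : (Fin 1 → ℤ) × ℕ).1 0 + 1) - ((q : (Fin 1 → ℤ) × ℕ).1 0 + 1) -
          ((p : (Fin 1 → ℤ) × ℕ).2 + (q : (Fin 1 → ℤ) × ℕ).2 + e),
          2 * ((p : (Fin 1 → ℤ) × ℕ).2 + (q : (Fin 1 → ℤ) × ℕ).2 + e)] +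
        a p * (-a q) * V ![((p : (Fin 1 → ℤ) × ℕ).1 0 + 1) - ((q : (Fin 1 → ℤ) × ℕ).1 0) -
          ((p : (Fin 1 → ℤ) × ℕ).2 + (q : (Fin 1 → ℤ) × ℕ).2 + e),
          2 * ((p : (Fin 1 → ℤ) × ℕ).2 + (q : (Fin 1 → ℤ) × ℕ).2 + e)]) +
       ((-a p) * a q * V ![((p : (Fin 1 → ℤ) × ℕ).1 0) - ((q : (Fin 1 → ℤ) × ℕ).1 0 + 1) -
          ((p : (Fin 1 → ℤ) × ℕ).2 + (q : (Fin 1 → ℤ) × ℕ).2 + e),
          2 * ((p : (Fin 1 → ℤ) × ℕ).2 + (q : (Fin 1 → ℤ) × ℕ).2 + e)] +
        (-a p) * (-a q) * V ![((p : (Fin 1 → ℤ) × ℕ).1 0) - ((q : (Fin 1 → ℤ) × ℕ).1 0) -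
          ((p : (Fin 1 → ℤ) × ℕ).2 + (q : (Fin 1 → ℤ) × ℕ).2 + e),
          2 * ((p : (Fin 1 → ℤ) × ℕ).2 + (q : (Fin 1 → ℤ) × ℕ).2 + e)])) =
      ∑ q : s, (a p * a q * V ![((p : (Fin 1 → ℤ) × ℕ).1 0 + 1) - ((q : (Fin 1 → ℤ) × ℕ).1 0 + 1) -
          ((p : (Fin 1 → ℤ) × ℕ).2 + (q : (Fin 1 → ℤ) × ℕ).2 + e),
          2 * ((p : (Fin 1 → ℤ) × ℕ).2 + (q : (Fin 1 → ℤ) × ℕ).2 + e)] +
        a p * (-a q) * V ![((p : (Fin 1 → ℤ) × ℕ).1 0 + 1) - ((q : (Fin 1 → ℤ) × ℕ).1 0) -
          ((p : (Fin 1 → ℤ) × ℕ).2 + (q : (Fin 1 → ℤ) × ℕ).2 + e),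
          2 * ((p : (Fin 1 → ℤ) × ℕ).2 + (q : (Fin 1 → ℤ) × ℕ).2 + e)]) +
      ∑ q : s, ((-a p) * a q * V ![((p : (Fin 1 → ℤ) × ℕ).1 0) - ((q : (Fin 1 → ℤ) × ℕ).1 0 + 1) -
          ((p : (Fin 1 → ℤ) × ℕ).2 + (q : (Fin 1 → ℤ) × ℕ).2 + e),
          2 * ((p : (Fin 1 → ℤ) × ℕ).2 + (q : (Fin 1 → ℤ) × ℕ).2 + e)] +
        (-a p) * (-a q) * V ![((p : (Fin 1 → ℤ) × ℕ).1 0) - ((q : (Fin 1 → ℤ) × ℕ).1 0) -
          ((p : (Fin 1 → ℤ) × ℕ).2 + (q : (Fin 1 → ℤ) × ℕ).2 + e),
          2 * ((p : (Fin 1 → ℤ) × ℕ).2 + (q : (Fin 1 → ℤ) × ℕ).2 + e)]) :=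
    fun p => Finset.sum_add_distrib
  simp_rw [e3]
  have key2 : ∀ t : ℝ, t ≤ 0 → 0 ≤ -(1 / 2) * t := fun t ht => by linarith
  apply key2
  simpa using key

theorem RPH.rppos (h : RPH V) : RPPos (cf V) where
  even x j := by
    unfold cf
    have h1 := h.CV_refl (x 0 - j) (2 * j)
    rw [← h1, ← h.toVH0.CV_even]
    congr 1
    funext i
    fin_cases i
    · simp; ring
    · simp
  bdd := ⟨V E1, fun x j => h.toVH0.CV_bdd _⟩
  h0 s a := by
    have := rp_fin 0 (fun n x i a ha => by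
      have := h.rp0 n x i a ha
      simpa using this) s a
    simpa using this
  h1 s a := by
    exact rp_fin 1 (fun n x i a ha => by
      have := h.rp1 n x i a ha
      simpa using this) s a

/-! ### the measure `nu` -/

/-- the spectral measure of the positive two-row translation before symmetrisation -/
noncomputable def nu0 (h : RPH V) : Measure (U × ℝ) :=
  ((joint h.rppos).choose : Measure ((Fin 1 → KI) × I)).map (fun p => (pm (p.1 0), (p.2 : ℝ)))

theorem nu0_meas : Measurable (fun p : (Fin 1 → KI) × I => (pm (p.1 0 : ℝ), (p.2 : ℝ))) := by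
  refine Measurable.prodMk ?_ ?_
  · exact pm_measurable.comp (measurable_subtype_coe.comp ((measurable_pi_apply 0).comp measurable_fst))
  · exact measurable_subtype_coe.comp measurable_snd

instance (h : RPH V) : IsFiniteMeasure (nu0 h) := by unfold nu0; infer_instance

theorem nu0_supp (h : RPH V) : ∀ᵐ p ∂(nu0 h), p.2 ∈ Icc (0 : ℝ) 1 := by
  unfold nu0
  rw [ae_map_iff nu0_meas.aemeasurable (measurable_snd measurableSet_Icc)]
  exact Eventually.of_forall fun p => p.2.2

theorem nu0_int (h : RPH V) (n : ℤ) (j : ℕ) :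
    ∫ p, (fourier n p.1 : ℂ).re * p.2 ^ j ∂(nu0 h) = CV V E1 ![n - j, 2 * j] := by
  have h1 := (joint h.rppos).choose_spec (fun _ => n) j
  unfold cf at h1
  rw [← h1]
  unfold nu0
  have hm : Measurable fun p : U × ℝ => (fourier n p.1 : ℂ).re * p.2 ^ j := by
    refine Measurable.mul ?_ (measurable_snd.pow_const j)
    exact Complex.measurable_re.comp ((fourier n).continuous.measurable.comp measurable_fst)
  rw [integral_map nu0_meas.aemeasurable hm.aestronglyMeasurable]
  apply integral_congr_ae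
  refine Eventually.of_forall fun p => ?_
  show (fourier n (pm (p.1 0 : ℝ)) : ℂ).re * (p.2 : ℝ) ^ j = _
  rw [fourier_pm, mul_comm Complex.I, Complex.exp_ofReal_mul_I_re]
  simp [dotk]

/-- reflection of the momentum -/
def ng (p : U × ℝ) : U × ℝ := (-p.1, p.2)

theorem ng_meas : Measurable ng := (measurable_neg.comp measurable_fst).prodMk measurable_snd

/-- the (symmetric) spectral measure of the positive two-row translation -/
noncomputable def nu (h : RPH V) : Measure (U × ℝ) := (2⁻¹ : ℝ≥0∞) • (nu0 h + (nu0 h).map ng)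

instance (h : RPH V) : IsFiniteMeasure (nu h) := by
  unfold nu
  exact Measure.smul_finite _ (by simp)

theorem nu_supp (h : RPH V) : ∀ᵐ p ∂(nu h), p.2 ∈ Icc (0 : ℝ) 1 := by
  unfold nu
  refine Measure.ae_smul_measure ?_ _
  rw [ae_add_measure_iff]
  refine ⟨nu0_supp h, ?_⟩
  rw [ae_map_iff ng_meas.aemeasurable (measurable_snd measurableSet_Icc)]
  exact nu0_supp h

theorem nu_ng (h : RPH V) : (nu h).map ng = nu h := by
  unfold nu
  rw [Measure.map_smul, Measure.map_add _ _ ng_meas, Measure.map_map ng_meas ng_meas]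
  have : ng ∘ ng = id := by
    funext p
    simp [ng]
  rw [this, Measure.map_id, add_comm]

theorem fourier_neg_arg (n : ℤ) (y : U) : (fourier n (-y) : ℂ) = (starRingEnd ℂ) (fourier n y) := by
  rw [fourier_apply, fourier_apply, smul_neg, AddCircle.toCircle_neg, Circle.coe_inv_eq_conj]

theorem bdd_int {μ : Measure (U × ℝ)} [IsFiniteMeasure μ] (hs : ∀ᵐ p ∂μ, p.2 ∈ Icc (0 : ℝ) 1)
    (n : ℤ) (j : ℕ) : Integrable (fun p : U × ℝ => (fourier n p.1 : ℂ) * (p.2 ^ j : ℝ)) μ := by
  refine Integrable.of_bound (C := 1) ?_ ?_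
  · apply Measurable.aestronglyMeasurable
    refine Measurable.mul ?_ ?_
    · exact (fourier n).continuous.measurable.comp measurable_fst
    · exact Complex.measurable_ofReal.comp (measurable_snd.pow_const j)
  · filter_upwards [hs] with p hp
    rw [norm_mul, fourier_apply, Circle.norm_coe, one_mul, Complex.norm_real, Real.norm_of_nonneg
      (pow_nonneg hp.1 _)]
    exact pow_le_one₀ hp.1 hp.2

theorem nu_int (h : RPH V) (n : ℤ) (j : ℕ) :
    ∫ p, (fourier n p.1 : ℂ) * (p.2 ^ j : ℝ) ∂(nu h) = ((CV V E1 ![n - j, 2 * j] : ℝ) : ℂ) := by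
  have hs0 := nu0_supp h
  have hs1 : ∀ᵐ p ∂((nu0 h).map ng), p.2 ∈ Icc (0 : ℝ) 1 := by
    rw [ae_map_iff ng_meas.aemeasurable (measurable_snd measurableSet_Icc)]
    exact nu0_supp h
  unfold nu
  rw [integral_smul_measure, integral_add_measure (bdd_int hs0 n j) (bdd_int hs1 n j),
    integral_map ng_meas.aemeasurable]
  · have e1 : ∫ p, (fourier n (ng p).1 : ℂ) * ((ng p).2 ^ j : ℝ) ∂(nu0 h) =
        (starRingEnd ℂ) (∫ p, (fourier n p.1 : ℂ) * (p.2 ^ j : ℝ) ∂(nu0 h)) := by
      rw [← integral_conj]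
      apply integral_congr_ae
      refine Eventually.of_forall fun p => ?_
      simp only [ng, map_mul, Complex.conj_ofReal]
      rw [fourier_neg_arg]
    rw [e1, Complex.add_conj]
    have e2 : (∫ p, (fourier n p.1 : ℂ) * (p.2 ^ j : ℝ) ∂(nu0 h)).re = CV V E1 ![n - j, 2 * j] := by
      rw [← nu0_int h n j]
      have := integral_re (𝕜 := ℂ) (bdd_int hs0 n j)
      rw [show (∫ p, (fourier n p.1 : ℂ) * (p.2 ^ j : ℝ) ∂(nu0 h)).re =
        RCLike.re (∫ p, (fourier n p.1 : ℂ) * (p.2 ^ j : ℝ) ∂(nu0 h)) from rfl, ← this]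
      apply integral_congr_ae
      refine Eventually.of_forall fun p => ?_
      show ((fourier n p.1 : ℂ) * (p.2 ^ j : ℝ)).re = _
      rw [Complex.re_mul_ofReal]
    rw [e2]
    simp
  · exact (bdd_int hs1 n j).aestronglyMeasurable

theorem nu_univ (h : RPH V) : nu h univ = ENNReal.ofReal (V E1) := by
  have h1 := nu_int h 0 0
  simp only [fourier_zero, pow_zero, Complex.ofReal_one, mul_one] at h1
  rw [integral_const] at h1
  have h2 : CV V E1 ![0 - ((0 : ℕ) : ℤ), 2 * ((0 : ℕ) : ℤ)] = V E1 := by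
    have : (![0 - ((0 : ℕ) : ℤ), 2 * ((0 : ℕ) : ℤ)] : Fin 2 → ℤ) = 0 := by
      funext i; fin_cases i <;> simp
    rw [this, h.toVH0.CV_zero]
  rw [h2] at h1
  have h3 : (nu h).real univ = V E1 := by
    have := congrArg Complex.re h1
    simpa using this
  rw [← h3, Measure.real, ENNReal.ofReal_toReal (measure_ne_top _ _)]

/-- mixing kills the mass at `τ = 1` -/
theorem nu_one (h : RPH V) : ∀ᵐ p ∂(nu h), p.2 ≠ 1 := by
  rw [ae_iff]
  simp only [not_not]
  have hms : MeasurableSet {p : U × ℝ | p.2 = 1} := measurable_snd (measurableSet_singleton (1 : ℝ))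
  have hb : ∀ j : ℕ, (nu h).real {p : U × ℝ | p.2 = 1} ≤ CV V E1 ![0 - j, 2 * j] := by
    intro j
    have h1 : ∫ p, p.2 ^ j ∂(nu h) = CV V E1 ![0 - j, 2 * j] := by
      have := nu_int h 0 j
      simp only [fourier_zero, one_mul] at this
      rw [integral_complex_ofReal] at this
      exact_mod_cast this
    rw [← h1]
    have h2 : (nu h).real {p : U × ℝ | p.2 = 1} = ∫ p, indicator {p : U × ℝ | p.2 = 1} (fun _ => (1 : ℝ)) p
        ∂(nu h) := by
      rw [integral_indicator hms, setIntegral_const, smul_eq_mul, mul_one]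
    rw [h2]
    have hint : Integrable (fun p : U × ℝ => p.2 ^ j) (nu h) := by
      have := (bdd_int (nu_supp h) 0 j).re
      refine this.congr (Eventually.of_forall fun p => ?_)
      simp only [fourier_zero, one_mul]
      exact Complex.ofReal_re _
    apply integral_mono_ae _ hint
    · filter_upwards [nu_supp h] with p hp
      by_cases h1 : p.2 = 1
      · rw [indicator_of_mem (show p ∈ {p : U × ℝ | p.2 = 1} from h1), h1, one_pow]
      · rw [indicator_of_notMem (show p ∉ {p : U × ℝ | p.2 = 1} from h1)]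
        exact pow_nonneg hp.1 _
    · exact (integrable_const (1 : ℝ)).indicator hms
  have hlim := PE_line_lim h.toVH0 E1 ![-1, 2]
  rw [Measure.real, h.line, ENNReal.toReal_zero] at hlim
  have h0 : (nu h).real {p : U × ℝ | p.2 = 1} ≤ 0 := by
    refine ge_of_tendsto hlim ?_
    filter_upwards [eventually_gt_atTop 0] with N hN
    have hN' : (0 : ℝ) < N := by exact_mod_cast hN
    rw [le_inv_mul_iff₀ hN']
    calc (N : ℝ) * (nu h).real {p : U × ℝ | p.2 = 1} =
        ∑ _a ∈ Finset.range N, (nu h).real {p : U × ℝ | p.2 = 1} := by simp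
      _ ≤ _ := by
        apply Finset.sum_le_sum
        intro a _
        refine (hb a).trans (le_of_eq ?_)
        congr 1
        funext i
        fin_cases i
        · simp
        · simp; ring
  have h1 : (nu h).real {p : U × ℝ | p.2 = 1} = 0 := le_antisymm h0 measureReal_nonneg
  rw [Measure.real, ENNReal.toReal_eq_zero_iff] at h1
  rcases h1 with h1 | h1
  · exact h1
  · exact absurd h1 (measure_ne_top _ _)

theorem nu_ae (h : RPH V) : ∀ᵐ p ∂(nu h), 0 ≤ p.2 ∧ p.2 < 1 := by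
  filter_upwards [nu_supp h, nu_one h] with p h1 h2
  exact ⟨h1.1, lt_of_le_of_ne h1.2 h2⟩

/-! ### Poisson mixtures -/

/-- Poisson kernel -/
noncomputable def PK (q : (U × ℝ) × U) : ℝ≥0∞ := ENNReal.ofReal ((1 - q.1.2 ^ 2) / dU q.1.2 q.2)

theorem PKr_measurable : Measurable fun q : (U × ℝ) × U => (1 - q.1.2 ^ 2) / dU q.1.2 q.2 := by
  refine Measurable.div ?_ ?_
  · exact measurable_const.sub ((measurable_snd.comp measurable_fst).pow_const 2)
  · exact dU_measurable.comp ((measurable_snd.comp measurable_fst).prodMk measurable_snd)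

theorem PK_measurable : Measurable PK := PKr_measurable.ennreal_ofReal

theorem cont_dU_inv {τ : ℝ} (h0 : 0 ≤ τ) (h1 : τ < 1) (g : C(U, ℂ)) :
    Continuous fun ϑ : U => g ϑ / (dU τ ϑ : ℂ) := by
  refine g.continuous.div (Complex.continuous_ofReal.comp (dU_continuous τ)) fun ϑ => ?_
  have := dU_pos h0 h1 ϑ
  exact_mod_cast this.ne'

theorem integrable_U {E : Type*} [NormedAddCommGroup E] {f : U → E} (hf : Continuous f) :
    Integrable f volume := by
  have := hf.continuousOn (s := univ)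
  have h2 := this.integrableOn_compact (μ := (volume : Measure U)) isCompact_univ
  rwa [integrableOn_univ] at h2

theorem integral_inv_dU {τ : ℝ} (h0 : 0 ≤ τ) (h1 : τ < 1) : ∫ ϑ : U, 1 / dU τ ϑ = 1 / (1 - τ ^ 2) := by
  have h := poisson_U h0 h1 0
  simp only [fourier_zero, Int.natAbs_zero, pow_zero] at h
  rw [← Complex.ofReal_inj, ← h, ← integral_complex_ofReal]
  apply integral_congr_ae
  refine Eventually.of_forall fun ϑ => ?_
  push_cast
  rfl

theorem lintegral_inv_dU {τ : ℝ} (h0 : 0 ≤ τ) (h1 : τ < 1) :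
    ∫⁻ ϑ : U, ENNReal.ofReal (1 / dU τ ϑ) = ENNReal.ofReal (1 / (1 - τ ^ 2)) := by
  rw [← integral_inv_dU h0 h1, ofReal_integral_eq_lintegral_ofReal]
  · apply integrable_U
    refine continuous_const.div (dU_continuous τ) fun ϑ => (dU_pos h0 h1 ϑ).ne'
  · exact Eventually.of_forall fun ϑ => (one_div_pos.2 (dU_pos h0 h1 ϑ)).le

theorem one_sub_sq_pos {τ : ℝ} (h0 : 0 ≤ τ) (h1 : τ < 1) : 0 < 1 - τ ^ 2 := by nlinarith

theorem lintegral_PK {y : U} {τ : ℝ} (h0 : 0 ≤ τ) (h1 : τ < 1) : ∫⁻ ϑ : U, PK ((y, τ), ϑ) = 1 := by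
  have h2 := one_sub_sq_pos h0 h1
  have : ∀ ϑ : U, PK ((y, τ), ϑ) = ENNReal.ofReal (1 - τ ^ 2) * ENNReal.ofReal (1 / dU τ ϑ) := by
    intro ϑ
    rw [← ENNReal.ofReal_mul h2.le, mul_one_div]
    rfl
  simp_rw [this]
  have hm : Measurable fun ϑ : U => ENNReal.ofReal (1 / dU τ ϑ) :=
    (measurable_const.div (dU_continuous τ).measurable).ennreal_ofReal
  rw [lintegral_const_mul _ hm,
    lintegral_inv_dU h0 h1, ← ENNReal.ofReal_mul h2.le, mul_one_div, div_self h2.ne',
    ENNReal.ofReal_one]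

/-- product measure with the Poisson kernel -/
noncomputable def W0 (h : RPH V) : Measure ((U × ℝ) × U) :=
  ((nu h).prod (volume : Measure U)).withDensity PK

theorem W0_univ (h : RPH V) : W0 h univ = nu h univ := by
  unfold W0
  rw [withDensity_apply _ MeasurableSet.univ, Measure.restrict_univ,
    lintegral_prod _ PK_measurable.aemeasurable]
  rw [lintegral_congr_ae (g := fun _ => 1)]
  · simp
  · filter_upwards [nu_ae h] with p hp
    exact lintegral_PK hp.1 hp.2

instance (h : RPH V) : IsFiniteMeasure (W0 h) :=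
  ⟨by rw [W0_univ]; exact measure_lt_top _ _⟩

/-- the map `((y,τ),ϑ) ↦ (y,ϑ)` -/
def pw (q : (U × ℝ) × U) : U × U := (q.1.1, q.2)

theorem pw_meas : Measurable pw := (measurable_fst.comp measurable_fst).prodMk measurable_snd

/-- the Poisson mixture of `nu` -/
noncomputable def Wm (h : RPH V) : Measure (U × U) := (W0 h).map pw

instance (h : RPH V) : IsFiniteMeasure (Wm h) := by unfold Wm; infer_instance

theorem integral_W0 (h : RPH V) (g : (U × ℝ) × U → ℂ) :
    ∫ q, g q ∂(W0 h) = ∫ q, ((((1 - q.1.2 ^ 2) / dU q.1.2 q.2) : ℝ) : ℂ) * g q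
      ∂((nu h).prod (volume : Measure U)) := by
  have := integral_withDensity_eq_integral_smul (μ := (nu h).prod (volume : Measure U))
    (f := fun q => Real.toNNReal ((1 - q.1.2 ^ 2) / dU q.1.2 q.2))
    PKr_measurable.real_toNNReal g
  have h2 : (fun q : (U × ℝ) × U => ((Real.toNNReal ((1 - q.1.2 ^ 2) / dU q.1.2 q.2) : ℝ≥0) : ℝ≥0∞)) = PK := rfl
  rw [h2] at this
  unfold W0
  rw [this]
  apply integral_congr_ae
  have h3 : ∀ᵐ q ∂((nu h).prod (volume : Measure U)), 0 ≤ q.1.2 ∧ q.1.2 < 1 := by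
    have := Measure.quasiMeasurePreserving_fst (μ := nu h) (ν := (volume : Measure U)) |>.ae (nu_ae h)
    exact this
  filter_upwards [h3] with q hq
  have h4 : 0 ≤ (1 - q.1.2 ^ 2) / dU q.1.2 q.2 :=
    div_nonneg (one_sub_sq_pos hq.1 hq.2).le (dU_pos hq.1 hq.2 _).le
  rw [NNReal.smul_def, Real.coe_toNNReal _ h4, Complex.real_smul]

theorem Wm_fourier (h : RPH V) (n m : ℤ) :
    ∫ p, (fourier n p.1 * fourier m p.2 : ℂ) ∂(Wm h) =
      ((CV V E1 ![n - m.natAbs, 2 * m.natAbs] : ℝ) : ℂ) := by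
  have hm : Measurable fun p : U × U => (fourier n p.1 * fourier m p.2 : ℂ) :=
    (((fourier n).continuous.comp continuous_fst).mul
      ((fourier m).continuous.comp continuous_snd)).measurable
  unfold Wm
  rw [integral_map pw_meas.aemeasurable hm.aestronglyMeasurable, integral_W0, integral_prod]
  · rw [← nu_int h n m.natAbs]
    apply integral_congr_ae
    filter_upwards [nu_ae h] with p hp
    have e1 : ∀ ϑ : U, ((((1 - p.2 ^ 2) / dU p.2 ϑ) : ℝ) : ℂ) * (fourier n p.1 * fourier m ϑ) =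
        (((1 - p.2 ^ 2 : ℝ) : ℂ) * fourier n p.1) * (fourier m ϑ / (dU p.2 ϑ : ℂ)) := by
      intro ϑ
      push_cast
      ring
    show ∫ ϑ : U, ((((1 - p.2 ^ 2) / dU p.2 ϑ) : ℝ) : ℂ) * (fourier n p.1 * fourier m ϑ) = _
    simp_rw [e1]
    rw [integral_const_mul, poisson_U hp.1 hp.2]
    have h2 : ((1 - p.2 ^ 2 : ℝ) : ℂ) ≠ 0 := by exact_mod_cast (one_sub_sq_pos hp.1 hp.2).ne'
    push_cast at h2 ⊢
    field_simp
  · have hb : Integrable (fun q : (U × ℝ) × U => (fourier n (pw q).1 * fourier m (pw q).2 : ℂ)) (W0 h) := by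
      refine Integrable.of_bound (C := 1) (hm.comp pw_meas).aestronglyMeasurable
        (Eventually.of_forall fun q => ?_)
      rw [norm_mul, fourier_apply, fourier_apply, Circle.norm_coe, Circle.norm_coe, one_mul]
    have h3 : ∀ᵐ q ∂((nu h).prod (volume : Measure U)), 0 ≤ q.1.2 ∧ q.1.2 < 1 := by
      have := Measure.quasiMeasurePreserving_fst (μ := nu h) (ν := (volume : Measure U)) |>.ae (nu_ae h)
      exact this
    have h5 := (integrable_withDensity_iff_integrable_smul (μ := (nu h).prod (volume : Measure U))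
      (f := fun q => Real.toNNReal ((1 - q.1.2 ^ 2) / dU q.1.2 q.2))
      PKr_measurable.real_toNNReal (g := fun q : (U × ℝ) × U => (fourier n (pw q).1 * fourier m (pw q).2 : ℂ))).1 hb
    refine h5.congr ?_
    filter_upwards [h3] with q hq
    have h4 : 0 ≤ (1 - q.1.2 ^ 2) / dU q.1.2 q.2 :=
      div_nonneg (one_sub_sq_pos hq.1 hq.2).le (dU_pos hq.1 hq.2 _).le
    rw [NNReal.smul_def, Real.coe_toNNReal _ h4, Complex.real_smul]

theorem Wm_cu (h : RPH V) (n m : ℤ) :
    ∫ p, cu n m p ∂(Wm h) = CV V E1 ![n - m.natAbs, 2 * m.natAbs] := by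
  have h1 := Wm_fourier h n m
  have hi : Integrable (fun p : U × U => (fourier n p.1 * fourier m p.2 : ℂ)) (Wm h) := by
    refine Integrable.of_bound (C := 1) ?_ (Eventually.of_forall fun q => ?_)
    · exact (((fourier n).continuous.comp continuous_fst).mul
      ((fourier m).continuous.comp continuous_snd)).aestronglyMeasurable
    · rw [norm_mul, fourier_apply, fourier_apply, Circle.norm_coe, Circle.norm_coe, one_mul]
  have h2 := integral_re (𝕜 := ℂ) hi
  have h3 := congrArg Complex.re h1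
  rw [Complex.ofReal_re] at h3
  rw [← h3]
  exact h2

theorem dU_neg (τ : ℝ) (ϑ : U) : dU τ (-ϑ) = dU τ ϑ := by unfold dU; rw [Xu_neg]

theorem Wm_even (h : RPH V) : EvenP (Wm h) := by
  unfold EvenP Wm
  have hneg : Measurable (fun p : U × U => -p) := measurable_neg
  rw [Measure.map_map hneg pw_meas]
  have h1 : (fun p : U × U => -p) ∘ pw = pw ∘ (Prod.map ng (fun x : U => -x)) := by
    funext q; rfl
  have hm2 : Measurable (Prod.map ng (fun x : U => -x)) := ng_meas.prodMap measurable_neg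
  rw [h1, ← Measure.map_map pw_meas hm2]
  congr 1
  have hmp : ((nu h).prod (volume : Measure U)).map (Prod.map ng (fun x : U => -x)) =
      (nu h).prod (volume : Measure U) := by
    rw [← Measure.map_prod_map _ _ ng_meas measurable_neg, nu_ng]
    congr 1
    exact Measure.map_neg_eq_self _
  unfold W0
  ext s hs
  rw [Measure.map_apply hm2 hs, withDensity_apply _ (hm2 hs), withDensity_apply _ hs]
  conv_rhs => rw [← hmp]
  rw [← lintegral_indicator hs, ← lintegral_indicator (hm2 hs),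
    lintegral_map (PK_measurable.indicator hs) hm2]
  apply lintegral_congr
  intro q
  by_cases hq : Prod.map ng (fun x : U => -x) q ∈ s
  · rw [indicator_of_mem hq, indicator_of_mem (show q ∈ (Prod.map ng (fun x : U => -x)) ⁻¹' s from hq)]
    show ENNReal.ofReal ((1 - q.1.2 ^ 2) / dU q.1.2 q.2) =
      ENNReal.ofReal ((1 - q.1.2 ^ 2) / dU q.1.2 (-q.2))
    rw [dU_neg]
  · rw [indicator_of_notMem hq,
      indicator_of_notMem (show q ∉ (Prod.map ng (fun x : U => -x)) ⁻¹' s from hq)]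

/-! ### the folding map and the symmetries -/

/-- `(a,b) ↦ (a, 2b-a)` -/
def tP (p : U × U) : U × U := (p.1, p.2 + p.2 - p.1)

/-- dual rotation -/
def rP (p : U × U) : U × U := (p.2, p.2 - p.1)

/-- dual reflection -/
def fP (p : U × U) : U × U := (p.1, p.1 - p.2)

theorem tP_continuous : Continuous tP := by unfold tP; fun_prop
theorem rP_continuous : Continuous rP := by unfold rP; fun_prop
theorem fP_continuous : Continuous fP := by unfold fP; fun_prop

theorem tP_mp : MeasurePreserving tP (volume : Measure (U × U)) volume := by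
  have h1 : MeasurePreserving (fun p : U × U => (p.1, (fun a b : U => b + b - a) p.1 p.2))
      ((volume : Measure U).prod volume) ((volume : Measure U).prod volume) := by
    refine (MeasurePreserving.id (volume : Measure U)).skew_product (g := fun a b : U => b + b - a) ?_ ?_
    · exact (((measurable_snd.add measurable_snd).sub measurable_fst))
    · refine Eventually.of_forall fun a => ?_
      have h2 : MeasurePreserving (fun b : U => b + b - a) volume volume := by
        have h3 := (measurePreserving_add_right (volume : Measure U) (-a)).comp mp_dbl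
        have : (fun b : U => b + b - a) = (fun x => x + -a) ∘ (fun b : U => b + b) := by
          funext b; simp [sub_eq_add_neg]
        rw [this]; exact h3
      exact h2.map_eq
  exact h1

theorem rP_mp : MeasurePreserving rP (volume : Measure (U × U)) volume := by
  have h1 : MeasurePreserving (fun p : U × U => (p.1, (fun a b : U => a - b) p.1 p.2))
      ((volume : Measure U).prod volume) ((volume : Measure U).prod volume) := by
    refine (MeasurePreserving.id (volume : Measure U)).skew_product (g := fun a b : U => a - b) ?_ ?_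
    · exact measurable_fst.sub measurable_snd
    · refine Eventually.of_forall fun a => ?_
      exact (Measure.measurePreserving_sub_left (volume : Measure U) a).map_eq
  have h2 : MeasurePreserving Prod.swap ((volume : Measure U).prod volume)
      ((volume : Measure U).prod volume) := Measure.measurePreserving_swap
  exact h1.comp h2

theorem fP_mp : MeasurePreserving fP (volume : Measure (U × U)) volume := by
  have h1 : MeasurePreserving (fun p : U × U => (p.1, (fun a b : U => a - b) p.1 p.2))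
      ((volume : Measure U).prod volume) ((volume : Measure U).prod volume) := by
    refine (MeasurePreserving.id (volume : Measure U)).skew_product (g := fun a b : U => a - b) ?_ ?_
    · exact measurable_fst.sub measurable_snd
    · refine Eventually.of_forall fun a => ?_
      exact (Measure.measurePreserving_sub_left (volume : Measure U) a).map_eq
  exact h1

theorem fourier_add_arg (n : ℤ) (x y : U) : (fourier n (x + y) : ℂ) = fourier n x * fourier n y := by
  rw [fourier_apply, fourier_apply, fourier_apply, smul_add, AddCircle.toCircle_add, Circle.coe_mul]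

theorem fourier_add_idx (n m : ℤ) (x : U) : (fourier (n + m) x : ℂ) = fourier n x * fourier m x :=
  fourier_add

theorem fourier_neg_idx (n : ℤ) (x : U) : (fourier (-n) x : ℂ) = (starRingEnd ℂ) (fourier n x) :=
  fourier_neg

/-- the gradient spectral measure in coordinates -/
noncomputable def GP (h : VH0 V) (e : Fin 2 → ℤ) : Measure (U × U) := (PE h e).map toP

instance (h : VH0 V) (e : Fin 2 → ℤ) : IsFiniteMeasure (GP h e) := by unfold GP; infer_instance

/-- the spectral measure in coordinates -/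
noncomputable def PhiP (h : VH V) : Measure (U × U) := (Phi h).map toP

theorem GP_cu (h : VH0 V) (e : Fin 2 → ℤ) (n m : ℤ) : ∫ p, cu n m p ∂(GP h e) = CV V e ![n, m] := by
  unfold GP
  rw [integral_map toP_measurable.aemeasurable (cu_continuous n m).aestronglyMeasurable, ← PE_cs h e]
  apply integral_congr_ae
  refine Eventually.of_forall fun θ => ?_
  show cu n m (toP θ) = _
  rw [cs_eq_cu]
  rfl

theorem GP_even (h : VH0 V) (e : Fin 2 → ℤ) : EvenP (GP h e) := by
  unfold EvenP GP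
  rw [Measure.map_map measurable_neg toP_measurable]
  have : (fun p : U × U => -p) ∘ toP = toP ∘ (fun θ : UnitAddTorus (Fin 2) => -θ) := by
    funext θ; rfl
  rw [this, ← Measure.map_map toP_measurable measurable_negT, PE_even h e]

theorem cu_tP (n m : ℤ) (p : U × U) : cu n m (tP p) = cu (n - m) (2 * m) p := by
  unfold cu tP
  congr 1
  simp only
  rw [sub_eq_add_neg, fourier_add_arg, fourier_add_arg, fourier_neg_arg, sub_eq_add_neg,
    fourier_add_idx, fourier_neg_idx, two_mul, fourier_add_idx]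
  ring

/-- **the fold identity**: gradients along rows, observed on even rows -/
theorem fold_GP (h : RPH V) : (GP h.toVH0 E1).map tP = Wm h := by
  have hm := tP_continuous.measurable
  have hev : EvenP ((GP h.toVH0 E1).map tP) := by
    unfold EvenP
    rw [Measure.map_map measurable_neg hm]
    have : (fun p : U × U => -p) ∘ tP = tP ∘ (fun p : U × U => -p) := by
      funext p
      show -(p.1, p.2 + p.2 - p.1) = (-p.1, -p.2 + -p.2 - -p.1)
      rw [Prod.neg_mk]
      congr 1
      abel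
    rw [this, ← Measure.map_map hm measurable_neg, GP_even]
  apply ext_P hev (Wm_even h)
  intro n m
  rw [Wm_cu, integral_map hm.aemeasurable (cu_continuous n m).aestronglyMeasurable]
  simp_rw [cu_tP]
  rw [GP_cu]
  rcases Int.natAbs_eq m with hm' | hm'
  · rw [← hm']
  · have := h.CV_refl (n - m) (2 * m)
    rw [← this]
    congr 1
    funext i
    fin_cases i
    · show n - m + 2 * m = n - (m.natAbs : ℤ)
      omega
    · show -(2 * m) = 2 * (m.natAbs : ℤ)
      omega

end Vale.Agent.P153.RP
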