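import Mathlib

/-!
# Hausdorff moment theorem (for reflection positivity)

`hausdorff`: a bounded real sequence `c` with both Hankel forms positive semidefinite is the moment
sequence of a finite measure on `[0,1]`.
-/

open MeasureTheory Polynomial Filter Topology
open scoped NNReal unitInterval

namespace Vale.Agent.P153.RP

/-! ### limits of measures on a compact space -/

theorem exists_limit {E : Type*} [MeasurableSpace E] [TopologicalSpace E] [T2Space E] [BorelSpace E]
    [CompactSpace E] (μ : ℕ → FiniteMeasure E) (M : ℝ≥0) (hM : ∀ n, (μ n).mass = M) :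
    ∃ ν : FiniteMeasure E, ν.mass = M ∧ ∀ (f : C(E, ℝ)) (l : ℝ),
      Tendsto (fun n => ∫ x, f x ∂(μ n : Measure E)) atTop (𝓝 l) →
      ∫ x, f x ∂(ν : Measure E) = l := by
  classical
  have hK := isCompact_setOfPred_finiteMeasure_eq_of_compactSpace E M
  let U : Ultrafilter ℕ := hyperfilter ℕ
  have hU : (U : Filter ℕ) ≤ atTop := Nat.hyperfilter_le_atTop
  obtain ⟨ν, hν, hlim⟩ := hK.ultrafilter_le_nhds (U.map μ) (by
    rw [le_principal_iff]
    exact Filter.Eventually.of_forall (f := (U : Filter ℕ)) hM)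
  refine ⟨ν, hν, fun f l hl => ?_⟩
  have h1 : Tendsto μ (U : Filter ℕ) (𝓝 ν) := hlim
  rw [FiniteMeasure.tendsto_iff_forall_integral_tendsto] at h1
  have h2 := h1 (BoundedContinuousFunction.mkOfCompact f)
  have h3 : Tendsto (fun n => ∫ x, f x ∂(μ n : Measure E)) (U : Filter ℕ) (𝓝 l) := hl.mono_left hU
  exact tendsto_nhds_unique h2 h3

/-! ### positive functionals on polynomials -/

/-- positivity of `L` on `q²` and `X q²`, and boundedness of the moments -/
structure PosL (L : ℝ[X] →ₗ[ℝ] ℝ) : Prop where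
  even : ∀ q : ℝ[X], 0 ≤ L (q * q)
  odd : ∀ q : ℝ[X], 0 ≤ L (X * (q * q))
  bdd : ∃ C : ℝ, ∀ n : ℕ, |L (X ^ n)| ≤ C

variable {L : ℝ[X] →ₗ[ℝ] ℝ}

theorem PosL.pow (h : PosL L) (n : ℕ) (q : ℝ[X]) : 0 ≤ L (X ^ n * (q * q)) := by
  obtain ⟨m, hm⟩ := Nat.even_or_odd' n
  rcases hm with rfl | rfl
  · have := h.even (X ^ m * q)
    convert this using 2
    ring
  · have := h.odd (X ^ m * q)
    convert this using 2
    ring

theorem PosL.bdd_mul (h : PosL L) (p : ℝ[X]) : ∃ C : ℝ, ∀ n : ℕ, |L (X ^ n * p)| ≤ C := by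
  induction p using Polynomial.induction_on' with
  | add p q hp hq =>
    obtain ⟨C, hC⟩ := hp
    obtain ⟨D, hD⟩ := hq
    refine ⟨C + D, fun n => ?_⟩
    rw [mul_add, map_add]
    exact (abs_add_le _ _).trans (add_le_add (hC n) (hD n))
  | monomial k a =>
    obtain ⟨C, hC⟩ := h.bdd
    refine ⟨|a| * C, fun n => ?_⟩
    have : (X : ℝ[X]) ^ n * monomial k a = a • X ^ (n + k) := by
      rw [← C_mul_X_pow_eq_monomial, smul_eq_C_mul]; ring
    rw [this, map_smul, smul_eq_mul, abs_mul]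
    exact mul_le_mul_of_nonneg_left (hC _) (abs_nonneg a)

/-- bounded convex sequences are nonincreasing -/
theorem convex_bdd {A : ℕ → ℝ} (hc : ∀ n, 0 ≤ A n - 2 * A (n + 1) + A (n + 2))
    {C : ℝ} (hb : ∀ n, |A n| ≤ C) : A 1 ≤ A 0 := by
  by_contra hlt
  push Not at hlt
  have hd : ∀ n, A 1 - A 0 ≤ A (n + 1) - A n := by
    intro n
    induction n with
    | zero => simp
    | succ n ih => have := hc n; linarith [this]
  have hg : ∀ n : ℕ, A 0 + n * (A 1 - A 0) ≤ A n := by
    intro n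
    induction n with
    | zero => simp
    | succ n ih =>
      have := hd n
      push_cast
      linarith
  obtain ⟨n, hn⟩ := exists_nat_gt ((C - A 0) / (A 1 - A 0))
  have h1 : C - A 0 < n * (A 1 - A 0) := by
    rwa [div_lt_iff₀ (by linarith)] at hn
  have h2 := hg n
  have h3 := (abs_le.1 (hb n)).2
  linarith

theorem PosL.one_sub (h : PosL L) (q : ℝ[X]) : 0 ≤ L ((1 - X) * (q * q)) := by
  obtain ⟨C, hC⟩ := h.bdd_mul (q * q)
  have := convex_bdd (A := fun n => L (X ^ n * (q * q))) (fun n => by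
    have h1 := h.pow n ((1 - X) * q)
    have h2 : (X : ℝ[X]) ^ n * ((1 - X) * q * ((1 - X) * q)) =
        X ^ n * (q * q) - (2 : ℝ) • (X ^ (n + 1) * (q * q)) + X ^ (n + 2) * (q * q) := by
      rw [smul_eq_C_mul, show (Polynomial.C (2 : ℝ) : ℝ[X]) = 2 from rfl]; ring
    rw [h2, map_add, map_sub, map_smul, smul_eq_mul] at h1
    exact h1) hC
  have h3 : ((1 : ℝ[X]) - X) * (q * q) = X ^ 0 * (q * q) - X ^ 1 * (q * q) := by ring
  rw [h3, map_sub]
  linarith [this]

theorem PosL.shift (h : PosL L) : PosL (L ∘ₗ LinearMap.mulLeft ℝ (X : ℝ[X])) where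
  even q := by simpa using h.odd q
  odd q := by
    have := h.pow 2 q
    simp only [LinearMap.comp_apply, LinearMap.mulLeft_apply]
    convert this using 2
    ring
  bdd := by
    obtain ⟨C, hC⟩ := h.bdd
    refine ⟨C, fun n => ?_⟩
    simp only [LinearMap.comp_apply, LinearMap.mulLeft_apply]
    rw [← pow_succ']
    exact hC _

theorem PosL.basic (h : PosL L) (i j : ℕ) : 0 ≤ L (X ^ i * (1 - X) ^ j) := by
  obtain ⟨a, ha⟩ := Nat.even_or_odd' i
  obtain ⟨b, hb⟩ := Nat.even_or_odd' j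
  rcases hb with rfl | rfl
  · have := h.pow i ((1 - X) ^ b)
    convert this using 2
    ring
  · rcases ha with rfl | rfl
    · have := h.one_sub (X ^ a * (1 - X) ^ b)
      convert this using 2
      ring
    · have := h.shift.one_sub (X ^ a * (1 - X) ^ b)
      simp only [LinearMap.comp_apply, LinearMap.mulLeft_apply] at this
      convert this using 2
      ring

theorem PosL.bernstein (h : PosL L) (m ν : ℕ) : 0 ≤ L (bernsteinPolynomial ℝ m ν) := by
  have : bernsteinPolynomial ℝ m ν = ((m.choose ν : ℕ) : ℝ) • (X ^ ν * (1 - X) ^ (m - ν)) := by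
    rw [bernsteinPolynomial, smul_eq_C_mul]
    simp [mul_assoc]
  rw [this, map_smul, smul_eq_mul]
  exact mul_nonneg (Nat.cast_nonneg _) (h.basic _ _)

/-! ### Bernstein factorial moments -/

theorem bernstein_choose (m i : ℕ) :
    ∑ ν ∈ Finset.range (m + 1), ((ν.choose i : ℕ) : ℝ) • bernsteinPolynomial ℝ m ν =
      ((m.choose i : ℕ) : ℝ) • X ^ i := by
  by_cases hi : i ≤ m
  · obtain ⟨r, rfl⟩ := Nat.exists_eq_add_of_le hi
    have hsplit : ∑ ν ∈ Finset.range (i + r + 1), ((ν.choose i : ℕ) : ℝ) •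
        bernsteinPolynomial ℝ (i + r) ν =
        ∑ k ∈ Finset.range (r + 1), (((i + k).choose i : ℕ) : ℝ) •
          bernsteinPolynomial ℝ (i + r) (i + k) := by
      rw [show i + r + 1 = i + (r + 1) by ring, Finset.sum_range_add]
      have : ∑ x ∈ Finset.range i, ((x.choose i : ℕ) : ℝ) • bernsteinPolynomial ℝ (i + r) x = 0 := by
        apply Finset.sum_eq_zero
        intro x hx
        rw [Nat.choose_eq_zero_of_lt (Finset.mem_range.1 hx)]
        simp
      rw [this, zero_add]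
    rw [hsplit]
    have hterm : ∀ k ∈ Finset.range (r + 1), (((i + k).choose i : ℕ) : ℝ) •
        bernsteinPolynomial ℝ (i + r) (i + k) =
        (((i + r).choose i : ℕ) : ℝ) • (X ^ i * bernsteinPolynomial ℝ r k) := by
      intro k hk
      have hk' : k ≤ r := Nat.lt_succ_iff.1 (Finset.mem_range.1 hk)
      have hch : (i + r).choose (i + k) * (i + k).choose i = (i + r).choose i * r.choose k := by
        have := Nat.choose_mul (n := i + r) (k := i + k) (s := i) (by omega)
        simpa using this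
      rw [bernsteinPolynomial, bernsteinPolynomial]
      have e1 : i + r - (i + k) = r - k := by omega
      rw [e1, smul_eq_C_mul, smul_eq_C_mul]
      have hch' : (((i + r).choose (i + k) : ℕ) : ℝ[X]) * (((i + k).choose i : ℕ) : ℝ[X]) =
          (((i + r).choose i : ℕ) : ℝ[X]) * ((r.choose k : ℕ) : ℝ[X]) := by
        exact_mod_cast congrArg (Nat.cast : ℕ → ℝ[X]) hch
      simp only [map_natCast]
      rw [pow_add]
      linear_combination (X ^ i * X ^ k * (1 - X) ^ (r - k)) * hch'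
    rw [Finset.sum_congr rfl hterm, ← Finset.smul_sum, ← Finset.mul_sum, bernsteinPolynomial.sum,
      mul_one]
  · push Not at hi
    rw [Nat.choose_eq_zero_of_lt hi]
    rw [Nat.cast_zero, zero_smul]
    apply Finset.sum_eq_zero
    intro x hx
    rw [Nat.choose_eq_zero_of_lt (by have := Finset.mem_range.1 hx; omega)]
    simp

theorem prod_sub_pow {i : ℕ} {r : ℕ → ℝ} {t e : ℝ} (ht0 : 0 ≤ t) (ht1 : t ≤ 1)
    (hr0 : ∀ s < i, 0 ≤ r s) (hr1 : ∀ s < i, r s ≤ 1) (he : ∀ s < i, |r s - t| ≤ e) :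
    |∏ s ∈ Finset.range i, r s - t ^ i| ≤ i * e := by
  induction i with
  | zero => simp
  | succ i ih =>
    have ih' := ih (fun s hs => hr0 s (by omega)) (fun s hs => hr1 s (by omega))
      (fun s hs => he s (by omega))
    rw [Finset.prod_range_succ, pow_succ]
    have h1 : (∏ s ∈ Finset.range i, r s) * r i - t ^ i * t =
        (∏ s ∈ Finset.range i, r s - t ^ i) * r i + t ^ i * (r i - t) := by ring
    rw [h1]
    refine (abs_add_le _ _).trans ?_
    rw [abs_mul, abs_mul]
    have h2 : |r i| ≤ 1 := abs_le.2 ⟨by linarith [hr0 i (by omega)], hr1 i (by omega)⟩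
    have h3 : |t ^ i| ≤ 1 := by
      rw [abs_of_nonneg (pow_nonneg ht0 _)]; exact pow_le_one₀ ht0 ht1
    have h4 := he i (by omega)
    have h5 : 0 ≤ e := (abs_nonneg _).trans h4
    calc |∏ s ∈ Finset.range i, r s - t ^ i| * |r i| + |t ^ i| * |r i - t|
        ≤ (i * e) * 1 + 1 * e := by
          apply add_le_add
          · exact mul_le_mul ih' h2 (abs_nonneg _) ((abs_nonneg _).trans ih')
          · exact mul_le_mul h3 h4 (abs_nonneg _) zero_le_one
      _ = ((i + 1 : ℕ) : ℝ) * e := by push_cast; ring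

theorem choose_ratio {i m ν : ℕ} (him : i < m) (hν : ν ≤ m) :
    |((ν.choose i : ℕ) : ℝ) / ((m.choose i : ℕ) : ℝ) - ((ν : ℝ) / m) ^ i| ≤
      i * ((i : ℝ) / ((m : ℝ) - i)) := by
  have hm0 : (0 : ℝ) < m := by exact_mod_cast (by omega : 0 < m)
  have hmi : (0 : ℝ) < (m : ℝ) - i := by
    have : (i : ℝ) < m := by exact_mod_cast him
    linarith
  have h1 : ((ν.choose i : ℕ) : ℝ) / ((m.choose i : ℕ) : ℝ) =
      ∏ s ∈ Finset.range i, (((ν - s : ℕ) : ℝ) / ((m - s : ℕ) : ℝ)) := by
    have hf : ((i.factorial : ℕ) : ℝ) ≠ 0 := by exact_mod_cast i.factorial_ne_zero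
    have hc : ((m.choose i : ℕ) : ℝ) ≠ 0 := by
      exact_mod_cast (Nat.choose_pos (by omega : i ≤ m)).ne'
    have e1 : ((i.factorial : ℕ) : ℝ) * ((ν.choose i : ℕ) : ℝ) =
        ∏ s ∈ Finset.range i, ((ν - s : ℕ) : ℝ) := by
      rw [← Nat.cast_mul, ← Nat.descFactorial_eq_factorial_mul_choose,
        Nat.descFactorial_eq_prod_range, Nat.cast_prod]
    have e2 : ((i.factorial : ℕ) : ℝ) * ((m.choose i : ℕ) : ℝ) =
        ∏ s ∈ Finset.range i, ((m - s : ℕ) : ℝ) := by
      rw [← Nat.cast_mul, ← Nat.descFactorial_eq_factorial_mul_choose,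
        Nat.descFactorial_eq_prod_range, Nat.cast_prod]
    rw [Finset.prod_div_distrib, ← e1, ← e2]
    field_simp
  rw [h1]
  apply prod_sub_pow
  · positivity
  · rw [div_le_one hm0]; exact_mod_cast hν
  · intro s hs; positivity
  · intro s hs
    have : (0 : ℝ) < ((m - s : ℕ) : ℝ) := by exact_mod_cast (by omega : 0 < m - s)
    rw [div_le_one this]
    exact_mod_cast (by omega : ν - s ≤ m - s)
  · intro s hs
    have hms : (0 : ℝ) < ((m - s : ℕ) : ℝ) := by exact_mod_cast (by omega : 0 < m - s)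
    have hms' : ((m - s : ℕ) : ℝ) = (m : ℝ) - s := by
      rw [Nat.cast_sub (by omega)]
    have hsi : (s : ℝ) < i := by exact_mod_cast hs
    have hs0 : (0 : ℝ) ≤ s := Nat.cast_nonneg s
    have hνm : (ν : ℝ) ≤ m := by exact_mod_cast hν
    have hν0 : (0 : ℝ) ≤ ν := Nat.cast_nonneg ν
    have key : (s : ℝ) / ((m : ℝ) - s) ≤ (i : ℝ) / ((m : ℝ) - i) := by
      apply div_le_div₀ (by linarith) hsi.le hmi (by linarith)
    rcases le_or_gt s ν with hsν | hsν
    · rw [Nat.cast_sub hsν, hms']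
      have hms2 : (0 : ℝ) < (m : ℝ) - s := by linarith
      have e : ((ν : ℝ) - s) / ((m : ℝ) - s) - (ν : ℝ) / m =
          -((s * ((m : ℝ) - ν)) / (m * ((m : ℝ) - s))) := by
        field_simp
        ring
      rw [e, abs_neg, abs_of_nonneg (by
        apply div_nonneg (mul_nonneg hs0 (by linarith)) (by positivity))]
      refine le_trans ?_ key
      rw [div_le_div_iff₀ (by positivity) hms2]
      have : s * ((m : ℝ) - ν) ≤ s * m := mul_le_mul_of_nonneg_left (by linarith) hs0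
      nlinarith [mul_le_mul_of_nonneg_right this hms2.le]
    · have : ν - s = 0 := by omega
      rw [this, Nat.cast_zero, zero_div, zero_sub, abs_neg, abs_of_nonneg (by positivity)]
      refine le_trans ?_ key
      have hνs : (ν : ℝ) ≤ s := by exact_mod_cast hsν.le
      apply div_le_div₀ hs0 hνs (by linarith) (by linarith)

/-! ### the approximating measures -/

/-- the point `ν / m` of `[0,1]` -/
noncomputable def pt (m ν : ℕ) : I :=
  ⟨min 1 ((ν : ℝ) / m), le_min zero_le_one (by positivity), min_le_left _ _⟩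

theorem pt_val {m ν : ℕ} (h : ν ≤ m) : ((pt m ν : I) : ℝ) = (ν : ℝ) / m := by
  show min 1 ((ν : ℝ) / m) = _
  apply min_eq_right
  rcases Nat.eq_zero_or_pos m with rfl | hm
  · simp
  · rw [div_le_one (by exact_mod_cast hm)]; exact_mod_cast h

/-- atomic measure with the Bernstein weights of `L` -/
noncomputable def bmeas (L : ℝ[X] →ₗ[ℝ] ℝ) (m : ℕ) : Measure I :=
  ∑ ν ∈ Finset.range (m + 1), ENNReal.ofReal (L (bernsteinPolynomial ℝ m ν)) •
    Measure.dirac (pt m ν)

instance (L : ℝ[X] →ₗ[ℝ] ℝ) (m : ℕ) : IsFiniteMeasure (bmeas L m) := by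
  unfold bmeas
  constructor
  rw [Measure.finsetSum_apply]
  simp only [Measure.smul_apply, measure_univ, smul_eq_mul, mul_one]
  exact ENNReal.sum_lt_top.2 (fun _ _ => ENNReal.ofReal_lt_top)

theorem PosL.bmeas_univ (h : PosL L) (m : ℕ) : bmeas L m Set.univ = ENNReal.ofReal (L 1) := by
  unfold bmeas
  rw [Measure.finsetSum_apply]
  simp only [Measure.smul_apply, measure_univ, smul_eq_mul, mul_one]
  rw [← ENNReal.ofReal_sum_of_nonneg (fun ν _ => h.bernstein m ν), ← map_sum,
    bernsteinPolynomial.sum]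

theorem PosL.bmeas_integral (h : PosL L) (m : ℕ) (f : C(I, ℝ)) :
    ∫ x, f x ∂(bmeas L m) =
      ∑ ν ∈ Finset.range (m + 1), L (bernsteinPolynomial ℝ m ν) * f (pt m ν) := by
  unfold bmeas
  rw [integral_finsetSum_measure]
  · apply Finset.sum_congr rfl
    intro ν _
    rw [integral_smul_measure, integral_dirac, ENNReal.toReal_ofReal (h.bernstein m ν), smul_eq_mul]
  · intro ν _
    apply Integrable.smul_measure _ ENNReal.ofReal_ne_top
    exact integrable_dirac (by simp)

theorem PosL.moment_tendsto (h : PosL L) (i : ℕ) :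
    Tendsto (fun m : ℕ => ∑ ν ∈ Finset.range (m + 1),
      L (bernsteinPolynomial ℝ m ν) * ((pt m ν : I) : ℝ) ^ i) atTop (𝓝 (L (X ^ i))) := by
  have hL1 : 0 ≤ L 1 := by simpa using h.even 1
  have hbound : ∀ m : ℕ, i < m → |∑ ν ∈ Finset.range (m + 1),
      L (bernsteinPolynomial ℝ m ν) * ((pt m ν : I) : ℝ) ^ i - L (X ^ i)| ≤
      L 1 * (i * ((i : ℝ) / ((m : ℝ) - i))) := by
    intro m hm
    have hc : ((m.choose i : ℕ) : ℝ) ≠ 0 := by
      exact_mod_cast (Nat.choose_pos hm.le).ne'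
    have h1 : L (X ^ i) = ∑ ν ∈ Finset.range (m + 1),
        L (bernsteinPolynomial ℝ m ν) * (((ν.choose i : ℕ) : ℝ) / ((m.choose i : ℕ) : ℝ)) := by
      have := congrArg L (bernstein_choose m i)
      rw [map_sum, map_smul, smul_eq_mul] at this
      rw [← mul_right_inj' hc, ← this, Finset.mul_sum]
      apply Finset.sum_congr rfl
      intro ν _
      rw [map_smul, smul_eq_mul]
      field_simp
    rw [h1, ← Finset.sum_sub_distrib]
    refine (Finset.abs_sum_le_sum_abs _ _).trans ?_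
    have h2 : ∀ ν ∈ Finset.range (m + 1), |L (bernsteinPolynomial ℝ m ν) *
        ((pt m ν : I) : ℝ) ^ i - L (bernsteinPolynomial ℝ m ν) *
        (((ν.choose i : ℕ) : ℝ) / ((m.choose i : ℕ) : ℝ))| ≤
        L (bernsteinPolynomial ℝ m ν) * (i * ((i : ℝ) / ((m : ℝ) - i))) := by
      intro ν hν
      have hν' : ν ≤ m := Nat.lt_succ_iff.1 (Finset.mem_range.1 hν)
      rw [← mul_sub, abs_mul, abs_of_nonneg (h.bernstein m ν), pt_val hν', abs_sub_comm]
      exact mul_le_mul_of_nonneg_left (choose_ratio hm hν') (h.bernstein m ν)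
    refine (Finset.sum_le_sum h2).trans ?_
    rw [← Finset.sum_mul, ← map_sum, bernsteinPolynomial.sum]
  rw [tendsto_iff_norm_sub_tendsto_zero]
  have hlim : Tendsto (fun m : ℕ => L 1 * (i * ((i : ℝ) / ((m : ℝ) - i)))) atTop (𝓝 0) := by
    have h1 : Tendsto (fun m : ℕ => (m : ℝ) - i) atTop atTop :=
      tendsto_atTop_add_const_right _ _ tendsto_natCast_atTop_atTop
    have h2 := (h1.const_div_atTop (i : ℝ)).const_mul (i : ℝ)
    have h3 := h2.const_mul (L 1)
    simpa using h3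
  refine squeeze_zero' (Eventually.of_forall fun _ => norm_nonneg _) ?_ hlim
  filter_upwards [eventually_gt_atTop i] with m hm
  exact hbound m hm

/-- monomial as a continuous function on `[0,1]` -/
noncomputable def monoI (i : ℕ) : C(I, ℝ) := ⟨fun x => (x : ℝ) ^ i, by fun_prop⟩

/-- **Hausdorff moment theorem**, functional form. -/
theorem PosL.exists_measure (h : PosL L) : ∃ μ : FiniteMeasure I,
    ∀ i : ℕ, ∫ x : I, (x : ℝ) ^ i ∂(μ : Measure I) = L (X ^ i) := by
  have hL1 : 0 ≤ L 1 := by simpa using h.even 1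
  obtain ⟨ν, -, hν⟩ := exists_limit (E := I) (fun m => ⟨bmeas L m, inferInstance⟩)
    (Real.toNNReal (L 1)) (fun m => by
      show ((bmeas L m) Set.univ).toNNReal = _
      rw [h.bmeas_univ]; rfl)
  refine ⟨ν, fun i => ?_⟩
  have := hν (monoI i) (L (X ^ i)) (by
    have h1 := h.moment_tendsto i
    refine h1.congr (fun m => ?_)
    exact (h.bmeas_integral m (monoI i)).symm)
  exact this

/-- the functional of a real sequence -/
noncomputable def Lf (c : ℕ → ℝ) : ℝ[X] →ₗ[ℝ] ℝ :=
  Polynomial.lsum fun n => c n • (LinearMap.id : ℝ →ₗ[ℝ] ℝ)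

theorem Lf_apply (c : ℕ → ℝ) (p : ℝ[X]) : Lf c p = p.sum fun n a => c n * a := by
  simp [Lf, Polynomial.lsum_apply]

theorem Lf_monomial (c : ℕ → ℝ) (n : ℕ) (a : ℝ) : Lf c (monomial n a) = c n * a := by
  rw [Lf_apply, Polynomial.sum_monomial_index]
  simp

theorem Lf_X_pow (c : ℕ → ℝ) (n : ℕ) : Lf c (X ^ n) = c n := by
  rw [X_pow_eq_monomial, Lf_monomial, mul_one]

theorem Lf_mul (c : ℕ → ℝ) (k : ℕ) (p q : ℝ[X]) :
    Lf c (X ^ k * (p * q)) = ∑ i ∈ p.support, ∑ j ∈ q.support,
      p.coeff i * q.coeff j * c (i + j + k) := by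
  conv_lhs => rw [p.as_sum_support, q.as_sum_support]
  rw [Finset.sum_mul_sum, Finset.mul_sum, map_sum]
  apply Finset.sum_congr rfl
  intro i _
  rw [Finset.mul_sum, map_sum]
  apply Finset.sum_congr rfl
  intro j _
  rw [monomial_mul_monomial, X_pow_eq_monomial, monomial_mul_monomial, Lf_monomial]
  rw [show k + (i + j) = i + j + k by ring]
  ring

/-- **Hausdorff moment theorem** for a bounded sequence with both Hankel forms `≥ 0`. -/
theorem hausdorff (c : ℕ → ℝ) (C : ℝ) (hb : ∀ n, |c n| ≤ C)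
    (h0 : ∀ (s : Finset ℕ) (a : ℕ → ℝ), 0 ≤ ∑ i ∈ s, ∑ j ∈ s, a i * a j * c (i + j))
    (h1 : ∀ (s : Finset ℕ) (a : ℕ → ℝ), 0 ≤ ∑ i ∈ s, ∑ j ∈ s, a i * a j * c (i + j + 1)) :
    ∃ μ : FiniteMeasure I, ∀ i : ℕ, ∫ x : I, (x : ℝ) ^ i ∂(μ : Measure I) = c i := by
  have h : PosL (Lf c) := by
    refine ⟨fun q => ?_, fun q => ?_, ⟨C, fun n => ?_⟩⟩
    · have := Lf_mul c 0 q q
      rw [pow_zero, one_mul] at this
      rw [this]
      exact h0 _ _
    · have := Lf_mul c 1 q q
      rw [pow_one] at this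
      rw [this]
      exact h1 _ _
    · rw [Lf_X_pow]; exact hb n
  obtain ⟨μ, hμ⟩ := h.exists_measure
  exact ⟨μ, fun i => by rw [hμ, Lf_X_pow]⟩

end Vale.Agent.P153.RP
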