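import Vale.Agent.P153.RP.Joint

/-!
# Herglotz theorem on `ℤ^ι` (real even positive definite functions)
-/

open MeasureTheory Filter Topology
open scoped NNReal unitInterval

namespace Vale.Agent.P153.RP

variable {ι : Type*} [Fintype ι] [DecidableEq ι]

omit [Fintype ι] [DecidableEq ι] in
theorem psd_bound (C : (ι → ℤ) → ℝ) (heven : ∀ x, C (-x) = C x)
    (h0 : ∀ (s : Finset (ι → ℤ)) (a : (ι → ℤ) → ℝ),
      0 ≤ ∑ p ∈ s, ∑ q ∈ s, a p * a q * C (p - q)) (x : ι → ℤ) : |C x| ≤ C 0 := by
  classical
  have hC0 : 0 ≤ C 0 := by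
    have := h0 {0} (fun _ => 1)
    simpa using this
  by_cases hx : x = 0
  · rw [hx, abs_of_nonneg hC0]
  · have hx' : (0 : ι → ℤ) ≠ x := fun h => hx h.symm
    have h1 := h0 {0, x} (fun _ => 1)
    have h2 := h0 {0, x} (fun p => if p = 0 then 1 else -1)
    rw [Finset.sum_pair hx', Finset.sum_pair hx', Finset.sum_pair hx'] at h1 h2
    simp only [sub_self, zero_sub, sub_zero, heven, if_true, if_neg hx] at h1 h2
    rw [abs_le]
    constructor <;> linarith

/-- **Herglotz** on `ℤ^ι` for real even functions. -/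
theorem herglotz (C : (ι → ℤ) → ℝ) (heven : ∀ x, C (-x) = C x)
    (h0 : ∀ (s : Finset (ι → ℤ)) (a : (ι → ℤ) → ℝ),
      0 ≤ ∑ p ∈ s, ∑ q ∈ s, a p * a q * C (p - q)) :
    ∃ ν : FiniteMeasure (ι → KI),
      ∀ x, ∫ k : ι → KI, Real.cos (dotk (fun i => (k i : ℝ)) x) ∂(ν : Measure (ι → KI)) = C x := by
  have hb := psd_bound C heven h0
  have H : RPPos (fun x j => C x * (if j = 0 then (1 : ℝ) else 0)) := by
    refine ⟨fun x j => by rw [heven], ⟨C 0, fun x j => ?_⟩, fun s a => ?_, fun s a => ?_⟩
    · split_ifs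
      · rw [mul_one]; exact hb x
      · rw [mul_zero, abs_zero]; exact (abs_nonneg _).trans (hb 0)
    · have h1 : ∑ p ∈ s, ∑ q ∈ s, a p * a q * (C (p.1 - q.1) * (if p.2 + q.2 = 0 then (1 : ℝ) else 0)) =
          ∑ p ∈ s.filter (fun p => p.2 = 0), ∑ q ∈ s.filter (fun p => p.2 = 0),
            a p * a q * C (p.1 - q.1) := by
        rw [Finset.sum_filter]
        apply Finset.sum_congr rfl
        intro p _
        rw [Finset.sum_filter]
        by_cases hp : p.2 = 0
        · rw [if_pos hp]
          apply Finset.sum_congr rfl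
          intro q _
          by_cases hq : q.2 = 0
          · rw [if_pos hq, hp, hq, if_pos (by rfl), mul_one]
          · rw [if_neg hq, if_neg (by omega)]; ring
        · rw [if_neg hp]
          apply Finset.sum_eq_zero
          intro q _
          rw [if_neg (by omega)]; ring
      rw [h1]
      have hinj : Set.InjOn (Prod.fst : (ι → ℤ) × ℕ → (ι → ℤ)) (s.filter (fun p => p.2 = 0)) := by
        rintro ⟨p, i⟩ hp ⟨q, j⟩ hq hpq
        simp only [Finset.coe_filter, Set.mem_ofPred_eq] at hp hq
        simp only at hpq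
        rw [hpq, hp.2, hq.2]
      have h2 := h0 ((s.filter (fun p => p.2 = 0)).image Prod.fst) (fun x => a (x, 0))
      rw [Finset.sum_image hinj] at h2
      refine h2.trans (le_of_eq ?_)
      apply Finset.sum_congr rfl
      intro p hp
      rw [Finset.sum_image hinj]
      apply Finset.sum_congr rfl
      intro q hq
      rw [Finset.mem_filter] at hp hq
      have e1 : (p.1, 0) = p := Prod.ext rfl hp.2.symm
      have e2 : (q.1, 0) = q := Prod.ext rfl hq.2.symm
      rw [e1, e2]
    · apply le_of_eq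
      symm
      apply Finset.sum_eq_zero
      intro p _
      apply Finset.sum_eq_zero
      intro q _
      rw [if_neg (by omega)]; ring
  obtain ⟨ν, hν⟩ := joint H
  have hmeas : Measurable (Prod.fst : (ι → KI) × I → (ι → KI)) := measurable_fst
  refine ⟨ν.map Prod.fst, fun x => ?_⟩
  have h1 := hν x 0
  simp only [pow_zero, mul_one, if_true] at h1
  rw [FiniteMeasure.toMeasure_map, integral_map hmeas.aemeasurable]
  · exact h1
  · apply Continuous.aestronglyMeasurable
    unfold dotk
    fun_prop

end Vale.Agent.P153.RP
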