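import Vale.Agent.P153.RP.Hausdorff

/-!
# Joint spectral representation from reflection positivity

`joint`: a bounded real function `c x j` (`x ∈ ℤ^ι`, `j ∈ ℕ`), even in `x`, positive definite in `x`
and with both Hankel forms in `j`, is `∫ cos (k·x) τ^j dν(k, τ)` for a finite measure `ν` on
`[-π,π]^ι × [0,1]`.
-/

open MeasureTheory Filter Topology
open scoped NNReal unitInterval

namespace Vale.Agent.P153.RP

variable {ι : Type*} [Fintype ι] [DecidableEq ι]

/-- `k · x` -/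
noncomputable def dotk (k : ι → ℝ) (x : ι → ℤ) : ℝ := ∑ i, k i * x i

omit [DecidableEq ι] in
theorem dotk_sub (k : ι → ℝ) (x y : ι → ℤ) : dotk k (x - y) = dotk k x - dotk k y := by
  simp [dotk, mul_sub, Finset.sum_sub_distrib]

omit [DecidableEq ι] in
theorem dotk_add (k : ι → ℝ) (x y : ι → ℤ) : dotk k (x + y) = dotk k x + dotk k y := by
  simp [dotk, mul_add, Finset.sum_add_distrib]

omit [DecidableEq ι] in
theorem dotk_neg (k : ι → ℝ) (x : ι → ℤ) : dotk k (-x) = -dotk k x := by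
  simp [dotk]

/-- grid momenta -/
noncomputable def kk {K : ℕ} (g : ZMod K) : ℝ := 2 * Real.pi * (g.valMinAbs : ℝ) / K

theorem abs_kk_le {K : ℕ} [NeZero K] (g : ZMod K) : |kk g| ≤ Real.pi := by
  have hK : (0 : ℝ) < K := by exact_mod_cast Nat.pos_of_ne_zero (NeZero.ne K)
  have h := ZMod.natAbs_valMinAbs_le g
  have h2 : (|(g.valMinAbs : ℝ)|) ≤ (K : ℝ) / 2 := by
    have h3 : ((g.valMinAbs.natAbs : ℕ) : ℝ) ≤ ((K / 2 : ℕ) : ℝ) := by exact_mod_cast h
    have h4 : ((K / 2 : ℕ) : ℝ) ≤ (K : ℝ) / 2 := Nat.cast_div_le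
    rw [Nat.cast_natAbs, Int.cast_abs] at h3
    exact h3.trans h4
  rw [kk, abs_div, abs_mul, abs_of_pos hK, abs_of_pos (by positivity : (0 : ℝ) < 2 * Real.pi)]
  rw [div_le_iff₀ hK]
  nlinarith [Real.pi_pos]

theorem stdAddChar_kk {K : ℕ} [NeZero K] (g : ZMod K) (t : ℤ) :
    ZMod.stdAddChar (g * (t : ZMod K)) = Complex.exp (((kk g * t : ℝ) : ℂ) * Complex.I) := by
  have h : g * (t : ZMod K) = ((g.valMinAbs * t : ℤ) : ZMod K) := by
    rw [Int.cast_mul, ZMod.coe_valMinAbs]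
  rw [h, ZMod.stdAddChar_coe]
  congr 1
  rw [kk]
  push_cast
  ring

/-- the character sum factors -/
theorem sum_exp (K : ℕ) [NeZero K] (t : ι → ℤ) :
    ∑ g : ι → ZMod K, Complex.exp (((dotk (fun i => kk (g i)) t : ℝ) : ℂ) * Complex.I) =
      if ∀ i, (K : ℤ) ∣ t i then ((K : ℂ)) ^ Fintype.card ι else 0 := by
  have h1 : ∀ g : ι → ZMod K,
      Complex.exp (((dotk (fun i => kk (g i)) t : ℝ) : ℂ) * Complex.I) =
        ∏ i, ZMod.stdAddChar (g i * (t i : ZMod K)) := by
    intro g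
    simp_rw [stdAddChar_kk]
    rw [← Complex.exp_sum]
    congr 1
    rw [dotk, Complex.ofReal_sum, Finset.sum_mul]
  simp_rw [h1]
  have h2 := Finset.prod_univ_sum (fun _ : ι => (Finset.univ : Finset (ZMod K)))
    (fun i (a : ZMod K) => (ZMod.stdAddChar (a * (t i : ZMod K)) : ℂ))
  rw [Fintype.piFinset_univ] at h2
  rw [← h2]
  have h3 : ∀ i, ∑ a : ZMod K, (ZMod.stdAddChar (a * (t i : ZMod K)) : ℂ) =
      if (K : ℤ) ∣ t i then (K : ℂ) else 0 := by
    intro i
    have := AddChar.sum_mulShift (R := ZMod K) (t i : ZMod K)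
      (ZMod.isPrimitive_stdAddChar K)
    rw [this]
    simp only [ZMod.intCast_zmod_eq_zero_iff_dvd, ZMod.card]
    split_ifs <;> simp
  simp_rw [h3]
  by_cases h : ∀ i, (K : ℤ) ∣ t i
  · rw [if_pos h]
    rw [Finset.prod_congr rfl (fun i _ => if_pos (h i))]
    simp
  · rw [if_neg h]
    push Not at h
    obtain ⟨i, hi⟩ := h
    exact Finset.prod_eq_zero (Finset.mem_univ i) (if_neg hi)

theorem sum_cos (K : ℕ) [NeZero K] (t : ι → ℤ) :
    ∑ g : ι → ZMod K, Real.cos (dotk (fun i => kk (g i)) t) =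
      if ∀ i, (K : ℤ) ∣ t i then ((K : ℝ)) ^ Fintype.card ι else 0 := by
  have h := congrArg Complex.re (sum_exp K t)
  rw [Complex.re_sum] at h
  simp_rw [Complex.exp_ofReal_mul_I_re] at h
  rw [h]
  split_ifs
  · rw [← Complex.ofReal_natCast, ← Complex.ofReal_pow, Complex.ofReal_re]
  · simp

/-- the box `[0,N)^ι` -/
noncomputable def box (ι : Type*) [Fintype ι] [DecidableEq ι] (N : ℕ) : Finset (ι → ℤ) :=
  Fintype.piFinset fun _ => Finset.Ico (0 : ℤ) N

theorem mem_box {N : ℕ} {x : ι → ℤ} : x ∈ box ι N ↔ ∀ i, 0 ≤ x i ∧ x i < N := by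
  simp [box]

/-- number of pairs in the box with prescribed difference, normalised -/
noncomputable def fej (N : ℕ) (x : ι → ℤ) : ℝ :=
  ((N : ℝ) ^ Fintype.card ι)⁻¹ * ∑ u ∈ box ι N, ∑ v ∈ box ι N, if u - v = x then (1 : ℝ) else 0

theorem one_dim_count (N : ℕ) (t : ℤ) (ht : |t| ≤ N) :
    ∑ a ∈ Finset.Ico (0 : ℤ) N, ∑ b ∈ Finset.Ico (0 : ℤ) N, (if a - b = t then (1 : ℝ) else 0) =
      N - |(t : ℝ)| := by
  have h1 : ∀ a ∈ Finset.Ico (0 : ℤ) N,
      ∑ b ∈ Finset.Ico (0 : ℤ) N, (if a - b = t then (1 : ℝ) else 0) =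
        if a ∈ Finset.Ico (max 0 t) (min (N : ℤ) (N + t)) then 1 else 0 := by
    intro a ha
    rw [Finset.mem_Ico] at ha
    have : ∀ b : ℤ, (a - b = t) ↔ (a - t = b) := fun b => by constructor <;> intro h <;> linarith
    simp_rw [this]
    rw [Finset.sum_ite_eq]
    simp only [Finset.mem_Ico]
    congr 1
    apply propext
    constructor
    · rintro ⟨h1, h2⟩
      exact ⟨by omega, by omega⟩
    · rintro ⟨h1, h2⟩
      exact ⟨by omega, by omega⟩
  rw [Finset.sum_congr rfl h1, ← Finset.sum_filter]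
  have h2 : Finset.filter (fun a => a ∈ Finset.Ico (max 0 t) (min (N : ℤ) (N + t)))
      (Finset.Ico (0 : ℤ) N) = Finset.Ico (max 0 t) (min (N : ℤ) (N + t)) := by
    ext a
    simp only [Finset.mem_filter, Finset.mem_Ico]
    constructor
    · rintro ⟨_, h⟩; exact h
    · intro h; exact ⟨⟨by omega, by omega⟩, h⟩
  rw [h2, Finset.sum_const, Int.card_Ico, nsmul_eq_mul, mul_one]
  have h3 : (((min (N : ℤ) (N + t) - max 0 t).toNat : ℕ) : ℤ) = N - |t| := by
    rw [Int.toNat_of_nonneg]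
    · rcases le_or_gt 0 t with h | h
      · rw [abs_of_nonneg h]; omega
      · rw [abs_of_neg h]; omega
    · rcases le_or_gt 0 t with h | h
      · rw [abs_of_nonneg h] at ht; omega
      · rw [abs_of_neg h] at ht; omega
  have h4 : (((min (N : ℤ) (N + t) - max 0 t).toNat : ℕ) : ℝ) = ((N - |t| : ℤ) : ℝ) := by
    exact_mod_cast h3
  rw [h4]
  push_cast
  ring

theorem fej_eq (N : ℕ) (x : ι → ℤ) (hx : ∀ i, |x i| ≤ N) (hN : 0 < N) :
    fej N x = ∏ i, (1 - |(x i : ℝ)| / N) := by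
  have hN' : (0 : ℝ) < N := by exact_mod_cast hN
  have h1 : ∑ u ∈ box ι N, ∑ v ∈ box ι N, (if u - v = x then (1 : ℝ) else 0) =
      ∏ i, ∑ a ∈ Finset.Ico (0 : ℤ) N, ∑ b ∈ Finset.Ico (0 : ℤ) N,
        (if a - b = x i then (1 : ℝ) else 0) := by
    rw [Finset.prod_univ_sum]
    apply Finset.sum_congr rfl
    intro u _
    rw [Finset.prod_univ_sum]
    apply Finset.sum_congr rfl
    intro v _
    by_cases h : u - v = x
    · rw [if_pos h]
      rw [Finset.prod_eq_one]
      intro i _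
      rw [if_pos]
      rw [← h]; rfl
    · rw [if_neg h]
      have : ∃ i, u i - v i ≠ x i := by
        by_contra hc
        push Not at hc
        exact h (funext hc)
      obtain ⟨i, hi⟩ := this
      rw [Finset.prod_eq_zero (Finset.mem_univ i)]
      rw [if_neg hi]
  rw [fej, h1, Finset.prod_congr rfl (fun i _ => one_dim_count N (x i) (hx i))]
  rw [← Finset.card_univ, ← Finset.prod_const, ← Finset.prod_inv_distrib, ← Finset.prod_mul_distrib]
  apply Finset.prod_congr rfl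
  intro i _
  field_simp

theorem fej_tendsto (x : ι → ℤ) : Tendsto (fun N => fej N x) atTop (𝓝 1) := by
  have h1 : Tendsto (fun N : ℕ => ∏ i, (1 - |(x i : ℝ)| / (N : ℝ))) atTop (𝓝 (∏ _i : ι, (1 : ℝ))) := by
    apply tendsto_finsetProd
    intro i _
    have : Tendsto (fun N : ℕ => |(x i : ℝ)| / (N : ℝ)) atTop (𝓝 0) :=
      tendsto_const_div_atTop_nhds_zero_nat _
    simpa using (tendsto_const_nhds (x := (1 : ℝ))).sub this
  rw [Finset.prod_const_one] at h1
  refine h1.congr' ?_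
  have hfin : ∀ i, ∀ᶠ N : ℕ in atTop, |x i| ≤ (N : ℤ) := by
    intro i
    filter_upwards [eventually_ge_atTop (|x i|).toNat] with N hN
    have : |x i| = (((|x i|).toNat : ℕ) : ℤ) := by
      rw [Int.toNat_of_nonneg (abs_nonneg _)]
    rw [this]
    exact_mod_cast hN
  filter_upwards [eventually_all.2 hfin, eventually_gt_atTop 0] with N hN hN0
  exact (fej_eq N x hN hN0).symm

/-! ### the theorem -/

/-- hypotheses: even, bounded, positive definite with both Hankel forms -/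
structure RPPos (c : (ι → ℤ) → ℕ → ℝ) : Prop where
  even : ∀ x j, c (-x) j = c x j
  bdd : ∃ C, ∀ x j, |c x j| ≤ C
  h0 : ∀ (s : Finset ((ι → ℤ) × ℕ)) (a : (ι → ℤ) × ℕ → ℝ),
    0 ≤ ∑ p ∈ s, ∑ q ∈ s, a p * a q * c (p.1 - q.1) (p.2 + q.2)
  h1 : ∀ (s : Finset ((ι → ℤ) × ℕ)) (a : (ι → ℤ) × ℕ → ℝ),
    0 ≤ ∑ p ∈ s, ∑ q ∈ s, a p * a q * c (p.1 - q.1) (p.2 + q.2 + 1)

/-- Fejér average of `c · j` at momentum `k` -/
noncomputable def cN (c : (ι → ℤ) → ℕ → ℝ) (N : ℕ) (k : ι → ℝ) (j : ℕ) : ℝ :=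
  ((N : ℝ) ^ Fintype.card ι)⁻¹ *
    ∑ u ∈ box ι N, ∑ v ∈ box ι N, c (u - v) j * Real.cos (dotk k (u - v))

variable {c : (ι → ℤ) → ℕ → ℝ}

theorem hankel_aux (N : ℕ) (k : ι → ℝ) (e : ℕ)
    (h : ∀ (s : Finset ((ι → ℤ) × ℕ)) (a : (ι → ℤ) × ℕ → ℝ),
      0 ≤ ∑ p ∈ s, ∑ q ∈ s, a p * a q * c (p.1 - q.1) (p.2 + q.2 + e))
    (s : Finset ℕ) (b : ℕ → ℝ) :
    0 ≤ ∑ i ∈ s, ∑ j ∈ s, b i * b j * cN c N k (i + j + e) := by
  have hA := h (box ι N ×ˢ s) (fun p => b p.2 * Real.cos (dotk k p.1))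
  have hB := h (box ι N ×ˢ s) (fun p => b p.2 * Real.sin (dotk k p.1))
  have key : ∑ i ∈ s, ∑ j ∈ s, b i * b j * cN c N k (i + j + e) =
      ((N : ℝ) ^ Fintype.card ι)⁻¹ *
      (∑ p ∈ box ι N ×ˢ s, ∑ q ∈ box ι N ×ˢ s, (b p.2 * Real.cos (dotk k p.1)) *
        (b q.2 * Real.cos (dotk k q.1)) * c (p.1 - q.1) (p.2 + q.2 + e) +
      ∑ p ∈ box ι N ×ˢ s, ∑ q ∈ box ι N ×ˢ s, (b p.2 * Real.sin (dotk k p.1)) *
        (b q.2 * Real.sin (dotk k q.1)) * c (p.1 - q.1) (p.2 + q.2 + e)) := by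
    rw [← Finset.sum_add_distrib]
    simp_rw [← Finset.sum_add_distrib]
    rw [Finset.sum_product_right]
    rw [Finset.mul_sum]
    apply Finset.sum_congr rfl
    intro i _
    simp_rw [Finset.sum_product_right]
    rw [Finset.sum_comm, Finset.mul_sum]
    apply Finset.sum_congr rfl
    intro j _
    rw [cN, ← mul_assoc, mul_comm (b i * b j), mul_assoc, Finset.mul_sum]
    congr 1
    apply Finset.sum_congr rfl
    intro u _
    rw [Finset.mul_sum]
    apply Finset.sum_congr rfl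
    intro v _
    rw [dotk_sub, Real.cos_sub]
    ring
  rw [key]
  exact mul_nonneg (by positivity) (add_nonneg hA hB)

theorem RPPos.exists_m (h : RPPos c) (N : ℕ) (k : ι → ℝ) : ∃ μ : FiniteMeasure I,
    ∀ j : ℕ, ∫ x : I, (x : ℝ) ^ j ∂(μ : Measure I) = cN c N k j := by
  obtain ⟨C, hC⟩ := h.bdd
  apply hausdorff (cN c N k)
    (((N : ℝ) ^ Fintype.card ι)⁻¹ * ∑ u ∈ box ι N, ∑ v ∈ box ι N, C)
  · intro j
    rw [cN, abs_mul, abs_of_nonneg (by positivity : (0 : ℝ) ≤ ((N : ℝ) ^ Fintype.card ι)⁻¹)]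
    apply mul_le_mul_of_nonneg_left _ (by positivity)
    refine (Finset.abs_sum_le_sum_abs _ _).trans (Finset.sum_le_sum fun u _ => ?_)
    refine (Finset.abs_sum_le_sum_abs _ _).trans (Finset.sum_le_sum fun v _ => ?_)
    rw [abs_mul]
    calc |c (u - v) j| * |Real.cos (dotk k (u - v))| ≤ C * 1 :=
          mul_le_mul (hC _ _) (Real.abs_cos_le_one _) (abs_nonneg _)
            ((abs_nonneg _).trans (hC (u - v) j))
      _ = C := mul_one C
  · intro s b
    exact hankel_aux N k 0 h.h0 s b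
  · intro s b
    exact hankel_aux N k 1 h.h1 s b

/-- the interval `[-π, π]` -/
abbrev KI : Set ℝ := Set.Icc (-Real.pi) Real.pi

/-- grid point as an element of the compact box -/
noncomputable def gpt {K : ℕ} [NeZero K] (g : ι → ZMod K) : ι → KI :=
  fun i => ⟨kk (g i), abs_le.1 (abs_kk_le (g i))⟩

/-- approximating measure -/
noncomputable def muN (h : RPPos c) (N : ℕ) : Measure ((ι → KI) × I) :=
  ∑ g : ι → ZMod (2 * (N + 1)),
    ENNReal.ofReal ((((2 * (N + 1) : ℕ) : ℝ) ^ Fintype.card ι)⁻¹) •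
      Measure.map (fun τ : I => ((gpt g : ι → KI), τ))
        ((h.exists_m (N + 1) (fun i => kk (g i))).choose : Measure I)

instance (h : RPPos c) (N : ℕ) : IsFiniteMeasure (muN h N) := by
  unfold muN
  constructor
  rw [Measure.finsetSum_apply]
  simp only [Measure.smul_apply, smul_eq_mul]
  refine ENNReal.sum_lt_top.2 (fun g _ => ENNReal.mul_lt_top ENNReal.ofReal_lt_top ?_)
  exact measure_lt_top _ _

theorem muN_integral (h : RPPos c) (N : ℕ) (f : C((ι → KI) × I, ℝ)) :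
    ∫ p, f p ∂(muN h N) = (((2 * (N + 1) : ℕ) : ℝ) ^ Fintype.card ι)⁻¹ *
      ∑ g : ι → ZMod (2 * (N + 1)),
        ∫ τ : I, f (gpt g, τ) ∂((h.exists_m (N + 1) (fun i => kk (g i))).choose : Measure I) := by
  unfold muN
  rw [integral_finsetSum_measure]
  · rw [Finset.mul_sum]
    apply Finset.sum_congr rfl
    intro g _
    rw [integral_smul_measure, ENNReal.toReal_ofReal (by positivity), smul_eq_mul]
    congr 1
    rw [integral_map]
    · exact (by fun_prop : Measurable fun τ : I => ((gpt g : ι → KI), τ)).aemeasurable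
    · exact f.continuous.aestronglyMeasurable
  · intro g _
    apply Integrable.smul_measure _ ENNReal.ofReal_ne_top
    refine Integrable.of_bound (C := ‖f‖) f.continuous.aestronglyMeasurable ?_
    exact Eventually.of_forall fun p => f.norm_coe_le_norm p

/-- test function `cos (k·x) τ^j` -/
noncomputable def testF (x : ι → ℤ) (j : ℕ) : C((ι → KI) × I, ℝ) :=
  ⟨fun p => Real.cos (dotk (fun i => (p.1 i : ℝ)) x) * (p.2 : ℝ) ^ j, by
    unfold dotk; fun_prop⟩

theorem grid_id (h : RPPos c) (N : ℕ) (x : ι → ℤ) (j : ℕ) (hx : ∀ i, |x i| < (N + 1 : ℤ)) :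
    (((2 * (N + 1) : ℕ) : ℝ) ^ Fintype.card ι)⁻¹ *
      ∑ g : ι → ZMod (2 * (N + 1)), Real.cos (dotk (fun i => kk (g i)) x) *
        cN c (N + 1) (fun i => kk (g i)) j = fej (N + 1) x * c x j := by
  set K : ℕ := 2 * (N + 1) with hK
  have hKpos : (0 : ℝ) < (K : ℝ) ^ Fintype.card ι := by
    have : (0 : ℝ) < K := by rw [hK]; positivity
    positivity
  have h1 : ∑ g : ι → ZMod K, Real.cos (dotk (fun i => kk (g i)) x) *
        cN c (N + 1) (fun i => kk (g i)) j =
      (((N + 1 : ℕ) : ℝ) ^ Fintype.card ι)⁻¹ *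
        ∑ u ∈ box ι (N + 1), ∑ v ∈ box ι (N + 1), c (u - v) j *
          ((∑ g : ι → ZMod K, Real.cos (dotk (fun i => kk (g i)) (u - v + x)) +
            ∑ g : ι → ZMod K, Real.cos (dotk (fun i => kk (g i)) (u - v - x))) / 2) := by
    have : ∀ g : ι → ZMod K, Real.cos (dotk (fun i => kk (g i)) x) *
        cN c (N + 1) (fun i => kk (g i)) j = (((N + 1 : ℕ) : ℝ) ^ Fintype.card ι)⁻¹ *
        ∑ u ∈ box ι (N + 1), ∑ v ∈ box ι (N + 1), c (u - v) j *
          ((Real.cos (dotk (fun i => kk (g i)) (u - v + x)) +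
            Real.cos (dotk (fun i => kk (g i)) (u - v - x))) / 2) := by
      intro g
      rw [cN, mul_left_comm, Finset.mul_sum]
      congr 1
      apply Finset.sum_congr rfl
      intro u _
      rw [Finset.mul_sum]
      apply Finset.sum_congr rfl
      intro v _
      rw [dotk_add, dotk_sub _ (u - v) x, Real.cos_add, Real.cos_sub]
      ring
    rw [Finset.sum_congr rfl (fun g _ => this g), ← Finset.mul_sum, Finset.sum_comm]
    congr 1
    apply Finset.sum_congr rfl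
    intro u _
    rw [Finset.sum_comm]
    apply Finset.sum_congr rfl
    intro v _
    rw [← Finset.mul_sum, ← Finset.sum_div, Finset.sum_add_distrib]
  rw [h1]
  have h2 : ∀ u ∈ box ι (N + 1), ∀ v ∈ box ι (N + 1), c (u - v) j *
          ((∑ g : ι → ZMod K, Real.cos (dotk (fun i => kk (g i)) (u - v + x)) +
            ∑ g : ι → ZMod K, Real.cos (dotk (fun i => kk (g i)) (u - v - x))) / 2) =
        (K : ℝ) ^ Fintype.card ι * (c x j *
          (((if v - u = x then (1 : ℝ) else 0) + (if u - v = x then (1 : ℝ) else 0)) / 2)) := by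
    intro u hu v hv
    rw [mem_box] at hu hv
    have hdiv : ∀ w : ι → ℤ, (∀ i, |w i| < (K : ℤ)) → ((∀ i, (K : ℤ) ∣ w i) ↔ w = 0) := by
      intro w hw
      constructor
      · intro hd
        funext i
        exact Int.eq_zero_of_abs_lt_dvd (hd i) (hw i)
      · rintro rfl i
        exact dvd_zero _
    have hw1 : ∀ i, |(u - v + x) i| < (K : ℤ) := by
      intro i
      have := hu i; have := hv i; have := hx i
      rw [abs_lt] at *
      simp only [Pi.add_apply, Pi.sub_apply, hK]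
      push_cast at *
      constructor <;> linarith
    have hw2 : ∀ i, |(u - v - x) i| < (K : ℤ) := by
      intro i
      have := hu i; have := hv i; have := hx i
      rw [abs_lt] at *
      simp only [Pi.sub_apply, hK]
      push_cast at *
      constructor <;> linarith
    rw [sum_cos, sum_cos]
    have e1 : (∀ i, (K : ℤ) ∣ (u - v + x) i) ↔ v - u = x := by
      rw [hdiv _ hw1]
      constructor
      · intro h; rw [← sub_eq_zero]; rw [← neg_eq_zero]; rw [← h]; abel
      · rintro rfl; abel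
    have e2 : (∀ i, (K : ℤ) ∣ (u - v - x) i) ↔ u - v = x := by
      rw [hdiv _ hw2, sub_eq_zero]
    simp only [e1, e2]
    by_cases c1 : v - u = x
    · by_cases c2 : u - v = x
      · rw [if_pos c1, if_pos c1, if_pos c2, if_pos c2, c2]; ring
      · rw [if_pos c1, if_pos c1, if_neg c2, if_neg c2]
        have : u - v = -x := by rw [← c1]; abel
        rw [this, h.even]; ring
    · by_cases c2 : u - v = x
      · rw [if_neg c1, if_neg c1, if_pos c2, if_pos c2, c2]; ring
      · rw [if_neg c1, if_neg c1, if_neg c2, if_neg c2]; ring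
  rw [Finset.sum_congr rfl (fun u hu => Finset.sum_congr rfl (fun v hv => h2 u hu v hv))]
  simp_rw [← Finset.mul_sum]
  have h3 : ∑ u ∈ box ι (N + 1), ∑ v ∈ box ι (N + 1),
      ((if v - u = x then (1 : ℝ) else 0) + (if u - v = x then (1 : ℝ) else 0)) / 2 =
      ∑ u ∈ box ι (N + 1), ∑ v ∈ box ι (N + 1), (if u - v = x then (1 : ℝ) else 0) := by
    simp_rw [← Finset.sum_div, Finset.sum_add_distrib]
    rw [Finset.sum_comm (f := fun u v => if v - u = x then (1 : ℝ) else 0)]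
    ring
  rw [h3, fej, ← mul_assoc, ← mul_assoc, ← mul_assoc]
  have hne : (K : ℝ) ^ Fintype.card ι ≠ 0 := hKpos.ne'
  have hcancel : ((K : ℝ) ^ Fintype.card ι)⁻¹ * (((N + 1 : ℕ) : ℝ) ^ Fintype.card ι)⁻¹ *
      (K : ℝ) ^ Fintype.card ι = (((N + 1 : ℕ) : ℝ) ^ Fintype.card ι)⁻¹ := by
    rw [mul_comm, ← mul_assoc, mul_inv_cancel₀ hne, one_mul]
  rw [hcancel]
  ring

/-- **Joint spectral representation.** -/
theorem joint (h : RPPos c) : ∃ ν : FiniteMeasure ((ι → KI) × I),
    ∀ x j, ∫ p : (ι → KI) × I, Real.cos (dotk (fun i => (p.1 i : ℝ)) x) * (p.2 : ℝ) ^ j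
      ∂(ν : Measure ((ι → KI) × I)) = c x j := by
  have hval : ∀ (N : ℕ) (x : ι → ℤ) (j : ℕ), (∀ i, |x i| < (N + 1 : ℤ)) →
      ∫ p, testF x j p ∂(muN h N) = fej (N + 1) x * c x j := by
    intro N x j hx
    rw [muN_integral, ← grid_id h N x j hx]
    congr 1
    apply Finset.sum_congr rfl
    intro g _
    have := (h.exists_m (N + 1) (fun i => kk (g i))).choose_spec j
    rw [← this, ← integral_const_mul]
    rfl
  have hfej0 : ∀ N : ℕ, fej (N + 1) (0 : ι → ℤ) = 1 := by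
    intro N
    rw [fej_eq _ _ (by intro i; simp; positivity) (by omega)]
    simp
  have hmass : ∀ N, (muN h N) Set.univ = ENNReal.ofReal (c 0 0) := by
    intro N
    have h1 := hval N 0 0 (by intro i; simp only [Pi.zero_apply, abs_zero]; positivity)
    rw [hfej0, one_mul] at h1
    have h2 : ∀ p : (ι → KI) × I, testF (0 : ι → ℤ) 0 p = 1 := by
      intro p
      show Real.cos (dotk _ 0) * _ ^ 0 = 1
      simp [dotk]
    rw [integral_congr_ae (Eventually.of_forall h2), integral_const, smul_eq_mul, mul_one] at h1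
    rw [← h1, Measure.real, ENNReal.ofReal_toReal (measure_ne_top _ _)]
  obtain ⟨ν, -, hν⟩ := exists_limit (E := (ι → KI) × I) (fun N => ⟨muN h N, inferInstance⟩)
    (Real.toNNReal (c 0 0)) (fun N => by
      show ((muN h N) Set.univ).toNNReal = _
      rw [hmass]; rfl)
  refine ⟨ν, fun x j => ?_⟩
  refine hν (testF x j) (c x j) ?_
  have hlim : Tendsto (fun N => fej (N + 1) x * c x j) atTop (𝓝 (1 * c x j)) :=
    ((fej_tendsto x).comp (tendsto_add_atTop_nat 1)).mul_const _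
  rw [one_mul] at hlim
  refine hlim.congr' ?_
  have hfin : ∀ i, ∀ᶠ N : ℕ in atTop, |x i| < (N + 1 : ℤ) := by
    intro i
    filter_upwards [eventually_ge_atTop (|x i|).toNat] with N hN
    have : |x i| = (((|x i|).toNat : ℕ) : ℤ) := by
      rw [Int.toNat_of_nonneg (abs_nonneg _)]
    rw [this]
    have : (((|x i|).toNat : ℕ) : ℤ) ≤ N := by exact_mod_cast hN
    linarith
  filter_upwards [eventually_all.2 hfin] with N hN
  exact (hval N x j hN).symm

end Vale.Agent.P153.RP
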