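import Mathlib

/-!
# Almost invariant functionals of a system whose even functionals mix
-/

open MeasureTheory Filter Topology

namespace Vale.Agent.P153.RP

theorem abs_integral_le_sqrt {Ω : Type*} [MeasurableSpace Ω] (P : Measure Ω) [IsProbabilityMeasure P]
    {f : Ω → ℝ} (hf : Measurable f) {M : ℝ} (hM : ∀ ω, |f ω| ≤ M) {ε : ℝ} (h : ∫ ω, f ω ^ 2 ∂P ≤ ε) :
    ∫ ω, |f ω| ∂P ≤ √ε := by
  have hi : Integrable (fun ω => |f ω|) P :=
    Integrable.of_bound (C := M) hf.abs.aestronglyMeasurable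
      (Eventually.of_forall fun ω => by rw [Real.norm_eq_abs, abs_abs]; exact hM ω)
  have hi2 : Integrable (fun ω => f ω ^ 2) P :=
    Integrable.of_bound (C := M ^ 2) (hf.pow_const 2).aestronglyMeasurable
      (Eventually.of_forall fun ω => by
        rw [Real.norm_eq_abs, abs_pow]; exact pow_le_pow_left₀ (abs_nonneg _) (hM ω) 2)
  set m := ∫ ω, |f ω| ∂P with hm
  have hm0 : 0 ≤ m := integral_nonneg fun ω => abs_nonneg _
  have h1 : 0 ≤ ∫ ω, (|f ω| - m) ^ 2 ∂P := integral_nonneg fun ω => sq_nonneg _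
  have h2 : ∫ ω, (|f ω| - m) ^ 2 ∂P = ∫ ω, f ω ^ 2 ∂P - m ^ 2 := by
    have e : ∀ ω, (|f ω| - m) ^ 2 = f ω ^ 2 - 2 * m * |f ω| + m ^ 2 := by
      intro ω
      rw [sub_sq, sq_abs]; ring
    simp_rw [e]
    have i1 : Integrable (fun ω => 2 * m * |f ω|) P := hi.const_mul _
    have i2 : Integrable (fun ω => f ω ^ 2 - 2 * m * |f ω|) P := hi2.sub i1
    rw [integral_add i2 (integrable_const _), integral_sub hi2 i1,
      integral_const_mul, integral_const]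
    simp only [probReal_univ, smul_eq_mul, one_mul]
    rw [← hm]
    ring
  rw [h2] at h1
  apply Real.le_sqrt_of_sq_le
  linarith

/-- the product of two almost invariant functionals is almost constant -/
theorem prod_ineq {Ω : Type*} [MeasurableSpace Ω] (P : Measure Ω) [IsProbabilityMeasure P]
    (T : ℕ → Ω → Ω) (hT : ∀ n, Measurable (T n)) {X Y : Ω → ℝ} (hX : Measurable X) (hY : Measurable Y)
    {M ε : ℝ} (hM : 0 ≤ M) (hXM : ∀ ω, |X ω| ≤ M) (hYM : ∀ ω, |Y ω| ≤ M)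
    (hDX : ∀ n, ∫ ω, (X (T n ω) - X ω) ^ 2 ∂P ≤ ε) (hDY : ∀ n, ∫ ω, (Y (T n ω) - Y ω) ^ 2 ∂P ≤ ε)
    (hmix : Tendsto (fun n => ∫ ω, (X ω * Y ω) * (X (T n ω) * Y (T n ω)) ∂P) atTop
      (𝓝 ((∫ ω, X ω * Y ω ∂P) * ∫ ω, X ω * Y ω ∂P))) :
    ∫ ω, (X ω * Y ω) ^ 2 ∂P ≤ (∫ ω, X ω * Y ω ∂P) ^ 2 + 2 * M ^ 3 * √ε := by
  have hb : ∀ {f : Ω → ℝ} {K : ℝ}, Measurable f → (∀ ω, |f ω| ≤ K) → Integrable f P := by
    intro f K hf hK
    exact Integrable.of_bound (C := K) hf.aestronglyMeasurable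
      (Eventually.of_forall fun ω => by rw [Real.norm_eq_abs]; exact hK ω)
  have key : ∀ n, ∫ ω, (X ω * Y ω) ^ 2 ∂P ≤
      ∫ ω, (X ω * Y ω) * (X (T n ω) * Y (T n ω)) ∂P + 2 * M ^ 3 * √ε := by
    intro n
    have hXT : Measurable fun ω => X (T n ω) := hX.comp (hT n)
    have hYT : Measurable fun ω => Y (T n ω) := hY.comp (hT n)
    have hXD : Measurable fun ω => X (T n ω) - X ω := hXT.sub hX
    have hYD : Measurable fun ω => Y (T n ω) - Y ω := hYT.sub hY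
    have h1 : ∫ ω, |X (T n ω) - X ω| ∂P ≤ √ε :=
      abs_integral_le_sqrt P hXD (M := 2 * M) (fun ω => by
        have := abs_sub (X (T n ω)) (X ω)
        have a := hXM ω
        have b := hXM (T n ω)
        linarith) (hDX n)
    have h2 : ∫ ω, |Y (T n ω) - Y ω| ∂P ≤ √ε :=
      abs_integral_le_sqrt P hYD (M := 2 * M) (fun ω => by
        have := abs_sub (Y (T n ω)) (Y ω)
        have a := hYM ω
        have b := hYM (T n ω)
        linarith) (hDY n)
    have hpt : ∀ ω, (X ω * Y ω) ^ 2 ≤ (X ω * Y ω) * (X (T n ω) * Y (T n ω)) +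
        M ^ 3 * (|X (T n ω) - X ω| + |Y (T n ω) - Y ω|) := by
      intro ω
      have e : (X ω * Y ω) ^ 2 = (X ω * Y ω) * (X (T n ω) * Y (T n ω)) -
          (X ω * Y ω) * ((X (T n ω) - X ω) * Y (T n ω)) - (X ω * Y ω) * (X ω * (Y (T n ω) - Y ω)) := by
        ring
      have b1 : -((X ω * Y ω) * ((X (T n ω) - X ω) * Y (T n ω))) ≤ M ^ 3 * |X (T n ω) - X ω| := by
        refine (neg_le_abs _).trans ?_
        rw [abs_mul, abs_mul, abs_mul]
        calc |X ω| * |Y ω| * (|X (T n ω) - X ω| * |Y (T n ω)|) ≤ M * M * (|X (T n ω) - X ω| * M) := by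
              gcongr
              · exact hXM ω
              · exact hYM ω
              · exact hYM _
          _ = M ^ 3 * |X (T n ω) - X ω| := by ring
      have b2 : -((X ω * Y ω) * (X ω * (Y (T n ω) - Y ω))) ≤ M ^ 3 * |Y (T n ω) - Y ω| := by
        refine (neg_le_abs _).trans ?_
        rw [abs_mul, abs_mul, abs_mul]
        calc |X ω| * |Y ω| * (|X ω| * |Y (T n ω) - Y ω|) ≤ M * M * (M * |Y (T n ω) - Y ω|) := by
              gcongr
              · exact hXM ω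
              · exact hYM ω
              · exact hXM ω
          _ = M ^ 3 * |Y (T n ω) - Y ω| := by ring
      rw [e]
      linarith
    have hi1 : Integrable (fun ω => |X (T n ω) - X ω|) P := hb hXD.abs (K := 2 * M) (fun ω => by
        rw [abs_abs]
        have := abs_sub (X (T n ω)) (X ω)
        have a := hXM ω
        have b := hXM (T n ω)
        linarith)
    have hi2 : Integrable (fun ω => |Y (T n ω) - Y ω|) P := hb hYD.abs (K := 2 * M) (fun ω => by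
        rw [abs_abs]
        have := abs_sub (Y (T n ω)) (Y ω)
        have a := hYM ω
        have b := hYM (T n ω)
        linarith)
    have hi3 : Integrable (fun ω => (X ω * Y ω) * (X (T n ω) * Y (T n ω))) P :=
      hb ((hX.mul hY).mul (hXT.mul hYT)) (K := (M * M) * (M * M)) (fun ω => by
        rw [abs_mul, abs_mul, abs_mul]
        gcongr
        · exact hXM ω
        · exact hYM ω
        · exact hXM _
        · exact hYM _)
    have hi4 : Integrable (fun ω => (X ω * Y ω) ^ 2) P :=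
      hb ((hX.mul hY).pow_const 2) (K := (M * M) ^ 2) (fun ω => by
        rw [abs_pow, abs_mul]
        gcongr
        · exact hXM ω
        · exact hYM ω)
    have hi5 : Integrable (fun ω => |X (T n ω) - X ω| + |Y (T n ω) - Y ω|) P := hi1.add hi2
    have hi6 : Integrable (fun ω => M ^ 3 * (|X (T n ω) - X ω| + |Y (T n ω) - Y ω|)) P :=
      hi5.const_mul _
    calc ∫ ω, (X ω * Y ω) ^ 2 ∂P ≤ ∫ ω, ((X ω * Y ω) * (X (T n ω) * Y (T n ω)) +
        M ^ 3 * (|X (T n ω) - X ω| + |Y (T n ω) - Y ω|)) ∂P :=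
          integral_mono hi4 (hi3.add hi6) hpt
      _ = ∫ ω, (X ω * Y ω) * (X (T n ω) * Y (T n ω)) ∂P +
          M ^ 3 * (∫ ω, |X (T n ω) - X ω| ∂P + ∫ ω, |Y (T n ω) - Y ω| ∂P) := by
          rw [integral_add hi3 hi6, integral_const_mul, integral_add hi1 hi2]
      _ ≤ _ := by
          have : M ^ 3 * (∫ ω, |X (T n ω) - X ω| ∂P + ∫ ω, |Y (T n ω) - Y ω| ∂P) ≤ M ^ 3 * (√ε + √ε) := by
            gcongr
          linarith
  refine le_of_tendsto_of_tendsto tendsto_const_nhds (hmix.add_const (2 * M ^ 3 * √ε)) ?_ |>.trans_eq ?_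
  · exact Eventually.of_forall key
  · ring

/-- **key inequality** -/
theorem sq_ineq {Ω : Type*} [MeasurableSpace Ω] (P : Measure Ω) [IsProbabilityMeasure P]
    (T : ℕ → Ω → Ω) (hT : ∀ n, Measurable (T n)) {X Y : Ω → ℝ} (hX : Measurable X) (hY : Measurable Y)
    {M ε : ℝ} (hM : 0 ≤ M) (hXM : ∀ ω, |X ω| ≤ M) (hYM : ∀ ω, |Y ω| ≤ M)
    (hDX : ∀ n, ∫ ω, (X (T n ω) - X ω) ^ 2 ∂P ≤ ε) (hDY : ∀ n, ∫ ω, (Y (T n ω) - Y ω) ^ 2 ∂P ≤ ε)
    (hXY : Tendsto (fun n => ∫ ω, (X ω * Y ω) * (X (T n ω) * Y (T n ω)) ∂P) atTop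
      (𝓝 ((∫ ω, X ω * Y ω ∂P) * ∫ ω, X ω * Y ω ∂P)))
    (hXX : Tendsto (fun n => ∫ ω, (X ω * X ω) * (X (T n ω) * X (T n ω)) ∂P) atTop
      (𝓝 ((∫ ω, X ω * X ω ∂P) * ∫ ω, X ω * X ω ∂P)))
    (hYY : Tendsto (fun n => ∫ ω, (Y ω * Y ω) * (Y (T n ω) * Y (T n ω)) ∂P) atTop
      (𝓝 ((∫ ω, Y ω * Y ω ∂P) * ∫ ω, Y ω * Y ω ∂P))) :
    (∫ ω, X ω * X ω ∂P) * (∫ ω, Y ω * Y ω ∂P) ≤ (∫ ω, X ω * Y ω ∂P) ^ 2 + 4 * M ^ 3 * √ε := by
  have h1 := prod_ineq P T hT hX hY hM hXM hYM hDX hDY hXY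
  have h2 := prod_ineq P T hT hX hX hM hXM hXM hDX hDX hXX
  have h3 := prod_ineq P T hT hY hY hM hYM hYM hDY hDY hYY
  have hb : ∀ {f : Ω → ℝ} {K : ℝ}, Measurable f → (∀ ω, |f ω| ≤ K) → Integrable f P := by
    intro f K hf hK
    exact Integrable.of_bound (C := K) hf.aestronglyMeasurable
      (Eventually.of_forall fun ω => by rw [Real.norm_eq_abs]; exact hK ω)
  set a := ∫ ω, X ω * X ω ∂P with ha
  set b := ∫ ω, Y ω * Y ω ∂P with hb'
  have hiX : Integrable (fun ω => X ω * X ω) P := hb (hX.mul hX) (K := M * M) (fun ω => by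
    rw [abs_mul]; gcongr <;> exact hXM ω)
  have hiY : Integrable (fun ω => Y ω * Y ω) P := hb (hY.mul hY) (K := M * M) (fun ω => by
    rw [abs_mul]; gcongr <;> exact hYM ω)
  have hiXX : Integrable (fun ω => (X ω * X ω) ^ 2) P := hb ((hX.mul hX).pow_const 2) (K := (M * M) ^ 2)
    (fun ω => by rw [abs_pow, abs_mul]; gcongr <;> exact hXM ω)
  have hiYY : Integrable (fun ω => (Y ω * Y ω) ^ 2) P := hb ((hY.mul hY).pow_const 2) (K := (M * M) ^ 2)
    (fun ω => by rw [abs_pow, abs_mul]; gcongr <;> exact hYM ω)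
  have hiXY : Integrable (fun ω => (X ω * Y ω) ^ 2) P := hb ((hX.mul hY).pow_const 2) (K := (M * M) ^ 2)
    (fun ω => by
      rw [abs_pow, abs_mul]
      gcongr
      · exact hXM ω
      · exact hYM ω)
  have h4 : 0 ≤ ∫ ω, ((X ω * X ω - a) + (Y ω * Y ω - b)) ^ 2 ∂P := integral_nonneg fun ω => sq_nonneg _
  have h5 : ∫ ω, ((X ω * X ω - a) + (Y ω * Y ω - b)) ^ 2 ∂P =
      ∫ ω, (X ω * X ω) ^ 2 ∂P + ∫ ω, (Y ω * Y ω) ^ 2 ∂P + 2 * ∫ ω, (X ω * Y ω) ^ 2 ∂P -
        2 * (a + b) * (a + b) + (a + b) ^ 2 := by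
    have e : ∀ ω, ((X ω * X ω - a) + (Y ω * Y ω - b)) ^ 2 = (X ω * X ω) ^ 2 + (Y ω * Y ω) ^ 2 +
        2 * (X ω * Y ω) ^ 2 - 2 * (a + b) * (X ω * X ω + Y ω * Y ω) + (a + b) ^ 2 := by
      intro ω; ring
    simp_rw [e]
    have i1 : Integrable (fun ω => (X ω * X ω) ^ 2 + (Y ω * Y ω) ^ 2) P := hiXX.add hiYY
    have i2 : Integrable (fun ω => 2 * (X ω * Y ω) ^ 2) P := hiXY.const_mul _
    have i3 : Integrable (fun ω => (X ω * X ω) ^ 2 + (Y ω * Y ω) ^ 2 + 2 * (X ω * Y ω) ^ 2) P :=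
      i1.add i2
    have i4 : Integrable (fun ω => X ω * X ω + Y ω * Y ω) P := hiX.add hiY
    have i5 : Integrable (fun ω => 2 * (a + b) * (X ω * X ω + Y ω * Y ω)) P := i4.const_mul _
    have i6 : Integrable (fun ω => (X ω * X ω) ^ 2 + (Y ω * Y ω) ^ 2 + 2 * (X ω * Y ω) ^ 2 -
      2 * (a + b) * (X ω * X ω + Y ω * Y ω)) P := i3.sub i5
    rw [integral_add i6 (integrable_const _), integral_sub i3 i5, integral_add i1 i2,
      integral_add hiXX hiYY, integral_const_mul, integral_const_mul, integral_add hiX hiY,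
      integral_const]
    simp only [probReal_univ, smul_eq_mul, one_mul]
    rw [← ha, ← hb']
  rw [h5] at h4
  nlinarith [h1, h2, h3, h4]

end Vale.Agent.P153.RP
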