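import Vale.Agent.P153.RP.Phi
import Vale.Agent.P153.RP.NullAbs
import Vale.Agent.P153.GFF.Interface

/-!
# Null lines of the spectral measures, from mixing of even functionals
-/

open MeasureTheory Filter Topology UnitAddTorus
open scoped NNReal ENNReal

namespace Vale.Agent.P153.RP

open Vale.Agent.P153.GFF (Plane var2 shift Adj)

/-! ### Fejér kernels -/

/-- Fejér kernel in direction `v` -/
noncomputable def FN (N : ℕ) (v : Fin 2 → ℤ) (θ : UnitAddTorus (Fin 2)) : ℝ :=
  ((N : ℝ)⁻¹) ^ 2 * ∑ a ∈ Finset.range N, ∑ b ∈ Finset.range N, cs (((a : ℤ) - b) • v) θ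

theorem FN_eq (N : ℕ) (v : Fin 2 → ℤ) (θ : UnitAddTorus (Fin 2)) :
    FN N v θ = ‖(N : ℂ)⁻¹ * ∑ a ∈ Finset.range N, (mFourier v θ) ^ a‖ ^ 2 := by
  have hpow : ∀ a : ℕ, mFourier ((a : ℤ) • v) θ = (mFourier v θ) ^ a := by
    intro a
    induction a with
    | zero => simp [mFourier_zero]
    | succ a ih =>
      rw [pow_succ, ← ih, ← mFourier_add]
      congr 1
      push_cast
      rw [add_smul, one_smul]
  have hcs : ∀ a b : ℕ, cs (((a : ℤ) - b) • v) θ =
      ((mFourier v θ) ^ a * (starRingEnd ℂ) ((mFourier v θ) ^ b)).re := by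
    intro a b
    rw [cs, sub_smul, sub_eq_add_neg, mFourier_add, mFourier_neg, hpow, hpow]
  unfold FN
  simp_rw [hcs]
  rw [norm_mul, mul_pow, ← Complex.normSq_eq_norm_sq (∑ a ∈ Finset.range N, (mFourier v θ) ^ a)]
  have h1 : ((Complex.normSq (∑ a ∈ Finset.range N, (mFourier v θ) ^ a) : ℝ) : ℂ) =
      ∑ a ∈ Finset.range N, ∑ b ∈ Finset.range N,
        ((mFourier v θ) ^ a * (starRingEnd ℂ) ((mFourier v θ) ^ b)) := by
    rw [← Complex.mul_conj, map_sum, Finset.sum_mul_sum]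
  have h2 := congrArg Complex.re h1
  rw [Complex.ofReal_re, Complex.re_sum] at h2
  rw [h2]
  simp_rw [Complex.re_sum]
  congr 1
  rw [norm_inv, Complex.norm_natCast]

theorem norm_mF (v : Fin 2 → ℤ) (θ : UnitAddTorus (Fin 2)) : ‖mFourier v θ‖ ≤ 1 := by
  refine ((mFourier v).norm_coe_le_norm θ).trans ?_
  rw [mFourier_norm]

theorem FN_nonneg (N : ℕ) (v : Fin 2 → ℤ) (θ : UnitAddTorus (Fin 2)) : 0 ≤ FN N v θ := by
  rw [FN_eq]; positivity

theorem FN_le (N : ℕ) (v : Fin 2 → ℤ) (θ : UnitAddTorus (Fin 2)) : FN N v θ ≤ 1 := by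
  rw [FN_eq]
  have h1 : ‖(N : ℂ)⁻¹ * ∑ a ∈ Finset.range N, (mFourier v θ) ^ a‖ ≤ 1 := by
    rw [norm_mul, norm_inv, Complex.norm_natCast]
    rcases Nat.eq_zero_or_pos N with rfl | hN
    · simp
    · have hN' : (0 : ℝ) < N := by exact_mod_cast hN
      rw [inv_mul_le_iff₀ hN', mul_one]
      refine (norm_sum_le _ _).trans ?_
      refine (Finset.sum_le_sum (g := fun _ => (1 : ℝ)) fun a _ => ?_).trans ?_
      · rw [norm_pow]; exact pow_le_one₀ (norm_nonneg _) (norm_mF v θ)
      · simp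
  exact pow_le_one₀ (norm_nonneg _) h1

theorem FN_continuous (N : ℕ) (v : Fin 2 → ℤ) : Continuous (FN N v) := by
  unfold FN
  exact continuous_const.mul (continuous_finsetSum _ fun a _ => continuous_finsetSum _ fun b _ =>
    cs_continuous _)

theorem FN_tendsto (v : Fin 2 → ℤ) (θ : UnitAddTorus (Fin 2)) :
    Tendsto (fun N : ℕ => FN N v θ) atTop (𝓝 (if mFourier v θ = 1 then 1 else 0)) := by
  by_cases h1 : mFourier v θ = 1
  · rw [if_pos h1]
    refine tendsto_const_nhds.congr' ?_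
    filter_upwards [eventually_gt_atTop 0] with N hN
    have : (N : ℂ) ≠ 0 := by exact_mod_cast hN.ne'
    rw [FN_eq, h1]
    simp [this]
  · rw [if_neg h1]
    have hne : mFourier v θ - 1 ≠ 0 := sub_ne_zero.2 h1
    have hb : ∀ N : ℕ, FN N v θ ≤ ((N : ℝ)⁻¹ * (2 / ‖mFourier v θ - 1‖)) ^ 2 := by
      intro N
      rw [FN_eq, norm_mul, norm_inv, Complex.norm_natCast]
      apply pow_le_pow_left₀ (by positivity)
      apply mul_le_mul_of_nonneg_left _ (by positivity)
      rw [geom_sum_eq h1, norm_div]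
      apply div_le_div_of_nonneg_right _ (norm_nonneg _)
      refine (norm_sub_le _ _).trans ?_
      rw [norm_pow, norm_one]
      have := pow_le_one₀ (n := N) (norm_nonneg _) (norm_mF v θ)
      linarith
    have hlim : Tendsto (fun N : ℕ => ((N : ℝ)⁻¹ * (2 / ‖mFourier v θ - 1‖)) ^ 2) atTop (𝓝 0) := by
      have := ((tendsto_inv_atTop_nhds_zero_nat (𝕜 := ℝ)).mul_const (2 / ‖mFourier v θ - 1‖)).pow 2
      simpa using this
    exact squeeze_zero (fun N => FN_nonneg N v θ) hb hlim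

theorem FN_sum (N : ℕ) (v u : Fin 2 → ℤ) (θ : UnitAddTorus (Fin 2)) :
    ((N : ℝ)⁻¹) ^ 2 * ∑ a ∈ Finset.range N, ∑ b ∈ Finset.range N, cs (((a : ℤ) - b) • v + u) θ =
      FN N v θ * cs u θ := by
  unfold FN
  rw [mul_assoc]
  congr 1
  have h1 : ∑ a ∈ Finset.range N, ∑ b ∈ Finset.range N, cs (((a : ℤ) - b) • v + u) θ =
      ∑ a ∈ Finset.range N, ∑ b ∈ Finset.range N, cs (((a : ℤ) - b) • v - u) θ := by
    rw [Finset.sum_comm]
    apply Finset.sum_congr rfl
    intro a _
    apply Finset.sum_congr rfl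
    intro b _
    rw [← cs_neg]
    congr 1
    rw [neg_add, ← neg_smul, neg_sub, sub_eq_add_neg (((a : ℤ) - b) • v)]
  have h2 : (∑ a ∈ Finset.range N, ∑ b ∈ Finset.range N, cs (((a : ℤ) - b) • v) θ) * cs u θ =
      (∑ a ∈ Finset.range N, ∑ b ∈ Finset.range N, cs (((a : ℤ) - b) • v + u) θ +
        ∑ a ∈ Finset.range N, ∑ b ∈ Finset.range N, cs (((a : ℤ) - b) • v - u) θ) / 2 := by
    rw [Finset.sum_mul, ← Finset.sum_add_distrib, Finset.sum_div]
    apply Finset.sum_congr rfl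
    intro a _
    rw [Finset.sum_mul, ← Finset.sum_add_distrib, Finset.sum_div]
    apply Finset.sum_congr rfl
    intro b _
    rw [cs_mul]
  rw [h2, ← h1]
  ring

/-! ### the spectral side -/

variable {V : (Fin 2 → ℤ) → ℝ}

theorem FN_int (μ : Measure (UnitAddTorus (Fin 2))) [IsFiniteMeasure μ] (N : ℕ) (v : Fin 2 → ℤ)
    {g : UnitAddTorus (Fin 2) → ℝ} (hg : Continuous g) {K : ℝ} (hK : ∀ θ, |g θ| ≤ K) :
    Integrable (fun θ => FN N v θ * g θ) μ := by
  refine Integrable.of_bound (C := 1 * K) ((FN_continuous N v).mul hg).aestronglyMeasurable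
    (Eventually.of_forall fun θ => ?_)
  rw [norm_mul, Real.norm_eq_abs, Real.norm_eq_abs, abs_of_nonneg (FN_nonneg N v θ)]
  exact mul_le_mul (FN_le N v θ) (hK θ) (abs_nonneg _) (by norm_num)

theorem meas_line (v : Fin 2 → ℤ) : MeasurableSet {θ : UnitAddTorus (Fin 2) | mFourier v θ = 1} :=
  measurableSet_eq_fun (mFourier v).continuous.measurable measurable_const

/-- the remainder of the Fejér kernel off the line -/
noncomputable def eps (h : VH0 V) (e v : Fin 2 → ℤ) (N : ℕ) : ℝ :=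
  ∫ θ in {θ | mFourier v θ = 1}ᶜ, FN N v θ ∂(PE h e)

theorem eps_nonneg (h : VH0 V) (e v : Fin 2 → ℤ) (N : ℕ) : 0 ≤ eps h e v N :=
  integral_nonneg fun θ => FN_nonneg N v θ

theorem eps_tendsto (h : VH0 V) (e v : Fin 2 → ℤ) : Tendsto (eps h e v) atTop (𝓝 0) := by
  have h1 : Tendsto (fun N : ℕ => ∫ θ in {θ | mFourier v θ = 1}ᶜ, FN N v θ ∂(PE h e)) atTop
      (𝓝 (∫ θ in {θ | mFourier v θ = 1}ᶜ, (if mFourier v θ = 1 then (1 : ℝ) else 0) ∂(PE h e))) := by
    apply tendsto_integral_of_dominated_convergence (fun _ => (1 : ℝ))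
    · intro N
      exact (FN_continuous N v).aestronglyMeasurable
    · exact integrable_const _
    · intro N
      refine Eventually.of_forall fun θ => ?_
      rw [Real.norm_eq_abs, abs_of_nonneg (FN_nonneg N v θ)]
      exact FN_le N v θ
    · exact Eventually.of_forall fun θ => FN_tendsto v θ
  have h2 : ∫ θ in {θ | mFourier v θ = 1}ᶜ, (if mFourier v θ = 1 then (1 : ℝ) else 0) ∂(PE h e) = 0 := by
    rw [setIntegral_congr_fun (g := fun _ => (0 : ℝ)) (meas_line v).compl]
    · simp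
    · intro θ hθ
      exact if_neg hθ
  rw [h2] at h1
  exact h1

theorem FN_cs_tendsto (h : VH0 V) (e v u : Fin 2 → ℤ) :
    Tendsto (fun N : ℕ => ∫ θ, FN N v θ * cs u θ ∂(PE h e)) atTop
      (𝓝 (∫ θ in {θ | mFourier v θ = 1}, cs u θ ∂(PE h e))) := by
  have h1 : Tendsto (fun N : ℕ => ∫ θ, FN N v θ * cs u θ ∂(PE h e)) atTop
      (𝓝 (∫ θ, (if mFourier v θ = 1 then (1 : ℝ) else 0) * cs u θ ∂(PE h e))) := by
    apply tendsto_integral_of_dominated_convergence (fun _ => (1 : ℝ))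
    · intro N
      exact ((FN_continuous N v).mul (cs_continuous u)).aestronglyMeasurable
    · exact integrable_const _
    · intro N
      refine Eventually.of_forall fun θ => ?_
      rw [norm_mul, Real.norm_eq_abs, Real.norm_eq_abs, abs_of_nonneg (FN_nonneg N v θ)]
      exact mul_le_one₀ (FN_le N v θ) (abs_nonneg _) (abs_cs_le _ _)
    · exact Eventually.of_forall fun θ => (FN_tendsto v θ).mul_const _
  have h2 : ∫ θ, (if mFourier v θ = 1 then (1 : ℝ) else 0) * cs u θ ∂(PE h e) =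
      ∫ θ in {θ | mFourier v θ = 1}, cs u θ ∂(PE h e) := by
    rw [← integral_indicator (meas_line v)]
    apply integral_congr_ae
    refine Eventually.of_forall fun θ => ?_
    by_cases hθ : mFourier v θ = 1
    · simp [hθ]
    · simp [hθ]
  rw [h2] at h1
  exact h1

theorem FN_diff_le (h : VH0 V) (e v s : Fin 2 → ℤ) (N : ℕ)
    (H : ∀ᵐ θ ∂(PE h e), mFourier v θ = 1 → cs s θ = 1) :
    ∫ θ, FN N v θ * (2 - 2 * cs s θ) ∂(PE h e) ≤ 4 * eps h e v N := by
  have hg : Continuous fun θ : UnitAddTorus (Fin 2) => 2 - 2 * cs s θ :=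
    continuous_const.sub (continuous_const.mul (cs_continuous s))
  have hK : ∀ θ : UnitAddTorus (Fin 2), |2 - 2 * cs s θ| ≤ 4 := by
    intro θ
    have := abs_le.1 (abs_cs_le s θ)
    rw [abs_le]; constructor <;> linarith [this.1, this.2]
  have hi := FN_int (PE h e) N v hg hK
  rw [← integral_add_compl (meas_line v) hi]
  have h1 : ∫ θ in {θ | mFourier v θ = 1}, FN N v θ * (2 - 2 * cs s θ) ∂(PE h e) = 0 := by
    rw [setIntegral_congr_ae (g := fun _ => (0 : ℝ)) (meas_line v)]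
    · simp
    · filter_upwards [H] with θ hθ hv
      rw [hθ hv]; ring
  rw [h1, zero_add]
  unfold eps
  rw [← integral_const_mul]
  apply integral_mono
  · exact hi.restrict
  · refine Integrable.const_mul ?_ 4
    refine Integrable.of_bound (C := 1) (FN_continuous N v).aestronglyMeasurable
      (Eventually.of_forall fun θ => ?_)
    rw [Real.norm_eq_abs, abs_of_nonneg (FN_nonneg N v θ)]
    exact FN_le N v θ
  · intro θ
    show FN N v θ * (2 - 2 * cs s θ) ≤ 4 * FN N v θ
    rw [mul_comm 4]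
    exact mul_le_mul_of_nonneg_left ((le_abs_self _).trans (hK θ)) (FN_nonneg N v θ)

/-- on the line of `e`, the measure `PE e` lives at `0` -/
theorem PE_line_cs (h : VH0 V) (e s : Fin 2 → ℤ) :
    ∀ᵐ θ ∂(PE h e), mFourier e θ = 1 → cs s θ = 1 := by
  have h1 := PE_comm h e s
  set L := {θ : UnitAddTorus (Fin 2) | mFourier e θ = 1}
  have hL : MeasurableSet L := meas_line e
  have h2 : ((PE h s).withDensity (xe e)) L = 0 := by
    rw [withDensity_apply _ hL]
    rw [lintegral_eq_zero_iff (xe_measurable e)]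
    rw [EventuallyEq, ae_restrict_iff' hL]
    refine Eventually.of_forall fun θ hθ => ?_
    have : mFourier e θ = 1 := hθ
    simp [xe, XX, cs, this]
  rw [← h1, withDensity_apply _ hL, lintegral_eq_zero_iff (xe_measurable s), EventuallyEq,
    ae_restrict_iff' hL] at h2
  filter_upwards [h2] with θ hθ he
  have h3 := hθ he
  simp only [Pi.zero_apply, xe, ENNReal.ofReal_eq_zero, XX] at h3
  have := (abs_le.1 (abs_cs_le s θ)).2
  linarith

end Vale.Agent.P153.RP
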