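import Vale.Agent.P153.CLT.PlaneVar
import Vale.Agent.P153.RP.Fold

/-!
# The variogram of a plane measure satisfies the hypotheses of the reflection positivity part
-/

open MeasureTheory Filter Topology

namespace Vale.Agent.P153.RP

open Vale.Agent.P153.CLT

/-- The variogram as a function on `Fin 2 → ℤ`. -/
noncomputable def Vf (P : Measure (ℤ × ℤ → ℤ)) (x : Fin 2 → ℤ) : ℝ := GFF.var2 P (x 0, x 1)

variable {P : Measure (ℤ × ℤ → ℤ)}

/-- Mean square differences. -/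
theorem msd_gen (hP : GFF.Plane P) (u v : ℤ × ℤ) :
    ∫ φ, (((φ u : ℤ) : ℝ) - ((φ v : ℤ) : ℝ)) ^ 2 ∂P = GFF.var2 P (u - v) := by
  unfold GFF.var2
  have h1 := Plane.integral_shift hP v (fun φ => ((φ (u - v) : ℤ) : ℝ) ^ 2)
    ((measurable_coord _).pow_const 2)
  rw [← h1]
  refine integral_congr_ae (Eventually.of_forall fun φ => ?_)
  unfold GFF.shift
  simp only [sub_add_cancel]
  push_cast
  ring

theorem integrable_msd (hP : GFF.Plane P) (u v : ℤ × ℤ) :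
    Integrable (fun φ => (((φ u : ℤ) : ℝ) - ((φ v : ℤ) : ℝ)) ^ 2) P := by
  have e : (fun φ : ℤ × ℤ → ℤ => (((φ u : ℤ) : ℝ) - ((φ v : ℤ) : ℝ)) ^ 2) =
      fun φ => ((φ u : ℤ) : ℝ) * ((φ u : ℤ) : ℝ) - (((φ u : ℤ) : ℝ) * ((φ v : ℤ) : ℝ) +
        ((φ u : ℤ) : ℝ) * ((φ v : ℤ) : ℝ)) + ((φ v : ℤ) : ℝ) * ((φ v : ℤ) : ℝ) := by
    funext φ; ring
  rw [e]
  exact ((integrable_mul_coord hP _ _).sub ((integrable_mul_coord hP _ _).add
    (integrable_mul_coord hP _ _))).add (integrable_mul_coord hP _ _)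

/-- Neutral bilinear forms. -/
theorem bilin_gen (hP : GFF.Plane P) {κ κ' : Type*} [Fintype κ] [Fintype κ'] (f : κ → ℤ × ℤ)
    (g : κ' → ℤ × ℤ) (a : κ → ℝ) (b : κ' → ℝ) (ha : ∑ k, a k = 0) (hb : ∑ k, b k = 0) :
    ∫ φ, (∑ k, a k * ((φ (f k) : ℤ) : ℝ)) * (∑ l, b l * ((φ (g l) : ℤ) : ℝ)) ∂P =
      -(1 / 2) * ∑ k, ∑ l, a k * b l * GFF.var2 P (f k - g l) := by
  have hpt : ∀ φ : ℤ × ℤ → ℤ, (∑ k, a k * ((φ (f k) : ℤ) : ℝ)) *
      (∑ l, b l * ((φ (g l) : ℤ) : ℝ)) =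
      -(1 / 2) * ∑ k, ∑ l, a k * b l * (((φ (f k) : ℤ) : ℝ) - ((φ (g l) : ℤ) : ℝ)) ^ 2 := by
    intro φ
    have e1 : ∑ k, ∑ l, a k * b l * (((φ (f k) : ℤ) : ℝ) - ((φ (g l) : ℤ) : ℝ)) ^ 2 =
        (∑ k, a k * ((φ (f k) : ℤ) : ℝ) ^ 2) * (∑ l, b l) -
        2 * ((∑ k, a k * ((φ (f k) : ℤ) : ℝ)) * (∑ l, b l * ((φ (g l) : ℤ) : ℝ))) +
        (∑ k, a k) * (∑ l, b l * ((φ (g l) : ℤ) : ℝ) ^ 2) := by
      rw [Finset.sum_mul_sum, Finset.sum_mul_sum, Finset.sum_mul_sum, Finset.mul_sum,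
        ← Finset.sum_sub_distrib, ← Finset.sum_add_distrib]
      refine Finset.sum_congr rfl fun p _ => ?_
      rw [Finset.mul_sum, ← Finset.sum_sub_distrib, ← Finset.sum_add_distrib]
      refine Finset.sum_congr rfl fun q _ => ?_
      ring
    rw [e1, ha, hb]
    ring
  simp_rw [hpt]
  rw [integral_const_mul, integral_finsetSum _ fun p _ => integrable_finsetSum _ fun q _ =>
    (integrable_msd hP _ _).const_mul _]
  congr 1
  refine Finset.sum_congr rfl fun p _ => ?_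
  rw [integral_finsetSum _ fun q _ => (integrable_msd hP _ _).const_mul _]
  refine Finset.sum_congr rfl fun q _ => ?_
  rw [integral_const_mul, msd_gen hP]

theorem Vf_zero (hP : GFF.Plane P) : Vf P 0 = 0 := by
  unfold Vf GFF.var2
  have h1 : ∀ᵐ φ ∂P, ((φ ((0 : Fin 2 → ℤ) 0, (0 : Fin 2 → ℤ) 1) : ℤ) : ℝ) ^ 2 = 0 := by
    filter_upwards [hP.zero] with φ hφ
    have : φ ((0 : Fin 2 → ℤ) 0, (0 : Fin 2 → ℤ) 1) = 0 := hφ
    rw [this]
    simp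
  rw [integral_congr_ae h1]
  simp

theorem var2_neg (hP : GFF.Plane P) (v : ℤ × ℤ) : GFF.var2 P (-v) = GFF.var2 P v := by
  have h1 := msd_gen hP 0 v
  have h2 := msd_gen hP v 0
  rw [zero_sub] at h1
  rw [sub_zero] at h2
  rw [← h1, ← h2]
  refine integral_congr_ae (Eventually.of_forall fun φ => ?_)
  simp only
  ring

theorem Vf_even (hP : GFF.Plane P) (x : Fin 2 → ℤ) : Vf P (-x) = Vf P x :=
  var2_neg hP (x 0, x 1)

theorem Vf_cnd (hP : GFF.Plane P) (n : ℕ) (f : Fin n → (Fin 2 → ℤ)) (a : Fin n → ℝ)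
    (ha : ∑ k, a k = 0) : ∑ k, ∑ l, a k * a l * Vf P (f k - f l) ≤ 0 := by
  have h1 := bilin_gen hP (fun k => (f k 0, f k 1)) (fun k => (f k 0, f k 1)) a a ha ha
  have h2 : 0 ≤ ∫ φ : ℤ × ℤ → ℤ, (∑ k, a k * ((φ (f k 0, f k 1) : ℤ) : ℝ)) *
      (∑ l, a l * ((φ (f l 0, f l 1) : ℤ) : ℝ)) ∂P :=
    integral_nonneg fun φ => mul_self_nonneg _
  rw [h1] at h2
  have h3 : ∑ k, ∑ l, a k * a l * Vf P (f k - f l) =
      ∑ k, ∑ l, a k * a l * GFF.var2 P ((f k 0, f k 1) - (f l 0, f l 1)) := rfl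
  rw [h3]
  linarith

theorem Vf_rot (hP : GFF.Plane P) (x : Fin 2 → ℤ) : Vf P ![-x 1, x 0 + x 1] = Vf P x :=
  var2_rot hP (x 0, x 1)

theorem var2_th (hP : GFF.Plane P) (v : ℤ × ℤ) : GFF.var2 P (GFF.th v) = GFF.var2 P v := by
  have h1 := var2_swap hP (GFF.rot v)
  rw [var2_rot hP] at h1
  rw [← h1]
  rfl

theorem Vf_refl (hP : GFF.Plane P) (x : Fin 2 → ℤ) : Vf P ![x 0 + x 1, -x 1] = Vf P x :=
  var2_th hP (x 0, x 1)

/-! ### reflection positivity -/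

theorem map_th (hP : GFF.Plane P) : P.map (fun φ x => φ (GFF.th x)) = P := by
  have m1 : Measurable fun (φ : ℤ × ℤ → ℤ) (x : ℤ × ℤ) => φ (x.2, x.1) :=
    measurable_pi_iff.2 fun x => measurable_pi_apply _
  have m2 : Measurable fun (φ : ℤ × ℤ → ℤ) (x : ℤ × ℤ) => φ (GFF.rot x) :=
    measurable_pi_iff.2 fun x => measurable_pi_apply _
  have h1 : (P.map (fun φ x => φ (x.2, x.1))).map (fun φ x => φ (GFF.rot x)) = P := by
    rw [hP.swap, hP.rot]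
  rw [Measure.map_map m2 m1] at h1
  exact h1

theorem measurable_th : Measurable fun (φ : ℤ × ℤ → ℤ) (x : ℤ × ℤ) => φ (GFF.th x) :=
  measurable_pi_iff.2 fun x => measurable_pi_apply _

/-- Reflection positivity for linear functionals. -/
theorem rp_lin (hP : GFF.Plane P) {n : ℕ} (u : Fin n → ℤ × ℤ) (hu : ∀ k, 0 ≤ (u k).2)
    (a : Fin n → ℝ) (ha : ∑ k, a k = 0) :
    ∑ k, ∑ l, a k * a l * GFF.var2 P (u k - GFF.th (u l)) ≤ 0 := by
  set M : ℝ := ∑ k, |a k| * (|((u k).1 : ℝ)| + |((u k).2 : ℝ)|) with hM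
  have hM0 : 0 ≤ M := Finset.sum_nonneg fun k _ => by positivity
  set S : (ℤ × ℤ → ℤ) → ℝ := fun φ => ∑ k, a k * ((φ (u k) : ℤ) : ℝ) with hS
  have hSm : Measurable S := Finset.measurable_sum _ fun k _ => (measurable_coord _).const_mul _
  have hSb : ∀ᵐ φ ∂P, |S φ| ≤ M := by
    have h1 : ∀ᵐ φ ∂P, ∀ k, |((φ (u k) : ℤ) : ℝ)| ≤ |((u k).1 : ℝ)| + |((u k).2 : ℝ)| :=
      ae_all_iff.2 fun k => coord_bdd hP (u k)
    filter_upwards [h1] with φ hφ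
    refine (Finset.abs_sum_le_sum_abs _ _).trans ?_
    refine Finset.sum_le_sum fun k _ => ?_
    rw [abs_mul]
    exact mul_le_mul_of_nonneg_left (hφ k) (abs_nonneg _)
  have hSb2 : ∀ᵐ φ ∂P, |S (fun x => φ (GFF.th x))| ≤ M := by
    have h1 : ∀ᵐ φ ∂(P.map (fun φ x => φ (GFF.th x))), |S φ| ≤ M := by
      rw [map_th hP]
      exact hSb
    rw [ae_map_iff measurable_th.aemeasurable
      (measurableSet_le hSm.abs measurable_const)] at h1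
    exact h1
  have h1 := hP.rp (fun φ => clamp M (S φ)) ((measurable_clamp M).comp hSm)
    ⟨M, fun φ => clamp_abs hM0 _⟩ (fun φ ψ h => by
      simp only [hS]
      congr 1
      exact Finset.sum_congr rfl fun k _ => by rw [h (u k) (hu k)])
  have h2 : ∫ φ, clamp M (S φ) * clamp M (S (fun x => φ (GFF.th x))) ∂P =
      ∫ φ : ℤ × ℤ → ℤ, (∑ k, a k * ((φ (u k) : ℤ) : ℝ)) *
        (∑ l, a l * ((φ (GFF.th (u l)) : ℤ) : ℝ)) ∂P := by
    refine integral_congr_ae ?_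
    filter_upwards [hSb, hSb2] with φ e1 e2
    rw [clamp_eq e1, clamp_eq e2]
  rw [h2, bilin_gen hP u (fun l => GFF.th (u l)) a a ha ha] at h1
  linarith

theorem Vf_rp0 (hP : GFF.Plane P) (n : ℕ) (x : Fin n → ℤ) (i : Fin n → ℕ) (a : Fin n → ℝ)
    (ha : ∑ k, a k = 0) :
    ∑ k, ∑ l, a k * a l * Vf P ![x k - x l - (i k + i l), 2 * (i k + i l)] ≤ 0 := by
  refine le_trans (le_of_eq ?_) (rp_lin hP (fun k => (x k - i k, 2 * (i k : ℤ)))
    (fun k => by simp) a ha)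
  refine Finset.sum_congr rfl fun k _ => Finset.sum_congr rfl fun l _ => ?_
  congr 1
  unfold Vf GFF.th
  congr 1
  ext
  · simp; ring
  · simp; ring

theorem Vf_rp1 (hP : GFF.Plane P) (n : ℕ) (x : Fin n → ℤ) (i : Fin n → ℕ) (a : Fin n → ℝ)
    (ha : ∑ k, a k = 0) :
    ∑ k, ∑ l, a k * a l * Vf P ![x k - x l - (i k + i l + 1), 2 * (i k + i l + 1)] ≤ 0 := by
  refine le_trans (le_of_eq ?_) (rp_lin hP (fun k => (x k - i k, 2 * (i k : ℤ) + 1))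
    (fun k => by simp; positivity) a ha)
  refine Finset.sum_congr rfl fun k _ => Finset.sum_congr rfl fun l _ => ?_
  congr 1
  unfold Vf GFF.th
  congr 1
  ext
  · simp; ring
  · simp; ring

/-- Covariance of the increments in the direction `e`. -/
theorem cov_inc (hP : GFF.Plane P) (e x y : Fin 2 → ℤ) :
    ∫ φ : ℤ × ℤ → ℤ, (((φ ((x + e) 0, (x + e) 1) : ℤ) : ℝ) - ((φ (x 0, x 1) : ℤ) : ℝ)) *
      (((φ ((y + e) 0, (y + e) 1) : ℤ) : ℝ) - ((φ (y 0, y 1) : ℤ) : ℝ)) ∂P =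
      CV (Vf P) e (x - y) := by
  have h1 := bilin_gen hP ![((x + e) 0, (x + e) 1), (x 0, x 1)]
    ![((y + e) 0, (y + e) 1), (y 0, y 1)] ![1, -1] ![1, -1] (by simp) (by simp)
  simp only [Fin.sum_univ_two, Matrix.cons_val_zero, Matrix.cons_val_one, one_mul] at h1
  have h2 : ∀ φ : ℤ × ℤ → ℤ, (((φ ((x + e) 0, (x + e) 1) : ℤ) : ℝ) +
      -1 * ((φ (x 0, x 1) : ℤ) : ℝ)) * (((φ ((y + e) 0, (y + e) 1) : ℤ) : ℝ) +
      -1 * ((φ (y 0, y 1) : ℤ) : ℝ)) =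
      (((φ ((x + e) 0, (x + e) 1) : ℤ) : ℝ) - ((φ (x 0, x 1) : ℤ) : ℝ)) *
      (((φ ((y + e) 0, (y + e) 1) : ℤ) : ℝ) - ((φ (y 0, y 1) : ℤ) : ℝ)) := fun φ => by ring
  simp only [h2] at h1
  rw [h1]
  have k1 : GFF.var2 P (((x + e) 0, (x + e) 1) - ((y + e) 0, (y + e) 1)) = Vf P (x - y) := by
    unfold Vf
    congr 1
    ext <;> simp
  have k2 : GFF.var2 P (((x + e) 0, (x + e) 1) - (y 0, y 1)) = Vf P (x - y + e) := by
    unfold Vf
    congr 1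
    ext
    · simp; ring
    · simp; ring
  have k3 : GFF.var2 P ((x 0, x 1) - ((y + e) 0, (y + e) 1)) = Vf P (x - y - e) := by
    unfold Vf
    congr 1
    ext
    · simp; ring
    · simp; ring
  have k4 : GFF.var2 P ((x 0, x 1) - (y 0, y 1)) = Vf P (x - y) := rfl
  rw [k1, k2, k3, k4]
  unfold CV
  ring

end Vale.Agent.P153.RP
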