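import Vale.Agent.P153.RP.Torus

/-!
# The spectral measure of a field with stationary increments

`V x = E (h(x) - h(0))²`.  `Phi V` is the unique even measure without mass on `{0}` such that
`V e = ∫ (2 - 2 cos (2π e·θ)) dPhi` for all `e`.
-/

open MeasureTheory Filter Topology UnitAddTorus
open scoped NNReal ENNReal unitInterval

namespace Vale.Agent.P153.RP

variable {ι : Type*} [Fintype ι]

/-- gradient covariance `Cov (h(x+e) - h(x), h(e) - h(0))` -/
noncomputable def CV (V : (ι → ℤ) → ℝ) (e x : ι → ℤ) : ℝ := (V (x + e) + V (x - e) - 2 * V x) / 2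

/-- hypotheses on the variogram -/
structure VH0 (V : (ι → ℤ) → ℝ) : Prop where
  zero : V 0 = 0
  even : ∀ x, V (-x) = V x
  cnd : ∀ (n : ℕ) (f : Fin n → (ι → ℤ)) (a : Fin n → ℝ), ∑ k, a k = 0 →
    ∑ k, ∑ l, a k * a l * V (f k - f l) ≤ 0

variable {V : (ι → ℤ) → ℝ}

omit [Fintype ι] in
theorem VH0.cnd' (h : VH0 V) {κ : Type*} [Fintype κ] (f : κ → (ι → ℤ)) (a : κ → ℝ)
    (ha : ∑ k, a k = 0) : ∑ k, ∑ l, a k * a l * V (f k - f l) ≤ 0 := by
  have e := (Fintype.equivFin κ).symm
  have := h.cnd (Fintype.card κ) (fun k => f (e k)) (fun k => a (e k)) (by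
    rw [Equiv.sum_comp e a]; exact ha)
  rw [← Equiv.sum_comp e (fun k => ∑ l, a k * a l * V (f k - f l))]
  refine le_trans (le_of_eq ?_) this
  apply Finset.sum_congr rfl
  intro k _
  exact (Equiv.sum_comp e (fun l => a (e k) * a l * V (f (e k) - f l))).symm

omit [Fintype ι] in
theorem VH0.CV_even (h : VH0 V) (e x : ι → ℤ) : CV V e (-x) = CV V e x := by
  unfold CV
  rw [h.even x, show -x + e = -(x - e) by abel, show -x - e = -(x + e) by abel, h.even, h.even]
  ring

omit [Fintype ι] in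
theorem VH0.CV_psd (h : VH0 V) (e : ι → ℤ) (s : Finset (ι → ℤ)) (a : (ι → ℤ) → ℝ) :
    0 ≤ ∑ p ∈ s, ∑ q ∈ s, a p * a q * CV V e (p - q) := by
  have key := h.cnd' (κ := s × Bool) (fun k => if k.2 then (k.1 : ι → ℤ) + e else k.1)
    (fun k => if k.2 then a k.1 else -a k.1) (by
      rw [Fintype.sum_prod_type]
      apply Finset.sum_eq_zero
      intro p _
      simp)
  have e1 : ∑ k : s × Bool, ∑ l : s × Bool, (if k.2 then a k.1 else -a k.1) *
      (if l.2 then a l.1 else -a l.1) *
      V ((if k.2 then (k.1 : ι → ℤ) + e else k.1) - (if l.2 then (l.1 : ι → ℤ) + e else l.1)) =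
      -2 * ∑ p ∈ s, ∑ q ∈ s, a p * a q * CV V e (p - q) := by
    have e2 : ∑ p ∈ s, ∑ q ∈ s, a p * a q * CV V e (p - q) =
        ∑ p : s, ∑ q : s, a p * a q * CV V e ((p : ι → ℤ) - q) := by
      rw [← Finset.sum_coe_sort]
      apply Finset.sum_congr rfl
      intro p _
      rw [← Finset.sum_coe_sort]
    rw [e2, Fintype.sum_prod_type]
    simp_rw [Fintype.sum_prod_type, Fintype.sum_bool]
    rw [Finset.mul_sum]
    apply Finset.sum_congr rfl
    intro p _
    rw [← Finset.sum_add_distrib, Finset.mul_sum]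
    apply Finset.sum_congr rfl
    intro q _
    simp only [if_true, Bool.false_eq_true, if_false]
    unfold CV
    rw [show (p : ι → ℤ) + e - (q + e) = p - q by abel, show (p : ι → ℤ) + e - q = p - q + e by abel,
      show (p : ι → ℤ) - (q + e) = p - q - e by abel]
    ring
  rw [e1] at key
  linarith

omit [Fintype ι] in
theorem VH0.CV_zero (h : VH0 V) (e : ι → ℤ) : CV V e 0 = V e := by
  unfold CV
  rw [zero_add, zero_sub, h.even, h.zero]
  ring

variable [DecidableEq ι]

/-- the spectral measure of the gradient in direction `e` -/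
noncomputable def PE (h : VH0 V) (e : ι → ℤ) : Measure (UnitAddTorus ι) :=
  (herglotz_torus (CV V e) (h.CV_even e) (h.CV_psd e)).choose

instance (h : VH0 V) (e : ι → ℤ) : IsFiniteMeasure (PE h e) :=
  (herglotz_torus (CV V e) (h.CV_even e) (h.CV_psd e)).choose_spec.1

theorem PE_even (h : VH0 V) (e : ι → ℤ) : EvenM (PE h e) :=
  (herglotz_torus (CV V e) (h.CV_even e) (h.CV_psd e)).choose_spec.2.1

theorem PE_cs (h : VH0 V) (e n : ι → ℤ) : ∫ x, cs n x ∂(PE h e) = CV V e n :=
  (herglotz_torus (CV V e) (h.CV_even e) (h.CV_psd e)).choose_spec.2.2 n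

/-! ### the density `X_e = 2 - 2 cos (2π e·θ)` -/

omit [DecidableEq ι]

/-- `2 - 2 cos (2π e·θ)` -/
noncomputable def XX (e : ι → ℤ) (θ : UnitAddTorus ι) : ℝ := 2 - 2 * cs e θ

theorem XX_nonneg (e : ι → ℤ) (θ : UnitAddTorus ι) : 0 ≤ XX e θ := by
  have := (abs_le.1 (abs_cs_le e θ)).2
  unfold XX; linarith

theorem XX_le (e : ι → ℤ) (θ : UnitAddTorus ι) : XX e θ ≤ 4 := by
  have := (abs_le.1 (abs_cs_le e θ)).1
  unfold XX; linarith

theorem XX_continuous (e : ι → ℤ) : Continuous (XX e) := by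
  unfold XX
  exact continuous_const.sub (continuous_const.mul (cs_continuous e))

/-- `X_e` as an extended nonnegative function -/
noncomputable def xe (e : ι → ℤ) (θ : UnitAddTorus ι) : ℝ≥0∞ := ENNReal.ofReal (XX e θ)

theorem xe_measurable (e : ι → ℤ) : Measurable (xe e) :=
  (XX_continuous e).measurable.ennreal_ofReal

theorem xe_neg (e : ι → ℤ) (θ : UnitAddTorus ι) : xe e (-θ) = xe e θ := by
  unfold xe XX; rw [cs_neg_arg]

omit [Fintype ι] in
/-- evenness is preserved by even densities -/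
theorem EvenM.withDensity {μ : Measure (UnitAddTorus ι)} (hμ : EvenM μ) {f : UnitAddTorus ι → ℝ≥0∞}
    (hf : Measurable f) (he : ∀ θ, f (-θ) = f θ) : EvenM (μ.withDensity f) := by
  unfold EvenM
  ext s hs
  rw [Measure.map_apply measurable_negT hs, withDensity_apply _ (measurable_negT hs),
    withDensity_apply _ hs]
  conv_rhs => rw [← hμ]
  rw [← lintegral_indicator hs, ← lintegral_indicator (measurable_negT hs),
    lintegral_map (hf.indicator hs) measurable_negT]
  apply lintegral_congr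
  intro θ
  by_cases h : -θ ∈ s
  · rw [Set.indicator_of_mem h, Set.indicator_of_mem (show θ ∈ (fun x => -x) ⁻¹' s from h), he]
  · rw [Set.indicator_of_notMem h, Set.indicator_of_notMem (show θ ∉ (fun x => -x) ⁻¹' s from h)]

instance isFinite_xe (μ : Measure (UnitAddTorus ι)) [IsFiniteMeasure μ] (e : ι → ℤ) :
    IsFiniteMeasure (μ.withDensity (xe e)) := by
  apply isFiniteMeasure_withDensity
  refine ne_of_lt (lt_of_le_of_lt (lintegral_mono (g := fun _ => ENNReal.ofReal 4) fun θ => ?_) ?_)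
  · exact ENNReal.ofReal_le_ofReal (XX_le e θ)
  · rw [lintegral_const]
    exact ENNReal.mul_lt_top ENNReal.ofReal_lt_top (measure_lt_top _ _)

theorem integral_xe (μ : Measure (UnitAddTorus ι)) (e : ι → ℤ) (g : UnitAddTorus ι → ℝ) :
    ∫ θ, g θ ∂(μ.withDensity (xe e)) = ∫ θ, XX e θ * g θ ∂μ := by
  have := integral_withDensity_eq_integral_smul (μ := μ) (f := fun θ => Real.toNNReal (XX e θ))
    ((XX_continuous e).measurable.real_toNNReal) g
  have h2 : (fun θ => ((Real.toNNReal (XX e θ) : ℝ≥0) : ℝ≥0∞)) = xe e := rfl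
  rw [h2] at this
  rw [this]
  apply integral_congr_ae
  refine Eventually.of_forall fun θ => ?_
  show (Real.toNNReal (XX e θ)) • g θ = _
  rw [NNReal.smul_def, Real.coe_toNNReal _ (XX_nonneg e θ), smul_eq_mul]

theorem XX_mul_cs (e n : ι → ℤ) (θ : UnitAddTorus ι) :
    XX e θ * cs n θ = 2 * cs n θ - cs (n + e) θ - cs (n - e) θ := by
  have := cs_mul n e θ
  unfold XX
  linarith

variable [DecidableEq ι]

theorem xe_PE_cs (h : VH0 V) (e e' n : ι → ℤ) :
    ∫ θ, cs n θ ∂((PE h e).withDensity (xe e')) =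
      2 * CV V e n - CV V e (n + e') - CV V e (n - e') := by
  rw [integral_xe]
  simp_rw [XX_mul_cs]
  rw [integral_sub, integral_sub, integral_const_mul, PE_cs, PE_cs, PE_cs]
  · exact (cs_integrable _ _).const_mul _
  · exact cs_integrable _ _
  · exact ((cs_integrable _ _).const_mul _).sub (cs_integrable _ _)
  · exact cs_integrable _ _

/-- the compatibility relation -/
theorem PE_comm (h : VH0 V) (e e' : ι → ℤ) :
    (PE h e).withDensity (xe e') = (PE h e').withDensity (xe e) := by
  apply ext_torus_even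
  · exact (PE_even h e).withDensity (xe_measurable _) (xe_neg _)
  · exact (PE_even h e').withDensity (xe_measurable _) (xe_neg _)
  · intro n
    rw [xe_PE_cs, xe_PE_cs]
    unfold CV
    rw [show n + e' + e = n + e + e' by abel, show n + e' - e = n - e + e' by abel,
      show n - e' + e = n + e - e' by abel, show n - e' - e = n - e - e' by abel]
    ring

/-! ### no mass on lines -/

omit [DecidableEq ι] in
/-- Cesàro averages of characters -/
theorem cesaro_cs (v : ι → ℤ) (θ : UnitAddTorus ι) :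
    Tendsto (fun N : ℕ => (N : ℝ)⁻¹ * ∑ a ∈ Finset.range N, cs ((a : ℤ) • v) θ) atTop
      (𝓝 (if mFourier v θ = 1 then 1 else 0)) := by
  set z : ℂ := mFourier v θ with hz
  have hpow : ∀ a : ℕ, mFourier ((a : ℤ) • v) θ = z ^ a := by
    intro a
    induction a with
    | zero => simp [mFourier_zero]
    | succ a ih =>
      rw [pow_succ, ← ih, hz, ← mFourier_add]
      congr 1
      push_cast
      rw [add_smul, one_smul]
  have hcs : ∀ a : ℕ, cs ((a : ℤ) • v) θ = (z ^ a).re := fun a => by rw [cs, hpow]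
  simp_rw [hcs]
  by_cases h1 : z = 1
  · rw [if_pos h1, h1]
    refine tendsto_const_nhds.congr' ?_
    filter_upwards [eventually_gt_atTop 0] with N hN
    have : (N : ℝ) ≠ 0 := by exact_mod_cast hN.ne'
    simp [this]
  · rw [if_neg h1]
    have hne : z - 1 ≠ 0 := sub_ne_zero.2 h1
    have hzn : ‖z‖ ≤ 1 := by
      refine ((mFourier v).norm_coe_le_norm θ).trans ?_
      rw [mFourier_norm]
    have hb : ∀ N : ℕ, |(N : ℝ)⁻¹ * ∑ a ∈ Finset.range N, (z ^ a).re| ≤ (N : ℝ)⁻¹ * (2 / ‖z - 1‖) := by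
      intro N
      rw [abs_mul, abs_of_nonneg (by positivity : (0 : ℝ) ≤ (N : ℝ)⁻¹)]
      apply mul_le_mul_of_nonneg_left _ (by positivity)
      rw [← Complex.re_sum]
      refine (Complex.abs_re_le_norm _).trans ?_
      rw [geom_sum_eq h1, norm_div]
      apply div_le_div_of_nonneg_right _ (norm_nonneg _)
      refine (norm_sub_le _ _).trans ?_
      rw [norm_pow, norm_one]
      have := pow_le_one₀ (n := N) (norm_nonneg z) hzn
      linarith
    have hlim : Tendsto (fun N : ℕ => (N : ℝ)⁻¹ * (2 / ‖z - 1‖)) atTop (𝓝 0) := by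
      have := (tendsto_inv_atTop_nhds_zero_nat (𝕜 := ℝ)).mul_const (2 / ‖z - 1‖)
      simpa using this
    exact squeeze_zero_norm hb hlim

/-- mass of the lines through `0` for the gradient measures -/
theorem PE_line_lim (h : VH0 V) (e v : ι → ℤ) :
    Tendsto (fun N : ℕ => (N : ℝ)⁻¹ * ∑ a ∈ Finset.range N, CV V e ((a : ℤ) • v)) atTop
      (𝓝 ((PE h e).real {θ | mFourier v θ = 1})) := by
  have hmeas : MeasurableSet {θ : UnitAddTorus ι | mFourier v θ = 1} :=
    measurableSet_eq_fun (mFourier v).continuous.measurable measurable_const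
  have h1 : Tendsto (fun N : ℕ => ∫ θ, ((N : ℝ)⁻¹ * ∑ a ∈ Finset.range N, cs ((a : ℤ) • v) θ)
      ∂(PE h e)) atTop (𝓝 (∫ θ, (if mFourier v θ = 1 then (1 : ℝ) else 0) ∂(PE h e))) := by
    apply tendsto_integral_of_dominated_convergence (fun _ => (1 : ℝ))
    · intro N
      apply Continuous.aestronglyMeasurable
      exact continuous_const.mul (continuous_finsetSum _ fun a _ => cs_continuous _)
    · exact integrable_const _
    · intro N
      refine Eventually.of_forall fun θ => ?_
      rw [Real.norm_eq_abs, abs_mul, abs_of_nonneg (by positivity : (0 : ℝ) ≤ (N : ℝ)⁻¹)]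
      rcases Nat.eq_zero_or_pos N with rfl | hN
      · simp
      · have hN' : (0 : ℝ) < N := by exact_mod_cast hN
        rw [inv_mul_le_iff₀ hN', mul_one]
        refine (Finset.abs_sum_le_sum_abs _ _).trans ?_
        refine (Finset.sum_le_sum (g := fun _ => (1 : ℝ)) fun a _ => abs_cs_le _ _).trans ?_
        simp
    · exact Eventually.of_forall fun θ => cesaro_cs v θ
  have h2 : ∀ N : ℕ, ∫ θ, ((N : ℝ)⁻¹ * ∑ a ∈ Finset.range N, cs ((a : ℤ) • v) θ) ∂(PE h e) =
      (N : ℝ)⁻¹ * ∑ a ∈ Finset.range N, CV V e ((a : ℤ) • v) := by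
    intro N
    rw [integral_const_mul, integral_finsetSum _ fun a _ => cs_integrable _ _]
    simp_rw [PE_cs]
  have h6 : (fun θ : UnitAddTorus ι => (if mFourier v θ = 1 then (1 : ℝ) else 0)) =
      Set.indicator {θ | mFourier v θ = 1} (fun _ => 1) := by
    funext θ
    by_cases hθ : mFourier v θ = 1
    · rw [if_pos hθ, Set.indicator_of_mem (show θ ∈ {θ | mFourier v θ = 1} from hθ)]
    · rw [if_neg hθ, Set.indicator_of_notMem (show θ ∉ {θ | mFourier v θ = 1} from hθ)]
  simp_rw [h2] at h1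
  rw [h6, integral_indicator hmeas, setIntegral_const, smul_eq_mul, mul_one] at h1
  exact h1

/-- lines through `0` are null for the gradient measures of a mixing field -/
theorem PE_line_of_mix (h : VH0 V) (mix : ∀ e, Tendsto (fun x => CV V e x) cofinite (𝓝 0))
    (e v : ι → ℤ) (hv : v ≠ 0) : PE h e {θ | mFourier v θ = 1} = 0 := by
  have h1 := PE_line_lim h e v
  have h3 : Tendsto (fun a : ℕ => CV V e ((a : ℤ) • v)) atTop (𝓝 0) := by
    rw [← Nat.cofinite_eq_atTop]
    refine (mix e).comp ?_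
    apply Function.Injective.tendsto_cofinite
    intro a b hab
    simp only at hab
    have : ∃ i, v i ≠ 0 := by
      by_contra hc
      push Not at hc
      exact hv (funext hc)
    obtain ⟨i, hi⟩ := this
    have := congrFun hab i
    simp only [Pi.smul_apply, smul_eq_mul] at this
    exact_mod_cast mul_right_cancel₀ hi this
  have h4 := h3.cesaro
  have h5 := tendsto_nhds_unique h1 h4
  rw [Measure.real, ENNReal.toReal_eq_zero_iff] at h5
  rcases h5 with h5 | h5
  · exact h5
  · exact absurd h5 (measure_ne_top _ _)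

/-! ### the measure `Phi` (dimension 2) -/

end Vale.Agent.P153.RP

namespace Vale.Agent.P153.RP

/-- unit vectors -/
def E1 : Fin 2 → ℤ := ![1, 0]
def E2 : Fin 2 → ℤ := ![0, 1]

theorem E1_ne : E1 ≠ 0 := fun h => by have := congrFun h 0; simp [E1] at this
theorem E2_ne : E2 ≠ 0 := fun h => by have := congrFun h 1; simp [E2] at this

/-- hypotheses on the variogram: no random slope (`PE_line_of_mix`: true for mixing fields) -/
structure VH (V : (Fin 2 → ℤ) → ℝ) : Prop extends VH0 V where
  null : ∀ e, PE toVH0 e {θ | mFourier e θ = 1} = 0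

variable {V : (Fin 2 → ℤ) → ℝ}

/-- `X₁ + X₂` -/
noncomputable def xs (θ : UnitAddTorus (Fin 2)) : ℝ≥0∞ := xe E1 θ + xe E2 θ

theorem xs_measurable : Measurable xs := (xe_measurable _).add (xe_measurable _)

theorem xs_ne_top (θ : UnitAddTorus (Fin 2)) : xs θ ≠ ⊤ :=
  ENNReal.add_ne_top.2 ⟨ENNReal.ofReal_ne_top, ENNReal.ofReal_ne_top⟩

theorem mFourier_one_of_cs {n : Fin 2 → ℤ} {θ : UnitAddTorus (Fin 2)} (h : 1 ≤ cs n θ) :
    mFourier n θ = 1 := by
  have h2 : (1 : ℝ) ≤ (mFourier n θ).re := h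
  have h3 : ‖mFourier n θ‖ ≤ 1 := by
    refine ((mFourier n).norm_coe_le_norm θ).trans ?_
    rw [mFourier_norm]
  have h4 : (mFourier n θ).re ^ 2 + (mFourier n θ).im ^ 2 ≤ 1 := by
    have := Complex.sq_norm (mFourier n θ)
    rw [Complex.normSq_apply] at this
    nlinarith [norm_nonneg (mFourier n θ)]
  apply Complex.ext
  · rw [Complex.one_re]; nlinarith
  · rw [Complex.one_im]; nlinarith

theorem xe_zero {e : Fin 2 → ℤ} {θ : UnitAddTorus (Fin 2)} (h : xe e θ = 0) : mFourier e θ = 1 := by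
  rw [xe, ENNReal.ofReal_eq_zero, XX] at h
  exact mFourier_one_of_cs (by linarith)

theorem mFourier_E (e : Fin 2 → ℤ) (θ : UnitAddTorus (Fin 2)) :
    mFourier e θ = mFourier E1 θ ^ (e 0) * mFourier E2 θ ^ (e 1) := by
  simp only [mFourier, ContinuousMap.coe_mk, Fin.prod_univ_two, E1, E2]
  simp [fourier_apply, AddCircle.toCircle_zsmul]

/-- at a zero of `xs` all characters are `1` -/
theorem xs_zero' {θ : UnitAddTorus (Fin 2)} (h : xs θ = 0) (e : Fin 2 → ℤ) : mFourier e θ = 1 := by
  have h1 := xe_zero (add_eq_zero.1 h).1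
  have h2 := xe_zero (add_eq_zero.1 h).2
  rw [mFourier_E, h1, h2, one_zpow, one_zpow, one_mul]

theorem PE_xs_zero (h : VH V) (e : Fin 2 → ℤ) : ∀ᵐ θ ∂(PE h.toVH0 e), xs θ ≠ 0 := by
  rw [ae_iff]
  refine measure_mono_null (fun θ hθ => ?_) (h.null e)
  simp only [not_not, Set.mem_ofPred_eq] at hθ
  exact xs_zero' hθ e

/-- the spectral measure of the heights -/
noncomputable def Phi (h : VH V) : Measure (UnitAddTorus (Fin 2)) :=
  (PE h.toVH0 E1 + PE h.toVH0 E2).withDensity (fun θ => (xs θ)⁻¹)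

theorem Phi_xs_zero (h : VH V) : ∀ᵐ θ ∂(Phi h), xs θ ≠ 0 := by
  refine (withDensity_absolutelyContinuous _ _).ae_le ?_
  show ∀ᵐ θ ∂(PE h.toVH0 E1 + PE h.toVH0 E2), xs θ ≠ 0
  rw [ae_add_measure_iff]
  exact ⟨PE_xs_zero h E1, PE_xs_zero h E2⟩

/-- **`X_e Phi` is the spectral measure of the gradient in direction `e`**, for all `e`. -/
theorem xe_Phi (h : VH V) (e : Fin 2 → ℤ) : (Phi h).withDensity (xe e) = PE h.toVH0 e := by
  have h1 : (PE h.toVH0 E1 + PE h.toVH0 E2).withDensity (xe e) = (PE h.toVH0 e).withDensity xs := by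
    rw [withDensity_add_measure, PE_comm, PE_comm h.toVH0 E2 e]
    have : xs = fun θ => xe E1 θ + xe E2 θ := rfl
    rw [this]
    exact (withDensity_add_left (xe_measurable E1) _).symm
  have hinv : Measurable fun θ => (xs θ)⁻¹ := xs_measurable.inv
  unfold Phi
  rw [← withDensity_mul _ hinv (xe_measurable e), mul_comm, withDensity_mul _ (xe_measurable e) hinv,
    h1, ← withDensity_mul _ xs_measurable hinv]
  have h2 : (xs * fun θ => (xs θ)⁻¹) =ᵐ[PE h.toVH0 e] 1 := by
    filter_upwards [PE_xs_zero h e] with θ hθ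
    exact ENNReal.mul_inv_cancel hθ (xs_ne_top θ)
  rw [withDensity_congr_ae h2, withDensity_one]

theorem PE_univ (h : VH0 V) (e : Fin 2 → ℤ) : PE h e Set.univ = ENNReal.ofReal (V e) := by
  have h1 := PE_cs h e 0
  simp_rw [cs_zero] at h1
  rw [integral_const, smul_eq_mul, mul_one, h.CV_zero] at h1
  rw [← h1, Measure.real, ENNReal.ofReal_toReal (measure_ne_top _ _)]

/-- **representation of the variogram** -/
theorem lintegral_xe_Phi (h : VH V) (e : Fin 2 → ℤ) :
    ∫⁻ θ, xe e θ ∂(Phi h) = ENNReal.ofReal (V e) := by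
  have := congrArg (fun μ : Measure (UnitAddTorus (Fin 2)) => μ Set.univ) (xe_Phi h e)
  simp only [withDensity_apply _ MeasurableSet.univ, Measure.restrict_univ] at this
  rw [this, PE_univ]

theorem VH0.nonneg (h : VH0 V) (e : Fin 2 → ℤ) : 0 ≤ V e := by
  have := h.cnd 2 ![e, 0] ![1, -1] (by simp)
  simp [Fin.sum_univ_two, h.zero, h.even] at this
  linarith

theorem Phi_even (h : VH V) : EvenM (Phi h) := by
  have h1 : EvenM (PE h.toVH0 E1 + PE h.toVH0 E2) := by
    unfold EvenM
    rw [Measure.map_add _ _ measurable_negT, PE_even h.toVH0 E1, PE_even h.toVH0 E2]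
  refine h1.withDensity (f := fun θ => (xs θ)⁻¹) xs_measurable.inv (fun θ => ?_)
  show (xs (-θ))⁻¹ = (xs θ)⁻¹
  congr 1
  unfold xs
  rw [xe_neg, xe_neg]

/-- **uniqueness** -/
theorem Phi_unique (h : VH V) (μ : Measure (UnitAddTorus (Fin 2))) (heven : EvenM μ)
    (h0 : ∀ᵐ θ ∂μ, xs θ ≠ 0)
    (hV : ∀ e, ∫⁻ θ, xe e θ ∂μ = ENNReal.ofReal (V e)) : μ = Phi h := by
  have hfin : ∀ e, IsFiniteMeasure (μ.withDensity (xe e)) := fun e =>
    isFiniteMeasure_withDensity (by rw [hV]; exact ENNReal.ofReal_ne_top)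
  have hint : ∀ e, Integrable (XX e) μ := by
    intro e
    refine ⟨(XX_continuous e).aestronglyMeasurable, ?_⟩
    rw [hasFiniteIntegral_iff_ofReal (Eventually.of_forall fun θ => XX_nonneg e θ)]
    have := hV e
    unfold xe at this
    rw [this]
    exact ENNReal.ofReal_lt_top
  have hVi : ∀ e, ∫ θ, XX e θ ∂μ = V e := by
    intro e
    rw [integral_eq_lintegral_of_nonneg_ae (Eventually.of_forall fun θ => XX_nonneg e θ)
      (XX_continuous e).aestronglyMeasurable]
    have := hV e
    unfold xe at this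
    rw [this, ENNReal.toReal_ofReal (h.nonneg e)]
  have hPE : ∀ e, μ.withDensity (xe e) = PE h.toVH0 e := by
    intro e
    have := hfin e
    apply ext_torus_even (heven.withDensity (xe_measurable e) (xe_neg e)) (PE_even h.toVH0 e)
    intro n
    have hs : ∫ θ, (XX (n + e) θ + XX (n - e) θ - 2 * XX n θ) ∂μ =
        V (n + e) + V (n - e) - 2 * V n := by
      rw [integral_sub (f := fun θ => XX (n + e) θ + XX (n - e) θ) ((hint _).add (hint _))
        ((hint _).const_mul _), integral_add (hint _) (hint _), integral_const_mul,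
        hVi, hVi, hVi]
    rw [integral_xe, PE_cs, CV, ← hs, ← integral_div]
    apply integral_congr_ae
    refine Eventually.of_forall fun θ => ?_
    have := XX_mul_cs e n θ
    simp only [this]
    unfold XX
    ring
  have h3 : μ.withDensity xs = PE h.toVH0 E1 + PE h.toVH0 E2 := by
    rw [← hPE E1, ← hPE E2]
    exact withDensity_add_left (xe_measurable E1) _
  unfold Phi
  have hinv : Measurable fun θ => (xs θ)⁻¹ := xs_measurable.inv
  rw [← h3, ← withDensity_mul _ xs_measurable hinv]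
  have h2 : (xs * fun θ => (xs θ)⁻¹) =ᵐ[μ] 1 := by
    filter_upwards [h0] with θ hθ
    exact ENNReal.mul_inv_cancel hθ (xs_ne_top θ)
  rw [withDensity_congr_ae h2, withDensity_one]

end Vale.Agent.P153.RP
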