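import Vale.Agent.P153.RP.Herglotz

/-!
# Measures on the torus and their Fourier coefficients
-/

open MeasureTheory Filter Topology UnitAddTorus
open scoped NNReal ENNReal unitInterval

namespace Vale.Agent.P153.RP

variable {ι : Type*} [Fintype ι]

/-- finite measures on the torus with equal Fourier coefficients are equal -/
theorem ext_torus (μ ν : Measure (UnitAddTorus ι)) [IsFiniteMeasure μ] [IsFiniteMeasure ν]
    (h : ∀ n : ι → ℤ, ∫ x, mFourier n x ∂μ = ∫ x, mFourier n x ∂ν) : μ = ν := by
  have hint : ∀ (ρ : Measure (UnitAddTorus ι)) [IsFiniteMeasure ρ] (f : C(UnitAddTorus ι, ℂ)),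
      Integrable (fun x => f x) ρ := by
    intro ρ _ f
    exact Integrable.of_bound (C := ‖f‖) f.continuous.aestronglyMeasurable
      (Eventually.of_forall fun p => f.norm_coe_le_norm p)
  have hcont : ∀ (ρ : Measure (UnitAddTorus ι)) [IsFiniteMeasure ρ],
      Continuous fun f : C(UnitAddTorus ι, ℂ) => ∫ x, f x ∂ρ := by
    intro ρ _
    refine (LipschitzWith.of_dist_le_mul (K := ⟨ρ.real Set.univ, by positivity⟩) fun f g => ?_).continuous
    rw [dist_eq_norm, ← integral_sub (hint ρ f) (hint ρ g)]
    refine (norm_integral_le_of_norm_le_const (C := dist f g) (Eventually.of_forall fun x => ?_)).trans ?_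
    · rw [← dist_eq_norm]; exact ContinuousMap.dist_apply_le_dist x
    · rw [mul_comm]; rfl
  have hall : ∀ f : C(UnitAddTorus ι, ℂ), ∫ x, f x ∂μ = ∫ x, f x ∂ν := by
    have hcl : IsClosed {f : C(UnitAddTorus ι, ℂ) | ∫ x, f x ∂μ = ∫ x, f x ∂ν} :=
      isClosed_eq (hcont μ) (hcont ν)
    have hspan : (Submodule.span ℂ (Set.range (mFourier (d := ι))) : Set C(UnitAddTorus ι, ℂ)) ⊆
        {f : C(UnitAddTorus ι, ℂ) | ∫ x, f x ∂μ = ∫ x, f x ∂ν} := by
      intro f hf
      refine Submodule.span_induction (p := fun f _ => ∫ x, f x ∂μ = ∫ x, f x ∂ν) ?_ ?_ ?_ ?_ hf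
      · rintro _ ⟨n, rfl⟩; exact h n
      · simp
      · intro f g _ _ hf hg
        simp only [ContinuousMap.add_apply]
        rw [integral_add (hint μ f) (hint μ g), integral_add (hint ν f) (hint ν g), hf, hg]
      · intro a f _ hf
        simp only [ContinuousMap.smul_apply]
        rw [integral_smul, integral_smul, hf]
    intro f
    have htop : f ∈ (Submodule.span ℂ (Set.range (mFourier (d := ι)))).topologicalClosure := by
      rw [span_mFourier_closure_eq_top]; trivial
    exact hcl.closure_subset_iff.2 hspan htop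
  apply ext_of_forall_integral_eq_of_IsFiniteMeasure
  intro f
  have h1 := hall ⟨fun x => ((f x : ℝ) : ℂ), by fun_prop⟩
  simp only [ContinuousMap.coe_mk] at h1
  rw [integral_complex_ofReal, integral_complex_ofReal] at h1
  exact_mod_cast h1

/-- real character -/
noncomputable def cs (n : ι → ℤ) (x : UnitAddTorus ι) : ℝ := (mFourier n x).re

theorem cs_continuous (n : ι → ℤ) : Continuous (cs n) :=
  Complex.continuous_re.comp (mFourier n).continuous

theorem abs_cs_le (n : ι → ℤ) (x : UnitAddTorus ι) : |cs n x| ≤ 1 := by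
  refine (Complex.abs_re_le_norm _).trans ?_
  refine ((mFourier n).norm_coe_le_norm x).trans ?_
  rw [mFourier_norm]

theorem cs_integrable (n : ι → ℤ) (μ : Measure (UnitAddTorus ι)) [IsFiniteMeasure μ] :
    Integrable (cs n) μ :=
  Integrable.of_bound (C := 1) (cs_continuous n).aestronglyMeasurable
    (Eventually.of_forall fun p => abs_cs_le n p)

theorem cs_zero (x : UnitAddTorus ι) : cs (0 : ι → ℤ) x = 1 := by
  simp [cs, mFourier_zero]

theorem mFourier_neg_arg (n : ι → ℤ) (x : UnitAddTorus ι) : mFourier n (-x) = mFourier (-n) x := by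
  simp only [mFourier, ContinuousMap.coe_mk, Pi.neg_apply]
  apply Finset.prod_congr rfl
  intro i _
  rw [fourier_apply, fourier_apply]
  simp

theorem cs_neg_arg (n : ι → ℤ) (x : UnitAddTorus ι) : cs n (-x) = cs n x := by
  rw [cs, mFourier_neg_arg, mFourier_neg, Complex.conj_re, cs]

theorem cs_neg (n : ι → ℤ) (x : UnitAddTorus ι) : cs (-n) x = cs n x := by
  rw [cs, mFourier_neg, Complex.conj_re, cs]

/-- product formula -/
theorem cs_mul (n m : ι → ℤ) (x : UnitAddTorus ι) :
    cs n x * cs m x = (cs (n + m) x + cs (n - m) x) / 2 := by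
  unfold cs
  rw [sub_eq_add_neg, mFourier_add, mFourier_add, mFourier_neg]
  simp only [Complex.mul_re, Complex.conj_re, Complex.conj_im]
  ring

/-- invariance under `x ↦ -x` -/
def EvenM (μ : Measure (UnitAddTorus ι)) : Prop := μ.map (fun x => -x) = μ

omit [Fintype ι] in
theorem measurable_negT : Measurable (fun x : UnitAddTorus ι => -x) := by
  exact measurable_pi_iff.2 fun i => (measurable_pi_apply i).neg

theorem EvenM.integral_mFourier {μ : Measure (UnitAddTorus ι)} [IsFiniteMeasure μ] (h : EvenM μ)
    (n : ι → ℤ) : ∫ x, mFourier n x ∂μ = ((∫ x, cs n x ∂μ : ℝ) : ℂ) := by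
  have hint : Integrable (fun x => mFourier n x) μ :=
    Integrable.of_bound (C := ‖mFourier n‖) (mFourier n).continuous.aestronglyMeasurable
      (Eventually.of_forall fun p => (mFourier n).norm_coe_le_norm p)
  have h1 : ∫ x, mFourier n x ∂μ = ∫ x, (starRingEnd ℂ) (mFourier n x) ∂μ := by
    conv_lhs => rw [← h]
    rw [integral_map measurable_negT.aemeasurable (mFourier n).continuous.aestronglyMeasurable]
    apply integral_congr_ae
    refine Eventually.of_forall fun x => ?_
    show mFourier n (-x) = _
    rw [mFourier_neg_arg, mFourier_neg]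
  rw [integral_conj] at h1
  apply Complex.ext
  · rw [Complex.ofReal_re]
    exact (reCLM_int hint)
  · rw [Complex.ofReal_im]
    have := congrArg Complex.im h1
    rw [Complex.conj_im] at this
    linarith
where
  reCLM_int {μ : Measure (UnitAddTorus ι)} {n : ι → ℤ} (hint : Integrable (fun x => mFourier n x) μ) :
      (∫ x, mFourier n x ∂μ).re = ∫ x, cs n x ∂μ := by
    have := integral_re (𝕜 := ℂ) hint
    exact this.symm

theorem ext_torus_even {μ ν : Measure (UnitAddTorus ι)} [IsFiniteMeasure μ] [IsFiniteMeasure ν]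
    (hμ : EvenM μ) (hν : EvenM ν) (h : ∀ n : ι → ℤ, ∫ x, cs n x ∂μ = ∫ x, cs n x ∂ν) : μ = ν := by
  apply ext_torus
  intro n
  rw [hμ.integral_mFourier, hν.integral_mFourier, h]

/-- the point of the torus with momentum `k` -/
noncomputable def toT (k : ι → ℝ) : UnitAddTorus ι := fun i => ((k i / (2 * Real.pi) : ℝ) : UnitAddCircle)

omit [Fintype ι] in
theorem toT_measurable : Measurable (toT : (ι → ℝ) → UnitAddTorus ι) := by
  refine measurable_pi_iff.2 fun i => ?_
  have : Measurable (fun r : ℝ => ((r / (2 * Real.pi) : ℝ) : UnitAddCircle)) :=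
    AddCircle.measurable_mk'.comp (measurable_id.div_const _)
  exact this.comp (measurable_pi_apply i)

theorem cs_toT (n : ι → ℤ) (k : ι → ℝ) : cs n (toT k) = Real.cos (dotk k n) := by
  have h : mFourier n (toT k) = Complex.exp (((dotk k n : ℝ) : ℂ) * Complex.I) := by
    simp only [mFourier, ContinuousMap.coe_mk, toT]
    simp_rw [fourier_coe_apply]
    rw [← Complex.exp_sum]
    congr 1
    rw [dotk, Complex.ofReal_sum, Finset.sum_mul]
    apply Finset.sum_congr rfl
    intro i _
    have hpi : (Real.pi : ℂ) ≠ 0 := by exact_mod_cast Real.pi_ne_zero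
    push_cast
    field_simp
  rw [cs, h, Complex.exp_ofReal_mul_I_re]

/-- **Herglotz on the torus**: even positive semidefinite functions. -/
theorem herglotz_torus [DecidableEq ι] (C : (ι → ℤ) → ℝ) (heven : ∀ x, C (-x) = C x)
    (h0 : ∀ (s : Finset (ι → ℤ)) (a : (ι → ℤ) → ℝ),
      0 ≤ ∑ p ∈ s, ∑ q ∈ s, a p * a q * C (p - q)) :
    ∃ μ : Measure (UnitAddTorus ι), IsFiniteMeasure μ ∧ EvenM μ ∧ ∀ n, ∫ x, cs n x ∂μ = C n := by
  obtain ⟨ν, hν⟩ := herglotz C heven h0
  have hm : Measurable (fun k : ι → KI => toT (fun i => (k i : ℝ))) := by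
    apply toT_measurable.comp
    exact measurable_pi_iff.2 fun i => measurable_subtype_coe.comp (measurable_pi_apply i)
  let μ0 : Measure (UnitAddTorus ι) := (ν : Measure (ι → KI)).map (fun k => toT (fun i => (k i : ℝ)))
  have h0' : ∀ n, ∫ x, cs n x ∂μ0 = C n := by
    intro n
    rw [integral_map hm.aemeasurable (cs_continuous n).aestronglyMeasurable, ← hν n]
    apply integral_congr_ae
    exact Eventually.of_forall fun k => cs_toT n _
  have hfin : IsFiniteMeasure μ0 := inferInstance
  let μ1 : Measure (UnitAddTorus ι) := μ0.map (fun x => -x)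
  have hfin1 : IsFiniteMeasure μ1 := inferInstance
  have h1' : ∀ n, ∫ x, cs n x ∂μ1 = C n := by
    intro n
    rw [integral_map measurable_negT.aemeasurable (cs_continuous n).aestronglyMeasurable, ← h0' n]
    apply integral_congr_ae
    exact Eventually.of_forall fun k => cs_neg_arg n _
  refine ⟨(2⁻¹ : ℝ≥0∞) • (μ0 + μ1), ?_, ?_, fun n => ?_⟩
  · exact Measure.smul_finite _ (by simp)
  · unfold EvenM
    rw [Measure.map_smul, Measure.map_add _ _ measurable_negT]
    congr 1
    have : μ1.map (fun x => -x) = μ0 := by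
      show (μ0.map (fun x => -x)).map (fun x => -x) = μ0
      rw [Measure.map_map measurable_negT measurable_negT]
      have : ((fun x : UnitAddTorus ι => -x) ∘ fun x => -x) = id := by
        funext x; simp
      rw [this, Measure.map_id]
    rw [this, add_comm]
  · rw [integral_smul_measure, integral_add_measure (cs_integrable n μ0) (cs_integrable n μ1),
      h0', h1', smul_eq_mul]
    simp
    ring

end Vale.Agent.P153.RP
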